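import Mathlib

/-!
Errors of order three at zero in one variable, and the second-order expansion of real powers.
-/

namespace Vale.Agent.P227.Local

open Asymptotics Filter Topology

/-- `e` is of order three at zero. -/
def Err (e : ℝ → ℝ) : Prop := e =O[𝓝 0] fun s => s ^ 3

variable {e e' : ℝ → ℝ}

lemma Err.add (h : Err e) (h' : Err e') : Err (fun s => e s + e' s) := IsBigO.add h h'

lemma Err.sub (h : Err e) (h' : Err e') : Err (fun s => e s - e' s) := IsBigO.sub h h'

lemma Err.congr (h : Err e) (he : ∀ᶠ s in 𝓝 0, e s = e' s) : Err e' := h.congr' he .rfl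

lemma Err.mul_cont {k : ℝ → ℝ} (h : Err e) (hk : ContinuousAt k 0) : Err (fun s => k s * e s) := by
  have := (hk.isBigO_one ℝ).mul h
  simpa [Err] using this

lemma err_cube {k : ℝ → ℝ} (hk : ContinuousAt k 0) : Err (fun s => k s * s ^ 3) :=
  Err.mul_cont (isBigO_refl _ _) hk

lemma Err.tendsto (h : Err e) : Tendsto e (𝓝 0) (𝓝 0) :=
  IsBigO.trans_tendsto h (by simpa using ((continuous_pow 3).tendsto (0 : ℝ)))

lemma Err.mul (h : Err e) (h' : Err e') : Err (fun s => e s * e' s) := by
  have := (h.tendsto.isBigO_one ℝ).mul h'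
  simpa [Err] using this

lemma Err.reflect (h : Err e) : Err (fun s => e (-s)) := by
  have hn : Tendsto (fun s : ℝ => -s) (𝓝 0) (𝓝 0) := by simpa using continuous_neg.tendsto (0 : ℝ)
  refine (IsBigO.comp_tendsto h hn).trans (IsBigO.of_bound 1 (Eventually.of_forall fun s => ?_))
  simp

lemma Err.bound (h : Err e) : ∃ C > 0, ∃ δ > 0, ∀ s : ℝ, |s| < δ → |e s| ≤ C * |s| ^ 3 := by
  obtain ⟨C, hC, hb⟩ := IsBigO.exists_pos h
  obtain ⟨δ, hδ, hd⟩ := Metric.eventually_nhds_iff.1 hb.bound
  exact ⟨C, hC, δ, hδ, fun s hs => by simpa [abs_pow] using hd (by simpa [Real.dist_eq] using hs)⟩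

lemma coeff_nonpos {a b : ℝ} (he : Err e) (h : ∀ᶠ s in 𝓝 0, a * s + b * s ^ 2 ≤ e s) :
    a = 0 ∧ b ≤ 0 := by
  obtain ⟨C, hC, δ, hδ, hb⟩ := he.bound
  obtain ⟨δ', hδ', hd⟩ := Metric.eventually_nhds_iff.1 h
  have key : ∀ s : ℝ, |s| < δ → |s| < δ' → a * s + b * s ^ 2 ≤ C * |s| ^ 3 := fun s h1 h2 =>
    (hd (by simpa [Real.dist_eq] using h2)).trans ((le_abs_self _).trans (hb s h1))
  have tend : ∀ᶠ s in 𝓝[>] (0 : ℝ), s < δ ∧ s < δ' :=
    nhdsWithin_le_nhds ((gt_mem_nhds hδ).and (gt_mem_nhds hδ'))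
  have l1 : a ≤ 0 := by
    have hc : Tendsto (fun s : ℝ => C * s ^ 2 - b * s) (𝓝[>] 0) (𝓝 0) := by
      refine Tendsto.mono_left ?_ nhdsWithin_le_nhds
      simpa using ((by fun_prop : Continuous fun s : ℝ => C * s ^ 2 - b * s)).tendsto 0
    refine ge_of_tendsto hc ?_
    filter_upwards [tend, self_mem_nhdsWithin] with s hs (hpos : 0 < s)
    have hk := key s (by rw [abs_of_pos hpos]; exact hs.1) (by rw [abs_of_pos hpos]; exact hs.2)
    rw [abs_of_pos hpos] at hk
    exact le_of_mul_le_mul_right (by linarith [hk] : a * s ≤ (C * s ^ 2 - b * s) * s) hpos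
  have l2 : -a ≤ 0 := by
    have hc : Tendsto (fun s : ℝ => C * s ^ 2 - b * s) (𝓝[>] 0) (𝓝 0) := by
      refine Tendsto.mono_left ?_ nhdsWithin_le_nhds
      simpa using ((by fun_prop : Continuous fun s : ℝ => C * s ^ 2 - b * s)).tendsto 0
    refine ge_of_tendsto hc ?_
    filter_upwards [tend, self_mem_nhdsWithin] with s hs (hpos : 0 < s)
    have hk := key (-s) (by rw [abs_neg, abs_of_pos hpos]; exact hs.1)
      (by rw [abs_neg, abs_of_pos hpos]; exact hs.2)
    rw [abs_neg, abs_of_pos hpos] at hk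
    exact le_of_mul_le_mul_right (by linarith [hk] : -a * s ≤ (C * s ^ 2 - b * s) * s) hpos
  have ha : a = 0 := by linarith
  refine ⟨ha, ?_⟩
  have hc : Tendsto (fun s : ℝ => C * s) (𝓝[>] 0) (𝓝 0) := by
    refine Tendsto.mono_left ?_ nhdsWithin_le_nhds
    simpa using ((by fun_prop : Continuous fun s : ℝ => C * s)).tendsto 0
  refine ge_of_tendsto hc ?_
  filter_upwards [tend, self_mem_nhdsWithin] with s hs (hpos : 0 < s)
  have hk := key s (by rw [abs_of_pos hpos]; exact hs.1) (by rw [abs_of_pos hpos]; exact hs.2)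
  rw [abs_of_pos hpos, ha] at hk
  exact le_of_mul_le_mul_right (by linarith [hk] : b * s ^ 2 ≤ C * s * s ^ 2) (by positivity)

/-- The second-order Taylor polynomial of `(1 + u) ^ c`. -/
noncomputable def tay (c u : ℝ) : ℝ := 1 + c * u - c * (1 - c) / 2 * u ^ 2

lemma rpow_tay (c : ℝ) : Err (fun u => (1 + u) ^ c - tay c u) := by
  set p : ℝ → ℝ := fun u => u - u ^ 2 / 2 with hp
  set l : ℝ → ℝ := fun u => Real.log (1 + u) - p u with hl
  have el : Err l := by
    refine IsBigO.of_bound 2 ?_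
    filter_upwards [Metric.ball_mem_nhds (0 : ℝ) (by norm_num : (0 : ℝ) < 1 / 2)] with u hu
    rw [Metric.mem_ball, dist_zero_right, Real.norm_eq_abs] at hu
    have := Real.abs_log_sub_add_sum_range_le (x := -u) (by rw [abs_neg]; linarith) 2
    rw [abs_neg, sub_neg_eq_add] at this
    simp [Finset.sum_range_succ] at this
    rw [Real.norm_eq_abs, Real.norm_eq_abs, abs_pow]
    refine le_trans (le_of_eq_of_le ?_ this) ?_
    · congr 1; simp [hl, hp]; ring
    · rw [div_le_iff₀ (by linarith)]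
      nlinarith [pow_nonneg (abs_nonneg u) 3]
  set z : ℝ → ℝ := fun u => c * (p u + l u) with hz
  have hlog : ContinuousAt (fun u : ℝ => Real.log (1 + u)) 0 :=
    ContinuousAt.log (by fun_prop) (by norm_num)
  have hlc : ContinuousAt l 0 := hlog.sub (by fun_prop)
  have hz0 : Tendsto z (𝓝 0) (𝓝 0) := by
    have : ContinuousAt z 0 := continuousAt_const.mul ((by fun_prop : ContinuousAt p 0).add hlc)
    simpa [hz, hl, hp, ContinuousAt] using this
  have hzO : z =O[𝓝 0] fun u : ℝ => u := by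
    have h1 : p =O[𝓝 0] fun u : ℝ => u := by
      have := ((by fun_prop : ContinuousAt (fun u : ℝ => 1 - u / 2) 0).isBigO_one ℝ).mul
        (isBigO_refl (fun u : ℝ => u) (𝓝 0))
      simpa [hp] using this.congr_left fun u => by ring
    have h2 : l =O[𝓝 0] fun u : ℝ => u := by
      refine IsBigO.trans el ?_
      have := ((continuous_pow 2).continuousAt (x := (0 : ℝ))).isBigO_one ℝ |>.mul
        (isBigO_refl (fun u : ℝ => u) (𝓝 0))
      simpa using this.congr_left fun u => (pow_succ u 2).symm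
    exact (h1.add h2).const_mul_left c
  have he : Err (fun u => Real.exp (z u) - (1 + z u + z u ^ 2 / 2)) := by
    have hb : (fun w : ℝ => Real.exp w - (1 + w + w ^ 2 / 2)) =O[𝓝 0] fun w : ℝ => w ^ 3 := by
      refine IsBigO.of_bound 1 ?_
      filter_upwards [Metric.ball_mem_nhds (0 : ℝ) one_pos] with w hw
      rw [Metric.mem_ball, dist_zero_right, Real.norm_eq_abs] at hw
      have := Real.exp_bound hw.le (n := 3) (by norm_num)
      simp [Finset.sum_range_succ, Nat.factorial] at this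
      rw [Real.norm_eq_abs, Real.norm_eq_abs, abs_pow]
      refine this.trans ?_
      nlinarith [pow_nonneg (abs_nonneg w) 3]
    exact (hb.comp_tendsto hz0).trans (hzO.pow 3)
  have hr := ((he.add (el.mul_cont (k := fun u => c + c ^ 2 * (p u + l u / 2))
    (continuousAt_const.add (continuousAt_const.mul
      ((by fun_prop : ContinuousAt p 0).add (hlc.div_const 2)))))).add
    (err_cube (k := fun u => -(c ^ 2) / 2 + c ^ 2 * u / 8) (by fun_prop)))
  refine hr.congr ?_
  filter_upwards [Ioi_mem_nhds (by norm_num : (-1 : ℝ) < 0)] with u (hu : -1 < u)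
  rw [Real.rpow_def_of_pos (by linarith : 0 < 1 + u)]
  have : Real.log (1 + u) * c = z u := by simp [hz, hl]; ring
  rw [this]
  simp only [tay, hz, hp]
  ring

end Vale.Agent.P227.Local
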