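import Mathlib

/-!
Support functions of class C^2 away from the origin: gradient, the radial parametrisation of the
Wulff body and its change of variables.
-/

namespace Vale.Agent.P227.Local

open MeasureTheory Metric Set
open scoped RealInnerProductSpace

variable {n : ℕ}

/-- Euclidean space of dimension `n`. -/
abbrev Sp (n : ℕ) := EuclideanSpace ℝ (Fin n)

/-- Positively homogeneous of degree one and C^2 away from the origin. -/
structure Reg (f : (Sp n) → ℝ) : Prop where
  cd : ContDiffOn ℝ 2 f {0}ᶜ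
  hom : ∀ r : ℝ, 0 < r → ∀ x, f (r • x) = r * f x

noncomputable def grad (f : (Sp n) → ℝ) (x : (Sp n)) : (Sp n) :=
  (InnerProductSpace.toDual ℝ (Sp n)).symm (fderiv ℝ f x)

noncomputable def hess (f : (Sp n) → ℝ) (x : (Sp n)) : (Sp n) →L[ℝ] (Sp n) := fderiv ℝ (grad f) x

noncomputable def chart (f : (Sp n) → ℝ) (y : (Sp n)) : (Sp n) := ‖y‖ • grad f y

noncomputable def dchart (f : (Sp n) → ℝ) (y : (Sp n)) : (Sp n) →L[ℝ] (Sp n) := fderiv ℝ (chart f) y

/-- The Wulff body. -/
def body (f : (Sp n) → ℝ) : Set (Sp n) := {x | ∀ u ∈ sphere (0 : (Sp n)) 1, ⟪x, u⟫ ≤ f u}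

/-- Positive, with positive curvature. -/
structure Good (f : (Sp n) → ℝ) : Prop extends Reg f where
  pos : ∀ u : (Sp n), ‖u‖ = 1 → 0 < f u
  curv : ∀ u v : (Sp n), ‖u‖ = 1 → ‖v‖ = 1 → ⟪u, v⟫ = 0 → 0 < ⟪hess f u v, v⟫

variable {f g : (Sp n) → ℝ} {x y u v : (Sp n)}

lemma Reg.cdAt (hf : Reg f) (hx : x ≠ 0) : ContDiffAt ℝ 2 f x :=
  hf.cd.contDiffAt (isOpen_compl_singleton.mem_nhds hx)

lemma Reg.diff (hf : Reg f) (hx : x ≠ 0) : DifferentiableAt ℝ f x :=
  (hf.cdAt hx).differentiableAt (by norm_num)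

lemma Reg.zero (hf : Reg f) : f 0 = 0 := by
  have := hf.hom 2 (by norm_num) 0
  rw [smul_zero] at this
  linarith

lemma Reg.add (hf : Reg f) (hg : Reg g) : Reg (fun x => f x + g x) :=
  ⟨hf.cd.add hg.cd, fun r hr x => by rw [hf.hom r hr, hg.hom r hr]; ring⟩

lemma Reg.smul (hf : Reg f) (c : ℝ) : Reg (fun x => c * f x) :=
  ⟨contDiffOn_const.mul hf.cd, fun r hr x => by rw [hf.hom r hr]; ring⟩

lemma Reg.comp (hf : Reg f) (S : (Sp n) ≃L[ℝ] (Sp n)) : Reg (fun x => f (S x)) :=
  ⟨hf.cd.comp S.contDiff.contDiffOn (fun x hx => by simpa using hx),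
    fun r hr x => by rw [map_smul, hf.hom r hr]⟩

lemma inner_grad (f : (Sp n) → ℝ) (x v : (Sp n)) : ⟪grad f x, v⟫ = fderiv ℝ f x v := by
  rw [grad, InnerProductSpace.toDual_symm_apply]

lemma grad_lin (hf : Reg f) (hg : Reg g) (a b : ℝ) (hx : x ≠ 0) :
    grad (fun z => a * f z + b * g z) x = a • grad f x + b • grad g x := by
  have h : HasFDerivAt (fun z => a * f z + b * g z) (a • fderiv ℝ f x + b • fderiv ℝ g x) x :=
    ((hf.diff hx).hasFDerivAt.const_mul a).add ((hg.diff hx).hasFDerivAt.const_mul b)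
  simp [grad, h.fderiv]

lemma grad_hom (hf : Reg f) {r : ℝ} (hr : 0 < r) (hx : x ≠ 0) : grad f (r • x) = grad f x := by
  have hd := hf.diff (x := r • x) (smul_ne_zero hr.ne' hx)
  have h1 : HasFDerivAt (fun z => f (r • z)) (r • fderiv ℝ f (r • x)) x := by
    have := hd.hasFDerivAt.comp x ((hasFDerivAt_id (𝕜 := ℝ) x).const_smul r)
    convert this using 1 <;> ext z <;> simp
  have h2 : HasFDerivAt (fun z => f (r • z)) (r • fderiv ℝ f x) x := by
    simpa [hf.hom r hr] using (hf.diff hx).hasFDerivAt.const_mul r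
  have h3 := smul_right_injective ((Sp n) →L[ℝ] ℝ) hr.ne' (h1.unique h2)
  simp [grad, h3]

lemma euler (hf : Reg f) (hx : x ≠ 0) : ⟪grad f x, x⟫ = f x := by
  rw [inner_grad]
  have hl : HasDerivAt (fun r : ℝ => r • x) x 1 := by
    simpa using (hasDerivAt_id (1 : ℝ)).smul_const x
  have h1 := (show HasFDerivAt f (fderiv ℝ f x) ((1 : ℝ) • x) by
    simpa using (hf.diff hx).hasFDerivAt).comp_hasDerivAt (1 : ℝ) hl
  have h2 : HasDerivAt (f ∘ fun r : ℝ => r • x) (f x) 1 := by
    have : HasDerivAt (fun r : ℝ => r * f x) (f x) 1 := by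
      simpa using (hasDerivAt_id (1 : ℝ)).mul_const (f x)
    refine this.congr_of_eventuallyEq ?_
    filter_upwards [lt_mem_nhds one_pos] with r hr using hf.hom r hr x
  exact h1.unique h2

lemma grad_cd (hf : Reg f) : ContDiffOn ℝ 1 (grad f) {0}ᶜ :=
  (InnerProductSpace.toDual ℝ (Sp n)).symm.toContinuousLinearEquiv.contDiff.comp_contDiffOn
    (hf.cd.fderiv_of_isOpen isOpen_compl_singleton (by norm_num))

lemma grad_diff (hf : Reg f) (hx : x ≠ 0) : DifferentiableAt ℝ (grad f) x :=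
  ((grad_cd hf).contDiffAt (isOpen_compl_singleton.mem_nhds hx)).differentiableAt (by norm_num)

lemma hess_self (hf : Reg f) (hx : x ≠ 0) : hess f x x = 0 := by
  have hl : HasDerivAt (fun r : ℝ => r • x) x 1 := by
    simpa using (hasDerivAt_id (1 : ℝ)).smul_const x
  have h1 := (show HasFDerivAt (grad f) (hess f x) ((1 : ℝ) • x) by
    simpa [hess] using (grad_diff hf hx).hasFDerivAt).comp_hasDerivAt (1 : ℝ) hl
  have h2 : HasDerivAt (grad f ∘ fun r : ℝ => r • x) 0 1 := by
    refine (hasDerivAt_const (1 : ℝ) (grad f x)).congr_of_eventuallyEq ?_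
    filter_upwards [lt_mem_nhds one_pos] with r hr using grad_hom hf hr hx
  exact h1.unique h2

lemma inner_hess_self (hf : Reg f) (hx : x ≠ 0) (v : (Sp n)) : ⟪hess f x v, x⟫ = 0 := by
  have h1 : HasFDerivAt (fun z => ⟪grad f z, z⟫)
      ((fderivInnerCLM ℝ (grad f x, x)).comp ((hess f x).prod (ContinuousLinearMap.id ℝ (Sp n)))) x :=
    (grad_diff hf hx).hasFDerivAt.inner ℝ (hasFDerivAt_id x)
  have h2 : HasFDerivAt (fun z => ⟪grad f z, z⟫) (fderiv ℝ f x) x := by
    refine (hf.diff hx).hasFDerivAt.congr_of_eventuallyEq ?_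
    filter_upwards [isOpen_compl_singleton.mem_nhds hx] with z hz using euler hf hz
  have := DFunLike.congr_fun (h1.unique h2) v
  simp [fderivInnerCLM_apply, inner_grad] at this
  exact this

/-- Along a great circle the support function lies strictly above the tangent linear function. -/
lemma tangent_lt_aux (hf : Good f) (hu : ‖u‖ = 1) (hv : ‖v‖ = 1) (huv : ⟪u, v⟫ = 0)
    {θ : ℝ} (h0 : 0 < θ) (hθ : θ ≤ Real.pi) :
    ⟪grad f u, Real.cos θ • u + Real.sin θ • v⟫ < f (Real.cos θ • u + Real.sin θ • v) := by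
  set c : ℝ → (Sp n) := fun s => Real.cos s • u + Real.sin s • v with hc
  set d : ℝ → (Sp n) := fun s => -Real.sin s • u + Real.cos s • v with hd
  have hvu : ⟪v, u⟫ = 0 := by rw [real_inner_comm, huv]
  have cu : ∀ s, ‖c s‖ = 1 ∧ ‖d s‖ = 1 ∧ ⟪c s, d s⟫ = 0 := fun s => by
    have e : ⟪u, u⟫ = 1 ∧ ⟪v, v⟫ = 1 := by simp [hu, hv]
    have a : ⟪c s, c s⟫ = 1 := by
      simp only [hc, inner_add_left, inner_add_right, real_inner_smul_left, real_inner_smul_right,
        e.1, e.2, huv, hvu]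
      linear_combination Real.sin_sq_add_cos_sq s
    have b : ⟪d s, d s⟫ = 1 := by
      simp only [hd, inner_add_left, inner_add_right, real_inner_smul_left, real_inner_smul_right,
        e.1, e.2, huv, hvu]
      linear_combination Real.sin_sq_add_cos_sq s
    refine ⟨?_, ?_, ?_⟩
    · rw [norm_eq_sqrt_real_inner, a, Real.sqrt_one]
    · rw [norm_eq_sqrt_real_inner, b, Real.sqrt_one]
    · simp only [hc, hd, inner_add_left, inner_add_right, real_inner_smul_left,
        real_inner_smul_right, e.1, e.2, huv, hvu]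
      ring
  have cne : ∀ s, c s ≠ 0 := fun s h => by simpa [h] using (cu s).1
  have dc : ∀ s, HasDerivAt c (d s) s := fun s =>
    ((Real.hasDerivAt_cos s).smul_const u).add ((Real.hasDerivAt_sin s).smul_const v)
  have dd : ∀ s, HasDerivAt d (-c s) s := fun s => by
    refine ((((Real.hasDerivAt_sin s).neg).smul_const u).add
      ((Real.hasDerivAt_cos s).smul_const v)).congr_deriv ?_
    simp [hc]; abel
  set D : ℝ → ℝ := fun s => f (c s) - ⟪grad f u, c s⟫ with hD
  set D1 : ℝ → ℝ := fun s => ⟪grad f (c s), d s⟫ - ⟪grad f u, d s⟫ with hD1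
  have d1 : ∀ s, HasDerivAt D (D1 s) s := fun s => by
    have a := (hf.toReg.diff (cne s)).hasFDerivAt.comp_hasDerivAt s (dc s)
    have b := ((innerSL ℝ) (grad f u)).hasFDerivAt.comp_hasDerivAt s (dc s)
    have := a.sub b
    rw [← inner_grad] at this
    exact this
  have d2 : ∀ s, HasDerivAt D1 (⟪hess f (c s) (d s), d s⟫ - D s) s := fun s => by
    have a : HasDerivAt (fun r => ⟪grad f (c r), d r⟫)
        (⟪grad f (c s), -c s⟫ + ⟪hess f (c s) (d s), d s⟫) s :=
      HasDerivAt.inner ℝ ((grad_diff hf.toReg (cne s)).hasFDerivAt.comp_hasDerivAt s (dc s)) (dd s)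
    have b := ((innerSL ℝ) (grad f u)).hasFDerivAt.comp_hasDerivAt s (dd s)
    refine (a.sub b).congr_deriv ?_
    simp [hD, inner_neg_right, euler hf.toReg (cne s)]; ring
  set k : ℝ → ℝ := fun s => D1 s * Real.sin (θ - s) + D s * Real.cos (θ - s) with hk
  have dk : ∀ s, HasDerivAt k (⟪hess f (c s) (d s), d s⟫ * Real.sin (θ - s)) s := fun s => by
    have ha : HasDerivAt (fun r => θ - r) (-1) s := (hasDerivAt_id s).const_sub θ
    refine (((d2 s).mul ((Real.hasDerivAt_sin _).comp s ha)).add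
      ((d1 s).mul ((Real.hasDerivAt_cos _).comp s ha))).congr_deriv ?_
    simp only [Function.comp]
    ring
  have hm : StrictMonoOn k (Icc 0 θ) := by
    apply strictMonoOn_of_deriv_pos (convex_Icc 0 θ)
      (fun s _ => (dk s).continuousAt.continuousWithinAt)
    intro s hs
    rw [interior_Icc] at hs
    rw [(dk s).deriv]
    exact mul_pos (hf.curv _ _ (cu s).1 (cu s).2.1 (cu s).2.2)
      (Real.sin_pos_of_pos_of_lt_pi (by linarith [hs.2]) (by linarith [hs.1]))
  have := hm (left_mem_Icc.2 h0.le) (right_mem_Icc.2 h0.le) h0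
  have e0 : c 0 = u := by simp [hc]
  have hu0 : u ≠ 0 := fun h => by simp [h] at hu
  simp only [hk, hD1, hD, e0, sub_self, euler hf.toReg hu0, sub_zero, Real.sin_zero,
    Real.cos_zero, zero_mul, mul_zero, add_zero, zero_add, mul_one] at this
  linarith

lemma tangent_lt (hf : Good f) (hu : ‖u‖ = 1) (hv : ‖v‖ = 1) (hne : v ≠ u) :
    ⟪grad f u, v⟫ < f v := by
  set a := ⟪u, v⟫ with ha
  have hu0 : u ≠ 0 := fun h => by simp [h] at hu
  have a1 : |a| ≤ 1 := by simpa [hu, hv] using abs_real_inner_le_norm u v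
  by_cases hcase : v = -u
  · have := hf.pos v hv
    have h2 := hf.pos u hu
    rw [hcase, inner_neg_right, euler hf.toReg hu0]
    linarith [hcase ▸ this]
  have an : a ≠ 1 := fun h => hne ((inner_eq_one_iff_of_norm_eq_one hu hv).1 h).symm
  obtain ⟨w, hw1, hw2, hw3⟩ : ∃ w : (Sp n), ‖w‖ = 1 ∧ ⟪u, w⟫ = 0 ∧
      v = a • u + Real.sqrt (1 - a ^ 2) • w := by
    have e : ‖v - a • u‖ ^ 2 = 1 - a ^ 2 := by
      rw [norm_sub_sq_real, norm_smul, hu, hv, real_inner_smul_right, real_inner_comm, ← ha]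
      simp; ring
    rcases eq_or_ne (v - a • u) 0 with h | h
    · exfalso
      rw [h, norm_zero] at e
      have ha' : a = -1 := by
        rcases sq_eq_one_iff.1 (show a ^ 2 = 1 by linarith) with h1 | h1
        · exact absurd h1 an
        · exact h1
      exact hcase (by rw [sub_eq_zero.1 h, ha']; simp)
    · refine ⟨‖v - a • u‖⁻¹ • (v - a • u), norm_smul_inv_norm h, ?_, ?_⟩
      · simp [real_inner_smul_right, inner_sub_right, ← ha, hu]
      · rw [← e, Real.sqrt_sq (norm_nonneg _), smul_smul, mul_inv_cancel₀ (norm_ne_zero_iff.2 h)]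
        simp
  have ab := abs_le.1 a1
  have := tangent_lt_aux hf hu hw1 hw2 (θ := Real.arccos a)
    (Real.arccos_pos.2 (lt_of_le_of_ne ab.2 an)) (Real.arccos_le_pi a)
  rwa [Real.cos_arccos ab.1 ab.2, Real.sin_arccos, ← hw3] at this

lemma tangent_le (hf : Good f) (hu : ‖u‖ = 1) (hv : ‖v‖ = 1) : ⟪grad f u, v⟫ ≤ f v := by
  rcases eq_or_ne v u with rfl | h
  · exact (euler hf.toReg (fun h => by simp [h] at hv)).le
  · exact (tangent_lt hf hu hv h).le

lemma grad_mem_body (hf : Good f) (hu : ‖u‖ = 1) : grad f u ∈ body f := fun _ hv =>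
  tangent_le hf hu (mem_sphere_zero_iff_norm.1 hv)

lemma chart_polar (hf : Reg f) (hy : y ≠ 0) :
    chart f y = ‖y‖ • grad f (‖y‖⁻¹ • y) ∧ ‖‖y‖⁻¹ • y‖ = 1 :=
  ⟨by rw [chart, grad_hom hf (inv_pos.2 (norm_pos_iff.2 hy)) hy], norm_smul_inv_norm hy⟩

lemma chart_injOn (hf : Good f) : InjOn (chart f) {0}ᶜ := by
  intro y hy z hz he
  obtain ⟨ey, hu⟩ := chart_polar hf.toReg hy
  obtain ⟨ez, hv⟩ := chart_polar hf.toReg hz
  set u := ‖y‖⁻¹ • y
  set v := ‖z‖⁻¹ • z
  rw [ey, ez] at he
  have ne : ∀ {w : (Sp n)}, ‖w‖ = 1 → w ≠ 0 := fun hw h => by simp [h] at hw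
  have a := congrArg (fun w : (Sp n) => ⟪w, u⟫) he
  have b := congrArg (fun w : (Sp n) => ⟪w, v⟫) he
  simp only [real_inner_smul_left, euler hf.toReg (ne hu), euler hf.toReg (ne hv)] at a b
  have ry : 0 < ‖y‖ := norm_pos_iff.2 hy
  have rz : 0 < ‖z‖ := norm_pos_iff.2 hz
  have l1 : ‖y‖ ≤ ‖z‖ := by
    refine le_of_mul_le_mul_right ?_ (hf.pos u hu)
    rw [a]; exact mul_le_mul_of_nonneg_left (tangent_le hf hv hu) rz.le
  have l2 : ‖z‖ ≤ ‖y‖ := by
    refine le_of_mul_le_mul_right ?_ (hf.pos v hv)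
    rw [← b]; exact mul_le_mul_of_nonneg_left (tangent_le hf hu hv) ry.le
  have er := le_antisymm l1 l2
  rcases eq_or_ne v u with h | h
  · calc y = ‖y‖ • u := by simp [u, smul_smul, ry.ne']
      _ = ‖z‖ • v := by rw [h, er]
      _ = z := by simp [v, smul_smul, rz.ne']
  · have := mul_lt_mul_of_pos_left (tangent_lt hf hu hv h) ry
    rw [b, er] at this
    exact absurd this (lt_irrefl _)

lemma cont_sphere (hf : Reg f) : ContinuousOn f (sphere (0 : (Sp n)) 1) :=
  hf.cd.continuousOn.mono fun _ hx => ne_zero_of_mem_unit_sphere ⟨_, hx⟩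

lemma chart_image (hf : Good f) :
    chart f '' (closedBall (0 : (Sp n)) 1 \ {0}) = body f \ {0} := by
  ext x
  constructor
  · rintro ⟨y, ⟨hy1, hy0⟩, rfl⟩
    obtain ⟨ey, hu⟩ := chart_polar hf.toReg hy0
    rw [ey]
    refine ⟨fun v hv => ?_, ?_⟩
    · rw [real_inner_smul_left]
      have hv1 := mem_sphere_zero_iff_norm.1 hv
      calc ‖y‖ * ⟪grad f (‖y‖⁻¹ • y), v⟫ ≤ ‖y‖ * f v :=
            mul_le_mul_of_nonneg_left (tangent_le hf hu hv1) (norm_nonneg _)
        _ ≤ f v := mul_le_of_le_one_left (hf.pos v hv1).le (mem_closedBall_zero_iff.1 hy1)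
    · refine smul_ne_zero (norm_ne_zero_iff.2 hy0) fun h => ?_
      have := euler hf.toReg (x := ‖y‖⁻¹ • y) (fun h => by simp [h] at hu)
      rw [h, inner_zero_left] at this
      exact (hf.pos _ hu).ne this
  · rintro ⟨hx, hx0⟩
    have hx0 : x ≠ 0 := hx0
    have hfc := cont_sphere hf.toReg
    obtain ⟨u, hu, hmax⟩ := (isCompact_sphere (0 : (Sp n)) 1).exists_isMaxOn
      ⟨‖x‖⁻¹ • x, mem_sphere_zero_iff_norm.2 (norm_smul_inv_norm hx0)⟩
      ((continuous_const.inner continuous_id).continuousOn.div hfc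
        fun z hz => (hf.pos z (mem_sphere_zero_iff_norm.1 hz)).ne' :
        ContinuousOn (fun z : (Sp n) => ⟪x, z⟫ / f z) _)
    have hu1 := mem_sphere_zero_iff_norm.1 hu
    have hu0 : u ≠ 0 := fun h => by simp [h] at hu1
    set r := ⟪x, u⟫ / f u with hr
    have hle : ∀ z : (Sp n), ⟪x, z⟫ ≤ r * f z := by
      intro z
      rcases eq_or_ne z 0 with rfl | hz
      · simp [hf.toReg.zero]
      have hz1 : ‖‖z‖⁻¹ • z‖ = 1 := norm_smul_inv_norm hz
      have hm : ⟪x, ‖z‖⁻¹ • z⟫ / f (‖z‖⁻¹ • z) ≤ r := hmax (mem_sphere_zero_iff_norm.2 hz1)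
      have := (div_le_iff₀ (hf.pos _ hz1)).1 hm
      rw [real_inner_smul_right, hf.hom _ (inv_pos.2 (norm_pos_iff.2 hz))] at this
      have h := mul_le_mul_of_nonneg_left this (norm_nonneg z)
      rwa [← mul_assoc, mul_inv_cancel₀ (norm_ne_zero_iff.2 hz), one_mul, mul_left_comm r,
        ← mul_assoc, mul_inv_cancel₀ (norm_ne_zero_iff.2 hz), one_mul] at h
    have rpos : 0 < r := by
      have h := hle x
      have hp : 0 < f x := by
        have hn : ‖(‖x‖⁻¹ : ℝ) • x‖ = 1 := norm_smul_inv_norm hx0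
        have := hf.pos _ hn
        rw [hf.hom _ (inv_pos.2 (norm_pos_iff.2 hx0))] at this
        exact pos_of_mul_pos_right this (inv_nonneg.2 (norm_nonneg _))
      exact pos_of_mul_pos_left ((real_inner_self_pos.2 hx0).trans_le h) hp.le
    have r1 : r ≤ 1 := (div_le_one (hf.pos u hu1)).2 (hx u hu)
    have hu_eq : r * f u - ⟪x, u⟫ = 0 := by
      rw [hr, div_mul_cancel₀ _ (hf.pos u hu1).ne']; ring
    have hmin : IsLocalMin (fun z => r * f z - (innerSL ℝ x) z) u :=
      Filter.Eventually.of_forall fun z => by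
        simp only [innerSL_apply_apply]; linarith [hle z]
    have hd := hmin.hasFDerivAt_eq_zero
      (((hf.toReg.diff hu0).hasFDerivAt.const_mul r).sub (innerSL ℝ x).hasFDerivAt)
    have hx_eq : x = r • grad f u := by
      refine ext_inner_right ℝ fun z => ?_
      have := DFunLike.congr_fun hd z
      simp at this
      rw [real_inner_smul_left, inner_grad]; linarith
    refine ⟨r • u, ⟨?_, smul_ne_zero rpos.ne' hu0⟩, ?_⟩
    · simp [norm_smul, hu1, abs_of_pos rpos, r1]
    · rw [chart, grad_hom hf.toReg rpos hu0, norm_smul, hu1, mul_one, Real.norm_eq_abs,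
        abs_of_pos rpos, hx_eq]

lemma chart_cd (hf : Reg f) : ContDiffOn ℝ 1 (chart f) {0}ᶜ := fun y hy =>
  ((contDiffAt_norm ℝ hy).contDiffWithinAt).smul (grad_cd hf y hy)

lemma chart_diff (hf : Reg f) (hy : y ≠ 0) : HasFDerivAt (chart f) (dchart f y) y :=
  (((chart_cd hf).contDiffAt (isOpen_compl_singleton.mem_nhds hy)).differentiableAt
    (by norm_num)).hasFDerivAt

lemma dchart_cont (hf : Reg f) : ContinuousOn (dchart f) {0}ᶜ :=
  (chart_cd hf).continuousOn_fderiv_of_isOpen isOpen_compl_singleton le_rfl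

lemma dchart_hom (hf : Reg f) {r : ℝ} (hr : 0 < r) (hy : y ≠ 0) :
    dchart f (r • y) = dchart f y := by
  have h1 := (chart_diff hf (smul_ne_zero hr.ne' hy)).comp y
    ((hasFDerivAt_id (𝕜 := ℝ) y).const_smul r)
  have h2 : HasFDerivAt (chart f ∘ fun z => r • z) (r • dchart f y) y := by
    refine ((chart_diff hf hy).const_smul r).congr_of_eventuallyEq ?_
    filter_upwards [isOpen_compl_singleton.mem_nhds hy] with z hz
    simp [Function.comp, chart, grad_hom hf hr hz, norm_smul, abs_of_pos hr, smul_smul]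
  have h3 := h1.unique h2
  refine smul_right_injective ((Sp n) →L[ℝ] (Sp n)) hr.ne' ?_
  change r • dchart f (r • y) = r • dchart f y
  rw [← h3]; ext z; simp

lemma dchart_lin (hf : Reg f) (hg : Reg g) (a b : ℝ) (hy : y ≠ 0) :
    dchart (fun z => a * f z + b * g z) y = a • dchart f y + b • dchart g y := by
  refine HasFDerivAt.fderiv ?_
  refine (((chart_diff hf hy).const_smul a).add ((chart_diff hg hy).const_smul b)).congr_of_eventuallyEq ?_
  filter_upwards [isOpen_compl_singleton.mem_nhds hy] with z hz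
  simp [chart, grad_lin hf hg a b hz, smul_add, smul_comm a, smul_comm b]

lemma dchart_apply (hf : Reg f) (hu : ‖u‖ = 1) (v : (Sp n)) :
    dchart f u v = hess f u v + ⟪u, v⟫ • grad f u := by
  have hu0 : u ≠ 0 := fun h => by simp [h] at hu
  have hn : HasFDerivAt (fun z : (Sp n) => ‖z‖) (innerSL ℝ u) u := by
    refine (((hasStrictFDerivAt_norm_sq u).hasFDerivAt).sqrt (by simp [hu])).congr_of_eventuallyEq
      (Filter.Eventually.of_forall fun z => (Real.sqrt_sq (norm_nonneg z)).symm) |>.congr_fderiv ?_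
    ext z; simp [hu]
  have h : HasFDerivAt (chart f) (‖u‖ • hess f u + (innerSL ℝ u).smulRight (grad f u)) u :=
    hn.smul (grad_diff hf hu0).hasFDerivAt
  rw [dchart, h.fderiv]
  simp [hu]

lemma dchart_inj (hf : Good f) (hu : ‖u‖ = 1) (h : dchart f u v = 0) : v = 0 := by
  have hu0 : u ≠ 0 := fun h => by simp [h] at hu
  rw [dchart_apply hf.toReg hu] at h
  have a := congrArg (fun w : (Sp n) => ⟪w, u⟫) h
  simp only [inner_add_left, real_inner_smul_left, inner_hess_self hf.toReg hu0,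
    euler hf.toReg hu0, inner_zero_left, zero_add, mul_eq_zero] at a
  have huv : ⟪u, v⟫ = 0 := a.resolve_right (hf.pos u hu).ne'
  rw [huv, zero_smul, add_zero] at h
  by_contra hv
  have := hf.curv u (‖v‖⁻¹ • v) hu (norm_smul_inv_norm hv)
    (by rw [real_inner_smul_right, huv, mul_zero])
  simp [h] at this

lemma dchart_det_ne (hf : Good f) (hy : y ≠ 0) : (dchart f y).det ≠ 0 := by
  have hu : ‖‖y‖⁻¹ • y‖ = 1 := norm_smul_inv_norm hy
  rw [← dchart_hom hf.toReg (inv_pos.2 (norm_pos_iff.2 hy)) hy]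
  intro h
  obtain ⟨v, hv, hv0⟩ := Submodule.exists_mem_ne_zero_of_ne_bot
    (LinearMap.bot_lt_ker_of_det_eq_zero h).ne'
  exact hv0 (dchart_inj hf hu hv)

lemma volume_body [NeZero n] (hf : Good f) :
    volume.real (body f) = ∫ y in closedBall (0 : (Sp n)) 1 \ {0}, |(dchart f y).det| := by
  have hs : MeasurableSet (closedBall (0 : (Sp n)) 1 \ {0}) :=
    measurableSet_closedBall.diff (measurableSet_singleton 0)
  have key := integral_image_eq_integral_abs_det_fderiv_smul volume hs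
    (fun y hy => (chart_diff hf.toReg hy.2).hasFDerivWithinAt)
    ((chart_injOn hf).mono fun y hy => hy.2) (fun _ => (1 : ℝ))
  rw [chart_image hf, setIntegral_const] at key
  simp only [smul_eq_mul, mul_one] at key
  rw [← key]
  exact (measureReal_congr (sdiff_null_ae_eq_self (measure_singleton 0))).symm

end Vale.Agent.P227.Local
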