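import Vale.Agent.P227.Local.Fibre

/-!
The sector odd under a reflection: the loss of volume controls the logarithmic correction.
-/

namespace Vale.Agent.P227.Local.Fibre

open MeasureTheory Set Filter Topology
open scoped ENNReal Pointwise

variable {m : ℕ}

/-- A symmetric gauge, invariant under the first reflection. -/
structure Gauge (F : (Fin (m + 1) → ℝ) → ℝ) : Prop where
  cont : Continuous F
  pos : ∀ u, u ≠ 0 → 0 < F u
  hom : ∀ c : ℝ, 0 ≤ c → ∀ u, F (c • u) = c * F u
  even : ∀ u, F (-u) = F u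
  inv : ∀ u, F (flip0 u) = F u
  mono : ∀ u, F (Fin.cons 0 (Fin.tail u)) ≤ F u

/-- An even test function, odd under the first reflection. -/
structure Test (B : ℝ) (G : (Fin (m + 1) → ℝ) → ℝ) : Prop where
  even : ∀ u, G (-u) = G u
  odd : ∀ u, G (flip0 u) = -G u
  bound : ∀ u, |G u| ≤ B * |u 0|

/-- The base: the horizontal section. -/
def fib' (X : Set (Fin (m + 1) → ℝ)) : Set (Fin m → ℝ) :=
  {y | (Fin.cons 0 y : Fin (m + 1) → ℝ) ∈ X}

/-- The logarithmic correction. -/
noncomputable def corr (F G : (Fin (m + 1) → ℝ) → ℝ) (u : Fin (m + 1) → ℝ) : ℝ :=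
  G u ^ 2 / (2 * F u)

variable {F G : (Fin (m + 1) → ℝ) → ℝ} {B : ℝ}

lemma Gauge.zero (hF : Gauge F) : F 0 = 0 := by simpa using hF.hom 0 le_rfl 0

lemma Gauge.nonneg (hF : Gauge F) (u : Fin (m + 1) → ℝ) : 0 ≤ F u := by
  rcases eq_or_ne u 0 with rfl | h
  · rw [hF.zero]
  · exact (hF.pos u h).le

lemma Gauge.norm_le (hF : Gauge F) : ∃ c > 0, ∀ u, c * ‖u‖ ≤ F u := by
  have hne : (Metric.sphere (0 : Fin (m + 1) → ℝ) 1).Nonempty :=
    ⟨fun _ => 1, by simp⟩
  obtain ⟨v, hv, hmin⟩ := (isCompact_sphere _ 1).exists_isMinOn hne hF.cont.continuousOn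
  have hv0 : v ≠ 0 := ne_zero_of_mem_unit_sphere ⟨v, hv⟩
  refine ⟨F v, hF.pos v hv0, fun u => ?_⟩
  rcases eq_or_ne u 0 with rfl | h
  · simp [hF.zero]
  have hn : 0 < ‖u‖ := norm_pos_iff.2 h
  have hmem : ‖u‖⁻¹ • u ∈ Metric.sphere (0 : Fin (m + 1) → ℝ) 1 := by
    simp [norm_smul, hn.ne']
  have := mul_le_mul_of_nonneg_right (hmin hmem) hn.le
  simp only [mem_ofPred_eq, hF.hom _ (inv_nonneg.2 hn.le)] at this
  refine this.trans (le_of_eq ?_)
  field_simp

lemma flip0_cons (t : ℝ) (y : Fin m → ℝ) :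
    flip0 (Fin.cons t y : Fin (m + 1) → ℝ) = Fin.cons (-t) y := by
  simp [flip0]

lemma abs_mem (hF : Gauge F) {t : ℝ} {y : Fin m → ℝ}
    (h : (Fin.cons t y : Fin (m + 1) → ℝ) ∈ wulff F) (u : Fin (m + 1) → ℝ) :
    |t * u 0| + y ⬝ᵥ Fin.tail u ≤ F u := by
  have h1 := h u
  have h2 := h (flip0 u)
  rw [dot_cons] at h1 h2
  rw [hF.inv] at h2
  simp [flip0] at h2
  rcases abs_choice (t * u 0) with e | e <;> rw [e] <;> linarith

/-- Interior points of the base have a positive fibre and a supporting direction which is not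
horizontal. -/
lemma contact (hF : Gauge F) {y : Fin m → ℝ} (hy : y ∈ interior (fib' (wulff F))) :
    ∃ w : ℝ, 0 < w ∧ fib (wulff F) y = Icc (-w) w ∧
      ∃ ν : Fin (m + 1) → ℝ, 0 < ν 0 ∧ w * ν 0 + y ⬝ᵥ Fin.tail ν = F ν := by
  set K := wulff F
  have hy0 : (Fin.cons 0 y : Fin (m + 1) → ℝ) ∈ K :=
    (interior_subset hy : y ∈ fib' K)
  obtain ⟨c, hc, hcF⟩ := hF.norm_le
  obtain ⟨δ, hδ, hball⟩ := Metric.isOpen_iff.1 isOpen_interior y hy
  set q : ℝ := δ / (2 * (‖y‖ + δ)) with hq
  have hq0 : 0 < q := by positivity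
  have hqb : q * ‖y‖ < δ := by
    rw [hq, div_mul_eq_mul_div, div_lt_iff₀ (by positivity)]
    nlinarith [norm_nonneg y]
  have hy' : (Fin.cons 0 ((1 + q) • y) : Fin (m + 1) → ℝ) ∈ K := by
    refine (interior_subset : interior (fib' K) ⊆ fib' K) (hball ?_)
    rw [Metric.mem_ball, dist_eq_norm, add_smul, one_smul, add_sub_cancel_left, norm_smul,
      Real.norm_eq_abs, abs_of_pos hq0]
    exact hqb
  have hgap : ∀ u, y ⬝ᵥ Fin.tail u ≤ F u / (1 + q) := fun u => by
    have h := hy' u
    rw [dot_cons, zero_mul, zero_add, smul_dotProduct, smul_eq_mul] at h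
    rw [le_div_iff₀ (by linarith)]
    linarith
  have hcomp : IsCompact (fib K y) := by
    refine (isCompact_Icc (a := -(F (Pi.single 0 1))) (b := F (Pi.single 0 1))).of_isClosed_subset
      ((isClosed_wulff F).preimage (continuous_id.finCons continuous_const)) fun t ht => ?_
    have := abs_mem hF ht (Pi.single 0 1)
    simp [Fin.tail, dotProduct] at this
    exact abs_le.1 this
  obtain ⟨w, hw, hmax⟩ := hcomp.exists_isGreatest ⟨0, hy0⟩
  set t0 : ℝ := q * c / (1 + q) with ht0
  have hw0 : 0 < w := by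
    refine lt_of_lt_of_le (by positivity : 0 < t0) (hmax fun u => ?_)
    rw [dot_cons]
    have h1 : t0 * u 0 ≤ q / (1 + q) * F u := by
      rw [ht0, mul_div_right_comm, mul_assoc]
      refine mul_le_mul_of_nonneg_left ?_ (by positivity)
      exact (mul_le_mul_of_nonneg_left ((le_abs_self _).trans (norm_le_pi_norm u 0)) hc.le).trans
        (hcF u)
    have h2 := hgap u
    have : q / (1 + q) * F u + F u / (1 + q) = F u := by field_simp; ring
    linarith
  refine ⟨w, hw0, ?_, ?_⟩
  · refine Subset.antisymm (fun t ht => ⟨?_, hmax ht⟩) ?_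
    · have : -t ∈ fib K y := fun u => by
        have := abs_mem hF ht u
        rw [dot_cons]
        linarith [neg_abs_le (t * u 0)]
      linarith [hmax this]
    · intro t ht u
      rw [dot_cons]
      have := abs_mem hF hw u
      have ht' : |t| ≤ w := abs_le.2 ⟨ht.1, ht.2⟩
      have : t * u 0 ≤ |w * u 0| := by
        rw [abs_mul, abs_of_pos hw0]
        refine (le_abs_self _).trans ?_
        rw [abs_mul]
        exact mul_le_mul_of_nonneg_right ht' (abs_nonneg _)
      linarith
  set S := Metric.sphere (0 : Fin (m + 1) → ℝ) 1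
  have hSne : S.Nonempty := ⟨fun _ => 1, by simp [S]⟩
  have hS0 : ∀ u ∈ S, u ≠ 0 := fun u hu => ne_zero_of_mem_unit_sphere ⟨u, hu⟩
  set x : Fin (m + 1) → ℝ := Fin.cons w y
  obtain ⟨v, hv, hvmax⟩ := (isCompact_sphere (0 : Fin (m + 1) → ℝ) 1).exists_isMaxOn hSne
    (ContinuousOn.div (f := fun u => x ⬝ᵥ u)
      (continuous_finsetSum _ fun i _ => continuous_const.mul (continuous_apply i)).continuousOn
      hF.cont.continuousOn fun u hu => (hF.pos u (hS0 u hu)).ne')
  set r := x ⬝ᵥ v / F v with hr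
  have hle : ∀ u, x ⬝ᵥ u ≤ r * F u := fun u => by
    rcases eq_or_ne u 0 with rfl | h
    · simp [hF.zero]
    have hn : 0 < ‖u‖ := norm_pos_iff.2 h
    have hm : ‖u‖⁻¹ • u ∈ S := by simp [S, norm_smul, hn.ne']
    have := hvmax hm
    simp only [mem_ofPred_eq, Pi.div_apply, dotProduct_smul, smul_eq_mul, hF.hom _ (inv_nonneg.2 hn.le)] at this
    rwa [mul_div_mul_left _ _ (inv_ne_zero hn.ne'), div_le_iff₀ (hF.pos u h)] at this
  have hr1 : r = 1 := by
    refine le_antisymm ((div_le_one (hF.pos v (hS0 v hv))).2 (hw v)) ?_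
    by_contra hlt
    rw [not_le] at hlt
    have : w + (1 - r) * c ≤ w := hmax fun u => by
      rw [dot_cons]
      have h1 := hle u
      rw [show x ⬝ᵥ u = w * u 0 + y ⬝ᵥ Fin.tail u from dot_cons _ _ _] at h1
      have h2 : (1 - r) * (c * u 0) ≤ (1 - r) * F u := mul_le_mul_of_nonneg_left
        ((mul_le_mul_of_nonneg_left ((le_abs_self _).trans (norm_le_pi_norm u 0)) hc.le).trans
          (hcF u)) (by linarith)
      linarith
    nlinarith
  have heq : w * v 0 + y ⬝ᵥ Fin.tail v = F v := by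
    rw [← dot_cons, ← div_eq_one_iff_eq (hF.pos v (hS0 v hv)).ne']
    exact hr1
  refine ⟨v, ?_, heq⟩
  have h1 := hgap v
  have h2 : F v / (1 + q) < F v :=
    div_lt_self (hF.pos v (hS0 v hv)) (by linarith)
  by_contra hv0
  rw [not_lt] at hv0
  nlinarith

/-- The three-body inequality for one vertical line. -/
lemma pointwise {w r e u s B W φ : ℝ} (hw : 0 < w) (hwW : w ≤ W) (hr0 : 0 ≤ r) (hrw : r ≤ w)
    (hu : |u| ≤ B) (he : W * (2 * (e - w)) ≤ s ^ 2 * u ^ 2)
    (hφ : r ^ 2 + max 0 (min r (|s * u| - (w - r))) ^ 2 ≤ φ) :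
    W * (2 * e) + w ^ 2 + (W + |s| * B) * (2 * r)
      ≤ φ + (2 * W + |s| * B) * (2 * w) + if w < |s| * B then s ^ 2 * B ^ 2 else 0 := by
  have hB : 0 ≤ B := (abs_nonneg u).trans hu
  have hsB : 0 ≤ |s| * B := mul_nonneg (abs_nonneg s) hB
  have hz := sq_nonneg (max 0 (min r (|s * u| - (w - r))))
  have hd : 0 ≤ w - r := by linarith
  have hsu : s ^ 2 * u ^ 2 = |s * u| ^ 2 := by rw [sq_abs, mul_pow]
  have hsu' : |s * u| ≤ |s| * B := by
    rw [abs_mul]; exact mul_le_mul_of_nonneg_left hu (abs_nonneg s)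
  split_ifs with hc
  · have : s ^ 2 * u ^ 2 ≤ s ^ 2 * B ^ 2 := by
      refine mul_le_mul_of_nonneg_left ?_ (sq_nonneg s)
      rw [← sq_abs u]
      exact pow_le_pow_left₀ (abs_nonneg u) hu 2
    nlinarith [mul_nonneg hd (by linarith : (0 : ℝ) ≤ 2 * W - w - r), mul_nonneg hd hsB]
  · rw [not_lt] at hc
    have hmin : min r (|s * u| - (w - r)) = |s * u| - (w - r) := min_eq_right (by linarith)
    rw [hmin] at hφ hz
    have key : |s * u| ^ 2
        ≤ max 0 (|s * u| - (w - r)) ^ 2 + 2 * |s * u| * (w - r) := by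
      rcases le_total (|s * u| - (w - r)) 0 with h | h
      · rw [max_eq_left h]
        nlinarith [abs_nonneg (s * u)]
      · rw [max_eq_right h]
        nlinarith
    nlinarith [mul_nonneg hd (by linarith : (0 : ℝ) ≤ 2 * W - w - r),
      mul_le_mul_of_nonneg_right hsu' hd]

/-- Perturbation by a test function. -/
def pert (F G : (Fin (m + 1) → ℝ) → ℝ) (s : ℝ) : (Fin (m + 1) → ℝ) → ℝ := fun u => F u + s * G u

lemma fib_eq_Icc {X : Set (Fin (m + 1) → ℝ)} (hc : IsCompact X) (hv : Convex ℝ X)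
    {y : Fin m → ℝ} (hne : (fib X y).Nonempty) :
    ∃ a b, a ≤ b ∧ a ∈ fib X y ∧ b ∈ fib X y ∧ fib X y = Icc a b := by
  have hk : IsCompact (fib X y) := by
    obtain ⟨R, hR⟩ := hc.isBounded.exists_norm_le
    refine (isCompact_Icc (a := -R) (b := R)).of_isClosed_subset
      (hc.isClosed.preimage (continuous_id.finCons continuous_const)) fun t ht => abs_le.1 ?_
    simpa using (norm_le_pi_norm (Fin.cons t y : Fin (m + 1) → ℝ) 0).trans (hR _ ht)
  obtain ⟨a, ha, ha'⟩ := hk.exists_isLeast hne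
  obtain ⟨b, hb, hb'⟩ := hk.exists_isGreatest hne
  refine ⟨a, b, ha' hb, ha, hb, Subset.antisymm (fun t ht => ⟨ha' ht, hb' ht⟩) fun t ht => ?_⟩
  have hl : IsLinearMap ℝ (fun t : ℝ => t) := LinearMap.id.isLinear
  obtain ⟨p, q, hp, hq, hpq, rfl⟩ : ∃ p q : ℝ, 0 ≤ p ∧ 0 ≤ q ∧ p + q = 1 ∧ p * a + q * b = t := by
    have := segment_eq_Icc (ha' hb) ▸ ht
    obtain ⟨p, q, hp, hq, hpq, h⟩ := this
    exact ⟨p, q, hp, hq, hpq, by simpa using h⟩
  have := hv ha hb hp hq hpq
  show (Fin.cons (p * a + q * b) y : Fin (m + 1) → ℝ) ∈ X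
  convert this using 1
  funext i
  induction i using Fin.cases
  · simp
  · simp [← add_mul, hpq]

variable (hF : Gauge F) (hG : Test B G)
include hF hG

lemma wulff_pert_neg (s : ℝ) : wulff (pert F G (-s)) = flip0 ⁻¹' wulff (pert F G s) := by
  ext x
  rw [mem_preimage, flip0_mem_wulff]
  simp [wulff, pert, hF.inv, hG.odd]

lemma avg_mem {s : ℝ} {a b : Fin (m + 1) → ℝ} (ha : a ∈ wulff (pert F G s))
    (hb : b ∈ wulff (pert F G s)) : (1 / 2 : ℝ) • a + (1 / 2 : ℝ) • flip0 b ∈ wulff F := by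
  intro u
  have h1 := ha u
  have h2 := hb (flip0 u)
  simp only [pert, hF.inv, hG.odd] at h1 h2
  rw [← dot_flip0 b (flip0 u), flip0_flip0] at h2
  rw [add_dotProduct, smul_dotProduct, smul_dotProduct, smul_eq_mul, smul_eq_mul]
  linarith

lemma base_of_fib {s t : ℝ} {y : Fin m → ℝ}
    (ht : (Fin.cons t y : Fin (m + 1) → ℝ) ∈ wulff (pert F G s)) :
    (Fin.cons 0 y : Fin (m + 1) → ℝ) ∈ wulff F := by
  have := avg_mem hF hG ht ht
  rw [flip0_cons] at this
  convert this using 1
  funext i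
  induction i using Fin.cases
  · simp
  · simp; ring

lemma base_of_corr {s t : ℝ} {y : Fin m → ℝ}
    (ht : (Fin.cons t y : Fin (m + 1) → ℝ) ∈ wulff (pert F (corr F G) (s ^ 2))) :
    (Fin.cons 0 y : Fin (m + 1) → ℝ) ∈ wulff F := fun u => by
  have h := ht (Fin.cons 0 (Fin.tail u))
  have hb : G (Fin.cons 0 (Fin.tail u)) = 0 := by
    have := hG.bound (Fin.cons 0 (Fin.tail u))
    simpa using this
  simp [pert, corr, dot_cons, hb] at h
  rw [dot_cons, zero_mul, zero_add]
  exact h.trans (hF.mono u)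

/-- The inequality on one vertical line over an interior point of the base. -/
lemma line {s W : ℝ} {y : Fin m → ℝ} (hy : y ∈ interior (fib' (wulff F)))
    (hW : ∀ w, w ∈ fib (wulff F) y → w ≤ W) (hW0 : 0 < W)
    (hWF : ∀ u, W * |u 0| ≤ F u) :
    ENNReal.ofReal W * volume (fib (wulff (pert F (corr F G) (s ^ 2))) y)
      + (∫⁻ t in fib (wulff F) y, ENNReal.ofReal |t|)
      + ENNReal.ofReal (W + |s| * B) * volume (fib (wulff (pert F G s)) y)
    ≤ (∫⁻ t in fib (wulff (pert F G s)) y, ENNReal.ofReal |t|)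
      + ENNReal.ofReal (2 * W + |s| * B) * volume (fib (wulff F) y)
      + (if volume (fib (wulff F) y) < ENNReal.ofReal (2 * (|s| * B))
          then ENNReal.ofReal (s ^ 2 * B ^ 2) else 0) := by
  obtain ⟨w, hw, hK, ν, hν, heq⟩ := contact hF hy
  have hwW : w ≤ W := hW w (hK ▸ right_mem_Icc.2 (by linarith))
  obtain ⟨u, hu⟩ : ∃ u, u = G ν / ν 0 := ⟨_, rfl⟩
  have hFν : 0 < F ν := hF.pos ν fun h => by simp [h] at hν
  have hGν : G ν = u * ν 0 := by rw [hu, div_mul_cancel₀ _ hν.ne']
  have huB : |u| ≤ B := by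
    rw [hu, abs_div, abs_of_pos hν, div_le_iff₀ hν]
    simpa [abs_of_pos hν] using hG.bound ν
  have hB : 0 ≤ B := (abs_nonneg u).trans huB
  have hν' : flip0 ν 0 = -ν 0 ∧ Fin.tail (flip0 ν) = Fin.tail ν := by simp [flip0]
  -- the perturbed body
  have hA : ∀ t ∈ fib (wulff (pert F G s)) y, t ≤ w + s * u ∧ -t ≤ w - s * u := fun t ht => by
    have h1 := ht ν
    have h2 := ht (flip0 ν)
    simp only [dot_cons, pert, hF.inv, hG.odd, hν'.1, hν'.2, hGν] at h1 h2
    constructor
    · refine le_of_mul_le_mul_right ?_ hν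
      linarith
    · refine le_of_mul_le_mul_right ?_ hν
      linarith
  -- the corrected body
  set e0 := w + s ^ 2 * u ^ 2 / (2 * W) with he0
  have hE : ∀ t ∈ fib (wulff (pert F (corr F G) (s ^ 2))) y, |t| ≤ e0 := fun t ht => by
    have h1 := ht ν
    have h2 := ht (flip0 ν)
    simp only [dot_cons, pert, corr, hF.inv, hG.odd, hν'.1, hν'.2, neg_sq] at h1 h2
    have hb : s ^ 2 * (G ν ^ 2 / (2 * F ν)) ≤ s ^ 2 * u ^ 2 / (2 * W) * ν 0 := by
      rw [hGν, ← mul_div_assoc, div_mul_eq_mul_div,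
        div_le_div_iff₀ (by linarith) (by linarith)]
      have := hWF ν
      rw [abs_of_pos hν] at this
      nlinarith [mul_le_mul_of_nonneg_left this (by positivity : 0 ≤ s ^ 2 * u ^ 2 * ν 0)]
    rw [abs_le]
    constructor
    · refine le_of_mul_le_mul_right ?_ hν
      rw [he0]; linarith
    · refine le_of_mul_le_mul_right ?_ hν
      rw [he0]; linarith
  have hEv : volume (fib (wulff (pert F (corr F G) (s ^ 2))) y) ≤ ENNReal.ofReal (2 * e0) := by
    refine (measure_mono (t := Icc (-e0) e0) fun t ht => abs_le.1 (hE t ht)).trans (le_of_eq ?_)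
    rw [Real.volume_Icc]; congr 1; ring
  have he0' : 0 ≤ e0 := by positivity
  -- the symmetric body
  have hKv : volume (fib (wulff F) y) = ENNReal.ofReal (2 * w) := by
    rw [hK, Real.volume_Icc]; congr 1; ring
  have hKm : (∫⁻ t in fib (wulff F) y, ENNReal.ofReal |t|) = ENNReal.ofReal (w ^ 2) := by
    rw [hK, ← ofReal_integral_eq_lintegral_ofReal (continuous_abs.integrableOn_Icc)
      (Eventually.of_forall fun t => abs_nonneg t)]
    congr 1
    rw [integral_Icc_eq_integral_Ioc, ← intervalIntegral.integral_of_le (by linarith),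
      ← intervalIntegral.integral_add_adjacent_intervals (b := 0)
        (continuous_abs.intervalIntegrable _ _) (continuous_abs.intervalIntegrable _ _),
      intervalIntegral.integral_congr (a := -w) (b := 0) (g := fun t => -t)
        fun t ht => abs_of_nonpos (by rw [uIcc_of_le (by linarith)] at ht; exact ht.2),
      intervalIntegral.integral_congr (a := 0) (b := w) (g := fun t => t)
        fun t ht => abs_of_nonneg (by rw [uIcc_of_le (by linarith)] at ht; exact ht.1),
      intervalIntegral.integral_neg, integral_id, integral_id]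
    ring
  obtain ⟨r, φ, hr0, hrw, hAv, hAm, hφ⟩ : ∃ r φ : ℝ, 0 ≤ r ∧ r ≤ w ∧
      volume (fib (wulff (pert F G s)) y) = ENNReal.ofReal (2 * r) ∧
      ENNReal.ofReal φ ≤ ∫⁻ t in fib (wulff (pert F G s)) y, ENNReal.ofReal |t| ∧
      r ^ 2 + max 0 (min r (|s * u| - (w - r))) ^ 2 ≤ φ := by
    rcases (fib (wulff (pert F G s)) y).eq_empty_or_nonempty with h | h
    · refine ⟨0, 0, le_rfl, hw.le, by simp [h], by simp, ?_⟩
      rw [max_eq_left (min_le_left _ _)]
      norm_num
    obtain ⟨a, b, hab, ha, hb, he⟩ := fib_eq_Icc (isCompact_wulff _) (convex_wulff _) h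
    have h1 := (hA b hb).1
    have h2 := (hA a ha).2
    refine ⟨(b - a) / 2, _, by linarith, by linarith, ?_, ?_, le_rfl⟩
    · rw [he, Real.volume_Icc]; congr 1; ring
    · rw [he]
      refine interval_moment hab (le_max_left _ _) (max_le (by linarith) (min_le_left _ _))
        (max_le (abs_nonneg _) ((min_le_right _ _).trans ?_))
      rcases abs_choice (s * u) with e | e <;> rw [e] <;>
        rcases abs_choice ((a + b) / 2) with e' | e' <;>
        linarith [le_abs_self ((a + b) / 2), neg_abs_le ((a + b) / 2)]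
  have hP := pointwise (s := s) (e := e0) hw hwW hr0 hrw huB (le_of_eq (by
    rw [he0]; field_simp; ring)) hφ
  have hφ0 : 0 ≤ φ := le_trans (by positivity) hφ
  have hifr : ENNReal.ofReal (if w < |s| * B then s ^ 2 * B ^ 2 else 0)
      = if volume (fib (wulff F) y) < ENNReal.ofReal (2 * (|s| * B))
        then ENNReal.ofReal (s ^ 2 * B ^ 2) else 0 := by
    rw [apply_ite ENNReal.ofReal, ENNReal.ofReal_zero, hKv]
    refine if_congr ?_ rfl rfl
    rw [ENNReal.ofReal_lt_ofReal_iff_of_nonneg (by linarith)]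
    constructor <;> intro h <;> linarith
  have hif : (0 : ℝ) ≤ if w < |s| * B then s ^ 2 * B ^ 2 else 0 := by positivity
  rw [← hifr, hKm, hKv, hAv]
  refine le_trans (add_le_add (add_le_add (mul_le_mul_right hEv _) le_rfl) le_rfl)
    (le_trans ?_ (add_le_add (add_le_add hAm le_rfl) le_rfl))
  have hsB : 0 ≤ |s| * B := mul_nonneg (abs_nonneg s) hB
  rw [← ENNReal.ofReal_mul hW0.le, ← ENNReal.ofReal_mul (by linarith),
    ← ENNReal.ofReal_mul (by linarith), ← ENNReal.ofReal_add (by positivity) (by positivity),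
    ← ENNReal.ofReal_add (by positivity) (by positivity),
    ← ENNReal.ofReal_add hφ0 (by positivity), ← ENNReal.ofReal_add (by positivity) hif]
  exact ENNReal.ofReal_le_ofReal hP

/-- The mirror image of the perturbed body has the same volume. -/
lemma volume_pert_neg (s : ℝ) :
    volume (wulff (pert F G (-s))) = volume (wulff (pert F G s)) := by
  rw [wulff_pert_neg hF hG, volume_flip0 (isClosed_wulff _).measurableSet]

/-- The loss of volume in the odd sector dominates the logarithmic correction. -/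
theorem odd_step : ∃ W > 0, ∀ ε > 0, ∀ᶠ s in 𝓝 (0 : ℝ),
    W * (volume.real (wulff (pert F (corr F G) (s ^ 2))) + volume.real (wulff (pert F G s))
        - 2 * volume.real (wulff F))
      + |s| * B * (volume.real (wulff (pert F G s)) - volume.real (wulff F)) ≤ ε * s ^ 2 := by
  set K := wulff F with hKdef
  obtain ⟨c, hc, hcF⟩ := hF.norm_le
  have hB : 0 ≤ B := by
    have := (abs_nonneg _).trans (hG.bound (Pi.single 0 1))
    simpa using this
  have hneg : ∀ {f : (Fin (m + 1) → ℝ) → ℝ}, (∀ u, f (-u) = f u) → ∀ x ∈ wulff f, -x ∈ wulff f :=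
    fun hf _ hx => neg_mem_wulff hf hx
  set P := fib' K with hP
  have hPc : IsCompact P := by
    obtain ⟨R, hR⟩ := (isCompact_wulff F).isBounded.exists_norm_le
    refine (isCompact_closedBall (0 : Fin m → ℝ) (max R 0)).of_isClosed_subset
      ((isClosed_wulff F).preimage (continuous_const.finCons continuous_id)) fun y hy => ?_
    rw [mem_closedBall_zero_iff, pi_norm_le_iff_of_nonneg (le_max_right _ _)]
    intro i
    simpa using ((norm_le_pi_norm (Fin.cons 0 y : Fin (m + 1) → ℝ) i.succ).trans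
      (hR _ hy)).trans (le_max_left R 0)
  have hPv : Convex ℝ P := fun a ha b hb p q hp hq hpq => by
    have := convex_wulff F ha hb hp hq hpq
    show (Fin.cons 0 (p • a + q • b) : Fin (m + 1) → ℝ) ∈ K
    convert this using 1
    funext i
    induction i using Fin.cases <;> simp
  have h0int : (0 : Fin m → ℝ) ∈ interior P := by
    refine mem_interior.2 ⟨Metric.ball 0 (c / (m + 1)), fun y hy u => ?_, Metric.isOpen_ball,
      Metric.mem_ball_self (by positivity)⟩
    rw [dot_cons, zero_mul, zero_add]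
    refine le_trans ?_ (hcF u)
    rw [mem_ball_zero_iff, lt_div_iff₀ (by positivity)] at hy
    calc y ⬝ᵥ Fin.tail u ≤ ∑ i : Fin m, ‖y‖ * ‖u‖ := Finset.sum_le_sum fun i _ => by
          refine (le_abs_self _).trans ?_
          rw [abs_mul]
          exact mul_le_mul (norm_le_pi_norm y i) (norm_le_pi_norm u i.succ) (abs_nonneg _)
            (norm_nonneg _)
      _ ≤ c * ‖u‖ := by
          rw [Finset.sum_const, Finset.card_univ, Fintype.card_fin, nsmul_eq_mul]
          nlinarith [mul_nonneg (norm_nonneg y) (norm_nonneg u), norm_nonneg u]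
  obtain ⟨W, hW0, hWK, -⟩ := contact hF h0int
  have hWmem : (Fin.cons W 0 : Fin (m + 1) → ℝ) ∈ K := by
    have : W ∈ fib K 0 := hWK ▸ right_mem_Icc.2 (by linarith)
    exact this
  have hWF : ∀ u, W * |u 0| ≤ F u := fun u => by
    have := abs_mem hF hWmem u
    rw [abs_mul, abs_of_pos hW0] at this
    simpa using this
  have hWle : ∀ y, ∀ w ∈ fib K y, w ≤ W := fun y w hw => by
    have : w ∈ fib K 0 := fun u => by
      have h1 := hw u
      have h2 := (neg_mem_wulff hF.even hw) (flip0 u)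
      rw [dot_cons] at h1
      rw [neg_dotProduct, dot_cons, hF.inv] at h2
      simp [flip0] at h2
      rw [dot_cons, zero_dotProduct, add_zero]
      linarith
    exact (hWK ▸ this : w ∈ Icc (-W) W).2
  refine ⟨W, hW0, fun ε hε => ?_⟩
  set band : ℝ → Set (Fin m → ℝ) := fun d =>
    interior P ∩ {y | volume (fib K y) < ENNReal.ofReal d} with hband
  have hKm : MeasurableSet K := (isClosed_wulff F).measurableSet
  have hbm : ∀ d, MeasurableSet (band d) := fun d =>
    isOpen_interior.measurableSet.inter (measurableSet_lt (volume_fib hKm).1 measurable_const)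
  have hfin : ∀ d, volume (band d) ≠ ∞ := fun d =>
    ((measure_mono (inter_subset_left.trans interior_subset)).trans_lt hPc.measure_lt_top).ne
  have hlim : Tendsto (fun k : ℕ => volume (band (1 / (k + 1)))) atTop (𝓝 0) := by
    have h := tendsto_measure_iInter_atTop (μ := volume) (s := fun k : ℕ => band (1 / (k + 1)))
      (fun k => (hbm _).nullMeasurableSet) (fun i j hij => inter_subset_inter_right _ fun y hy =>
        hy.trans_le (ENNReal.ofReal_le_ofReal (Nat.one_div_le_one_div hij))) ⟨0, hfin _⟩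
    have e : ⋂ k : ℕ, band (1 / (k + 1)) = ∅ := by
      refine eq_empty_of_forall_notMem fun y hy => ?_
      rw [mem_iInter] at hy
      obtain ⟨w, hw, hwK, -⟩ := contact hF (hy 0).1
      obtain ⟨k, hk⟩ := exists_nat_one_div_lt (show 0 < 2 * w by linarith)
      have := (hy k).2
      rw [mem_ofPred_eq, hwK, Real.volume_Icc, ENNReal.ofReal_lt_ofReal_iff (by positivity)] at this
      linarith
    rwa [e, measure_empty] at h
  obtain ⟨k, hk⟩ := (hlim.eventually (gt_mem_nhds
    (show (0 : ℝ≥0∞) < ENNReal.ofReal (ε / (B ^ 2 + 1)) by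
      rw [ENNReal.ofReal_pos]; positivity))).exists
  have hsmall : ∀ᶠ s in 𝓝 (0 : ℝ), 2 * (|s| * B) ≤ 1 / ((k : ℝ) + 1) := by
    have hc : Tendsto (fun s : ℝ => 2 * (|s| * B)) (𝓝 0) (𝓝 0) := by
      simpa using ((by fun_prop : Continuous fun s : ℝ => 2 * (|s| * B))).tendsto 0
    exact hc.eventually (ge_mem_nhds (by positivity))
  filter_upwards [hsmall] with s hs
  set A := wulff (pert F G s) with hAdef
  set E := wulff (pert F (corr F G) (s ^ 2)) with hEdef
  have hAm : MeasurableSet A := (isClosed_wulff _).measurableSet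
  have hEm : MeasurableSet E := (isClosed_wulff _).measurableSet
  have habs : Measurable fun t : ℝ => ENNReal.ofReal |t| :=
    ENNReal.measurable_ofReal.comp continuous_abs.measurable
  set J : (Fin m → ℝ) → ℝ≥0∞ :=
    (band (2 * (|s| * B))).indicator fun _ => ENNReal.ofReal (s ^ 2 * B ^ 2) with hJ
  have hae : ∀ᵐ y : Fin m → ℝ, ENNReal.ofReal W * volume (fib E y)
      + (∫⁻ t in fib K y, ENNReal.ofReal |t|)
      + ENNReal.ofReal (W + |s| * B) * volume (fib A y)
      ≤ (∫⁻ t in fib A y, ENNReal.ofReal |t|)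
        + ENNReal.ofReal (2 * W + |s| * B) * volume (fib K y) + J y := by
    have hnull : volume (frontier P) = 0 := hPv.addHaar_frontier volume
    filter_upwards [measure_eq_zero_iff_ae_notMem.1 hnull] with y hy
    by_cases hyi : y ∈ interior P
    · refine (line hF hG hyi (hWle y) hW0 hWF).trans (add_le_add le_rfl ?_)
      split_ifs with h
      · rw [hJ, indicator_of_mem (show y ∈ band (2 * (|s| * B)) from ⟨hyi, h⟩)]
      · exact zero_le'
    · have hnP : y ∉ P := fun h => hy ⟨subset_closure h, hyi⟩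
      have eE : fib E y = ∅ := eq_empty_of_forall_notMem fun t ht => hnP (base_of_corr hF hG ht)
      have eA : fib A y = ∅ := eq_empty_of_forall_notMem fun t ht => hnP (base_of_fib hF hG ht)
      have eK : fib K y = ∅ := eq_empty_of_forall_notMem fun t ht => hnP fun u => by
        have := abs_mem hF ht u
        rw [dot_cons, zero_mul, zero_add]
        linarith [abs_nonneg (t * u 0)]
      simp [eE, eA, eK]
  have hint := lintegral_mono_ae hae
  obtain ⟨mE, vE⟩ := volume_fib hEm
  obtain ⟨mA, vA⟩ := volume_fib hAm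
  obtain ⟨mK, vK⟩ := volume_fib hKm
  obtain ⟨mA', vA'⟩ := lintegral_fib hAm habs
  obtain ⟨mK', vK'⟩ := lintegral_fib hKm habs
  rw [lintegral_add_right _ (mA.const_mul _), lintegral_add_left (mE.const_mul _),
    lintegral_const_mul _ mE, lintegral_const_mul _ mA,
    lintegral_add_right _ (measurable_const.indicator (hbm _)),
    lintegral_add_left mA', lintegral_const_mul _ mK, lintegral_indicator_const (hbm _),
    ← vE, ← vA, ← vK, ← vA', ← vK'] at hint
  change _ + mom K + _ ≤ mom A + _ + _ at hint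
  have hmom : mom A ≤ mom K := mom_le (isCompact_wulff _) (isCompact_wulff _)
    (hneg fun u => by simp [pert, hF.even, hG.even]) (hneg hF.even)
    fun a ha b hb => avg_mem hF hG ha hb
  have hfinK : mom K ≠ ∞ := by
    obtain ⟨R, hR⟩ := (isCompact_wulff F).isBounded.exists_norm_le
    refine ne_top_of_le_ne_top (ENNReal.mul_ne_top ENNReal.ofReal_ne_top
      (isCompact_wulff F).measure_lt_top.ne) ((setLIntegral_mono' hKm fun x hx => ?_).trans
      (le_of_eq (setLIntegral_const K (ENNReal.ofReal R))))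
    exact ENNReal.ofReal_le_ofReal ((norm_le_pi_norm x 0).trans (hR x hx))
  have hbig : ENNReal.ofReal W * volume E + ENNReal.ofReal (W + |s| * B) * volume A
      ≤ ENNReal.ofReal (2 * W + |s| * B) * volume K
        + ENNReal.ofReal (s ^ 2 * B ^ 2) * ENNReal.ofReal (ε / (B ^ 2 + 1)) := by
    refine (ENNReal.add_le_add_iff_left hfinK).1 ?_
    calc mom K + (ENNReal.ofReal W * volume E + ENNReal.ofReal (W + |s| * B) * volume A)
        = ENNReal.ofReal W * volume E + mom K + ENNReal.ofReal (W + |s| * B) * volume A := by ring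
      _ ≤ mom A + ENNReal.ofReal (2 * W + |s| * B) * volume K
            + ENNReal.ofReal (s ^ 2 * B ^ 2) * volume (band (2 * (|s| * B))) := hint
      _ ≤ mom K + ENNReal.ofReal (2 * W + |s| * B) * volume K
            + ENNReal.ofReal (s ^ 2 * B ^ 2) * ENNReal.ofReal (ε / (B ^ 2 + 1)) := by
          refine add_le_add (add_le_add hmom le_rfl) (mul_le_mul_right ((measure_mono ?_).trans
            hk.le) _)
          exact inter_subset_inter_right _ fun y hy => hy.trans_le (ENNReal.ofReal_le_ofReal hs)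
      _ = _ := by ring
  have hEf : volume E ≠ ∞ := (isCompact_wulff _).measure_lt_top.ne
  have hAf : volume A ≠ ∞ := (isCompact_wulff _).measure_lt_top.ne
  have hKf : volume K ≠ ∞ := (isCompact_wulff _).measure_lt_top.ne
  have hb0 : 0 ≤ |s| * B := mul_nonneg (abs_nonneg s) hB
  have hr := ENNReal.toReal_mono (by finiteness) hbig
  rw [ENNReal.toReal_add (by finiteness) (by finiteness),
    ENNReal.toReal_add (by finiteness) (by finiteness)] at hr
  simp only [ENNReal.toReal_mul, ENNReal.toReal_ofReal hW0.le,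
    ENNReal.toReal_ofReal (show 0 ≤ W + |s| * B by linarith),
    ENNReal.toReal_ofReal (show 0 ≤ 2 * W + |s| * B by linarith),
    ENNReal.toReal_ofReal (show 0 ≤ s ^ 2 * B ^ 2 by positivity),
    ENNReal.toReal_ofReal (show 0 ≤ ε / (B ^ 2 + 1) by positivity)] at hr
  have hfr : s ^ 2 * B ^ 2 * (ε / (B ^ 2 + 1)) ≤ ε * s ^ 2 := by
    rw [mul_div_assoc', div_le_iff₀ (by positivity)]
    nlinarith [mul_nonneg hε.le (sq_nonneg s)]
  simp only [measureReal_def]
  linarith

end Vale.Agent.P227.Local.Fibre
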