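import Vale.Agent.P227.Local.Expand
import Vale.Agent.P227.Local.Odd

/-!
Wulff bodies of homogeneous functions in linear coordinates.
-/

namespace Vale.Agent.P227.Local

open MeasureTheory Metric Set Filter Topology
open scoped RealInnerProductSpace Pointwise
open Vale.Agent.P227.Local.Fibre (wulff)

variable {n : ℕ} {f h : Sp n → ℝ} {B : Sp n ≃ₗ[ℝ] (Fin n → ℝ)}

lemma Reg.abs_le (hf : Reg f) : ∃ C, 0 ≤ C ∧ ∀ x, |f x| ≤ C * ‖x‖ := by
  obtain ⟨C, hC⟩ := (isCompact_sphere (0 : Sp n) 1).exists_bound_of_continuousOn (cont_sphere hf)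
  refine ⟨max C 0, le_max_right _ _, fun x => ?_⟩
  rcases eq_or_ne x 0 with rfl | hx
  · simp [hf.zero]
  have h1 := hC _ (unit_of_ne hx)
  rw [hf.hom _ (inv_pos.2 (norm_pos_iff.2 hx)), Real.norm_eq_abs, abs_mul, abs_inv, abs_norm,
    inv_mul_le_iff₀ (norm_pos_iff.2 hx), mul_comm] at h1
  exact h1.trans (mul_le_mul_of_nonneg_right (le_max_left _ _) (norm_nonneg _))

lemma Reg.continuous (hf : Reg f) : Continuous f := by
  refine continuous_iff_continuousAt.2 fun x => ?_
  rcases eq_or_ne x 0 with rfl | hx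
  · obtain ⟨C, -, hC⟩ := hf.abs_le
    rw [ContinuousAt, hf.zero]
    refine squeeze_zero_norm (fun y => hC y) ?_
    have hc : Continuous fun y : Sp n => C * ‖y‖ := continuous_const.mul continuous_norm
    simpa using hc.tendsto 0
  · exact (hf.cd.continuousOn).continuousAt (isOpen_compl_singleton.mem_nhds hx)

lemma Good.pos' (hh : Good h) {x : Sp n} (hx : x ≠ 0) : 0 < h x := by
  have := hh.pos _ (norm_smul_inv_norm (𝕜 := ℝ) hx)
  simp only [RCLike.ofReal_real_eq_id, id] at this
  rw [hh.hom _ (inv_pos.2 (norm_pos_iff.2 hx))] at this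
  exact pos_of_mul_pos_right this (inv_nonneg.2 (norm_nonneg _))

lemma Good.nonneg (hh : Good h) (x : Sp n) : 0 ≤ h x := by
  rcases eq_or_ne x 0 with rfl | hx
  · rw [hh.toReg.zero]
  · exact (hh.pos' hx).le

lemma Good.subadd (hh : Good h) (x y : Sp n) : h (x + y) ≤ h x + h y := by
  rcases eq_or_ne (x + y) 0 with e | e
  · rw [e, hh.toReg.zero]
    exact add_nonneg (hh.nonneg x) (hh.nonneg y)
  set u := ‖x + y‖⁻¹ • (x + y)
  have hu : ‖u‖ = 1 := norm_smul_inv_norm e
  have le : ∀ z, ⟪grad h u, z⟫ ≤ h z := fun z => by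
    rcases eq_or_ne z 0 with rfl | hz
    · simp [hh.toReg.zero]
    have := tangent_le hh hu (mem_sphere_zero_iff_norm.1 (unit_of_ne hz))
    rw [real_inner_smul_right, hh.hom _ (inv_pos.2 (norm_pos_iff.2 hz))] at this
    exact le_of_mul_le_mul_left this (inv_pos.2 (norm_pos_iff.2 hz))
  have e1 : ⟪grad h u, x + y⟫ = h (x + y) := by
    rw [grad_hom hh.toReg (inv_pos.2 (norm_pos_iff.2 e)) e, euler hh.toReg e]
  rw [← e1, inner_add_right]
  exact add_le_add (le x) (le y)

lemma body_isCompact (f : Sp n → ℝ) : IsCompact (body f) := by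
  obtain ⟨C, hC⟩ : ∃ C, ∀ x ∈ body f, ‖x‖ ≤ C := by
    refine ⟨∑ i, (|f (EuclideanSpace.single i 1)| + |f (-EuclideanSpace.single i 1)|), fun x hx => ?_⟩
    have hco : ∀ i, |x i| ≤ |f (EuclideanSpace.single i 1)| + |f (-EuclideanSpace.single i 1)| := by
      intro i
      have h1 := hx (EuclideanSpace.single i 1) (by simp)
      have h2 := hx (-EuclideanSpace.single i 1) (by simp)
      rw [inner_neg_right] at h2
      rw [EuclideanSpace.inner_single_right] at h1 h2
      simp only [one_mul, conj_trivial] at h1 h2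
      rw [abs_le]
      constructor <;> linarith [le_abs_self (f (EuclideanSpace.single i 1)),
        le_abs_self (f (-EuclideanSpace.single i 1)), abs_nonneg (f (EuclideanSpace.single i 1)),
        abs_nonneg (f (-EuclideanSpace.single i 1))]
    calc ‖x‖ = ‖∑ i, x i • EuclideanSpace.single i (1 : ℝ)‖ := by
          congr 1
          ext j
          simp [Finset.sum_apply, Pi.single_apply]
      _ ≤ ∑ i, |x i| := (norm_sum_le _ _).trans (le_of_eq (by simp [norm_smul]))
      _ ≤ _ := Finset.sum_le_sum fun i _ => hco i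
  refine (isCompact_closedBall (0 : Sp n) C).of_isClosed_subset ?_
    fun x hx => mem_closedBall_zero_iff.2 (hC x hx)
  simp only [body, setOf_forall]
  exact isClosed_biInter fun u _ => isClosed_le (by fun_prop) continuous_const

lemma vol_pos [NeZero n] (hh : Good h) : 0 < vol h := by
  obtain ⟨v, hv, hmin⟩ := (isCompact_sphere (0 : Sp n) 1).exists_isMinOn
    ⟨EuclideanSpace.single (0 : Fin n) 1, by simp⟩ (cont_sphere hh.toReg)
  have hc := hh.pos v (mem_sphere_zero_iff_norm.1 hv)
  refine ENNReal.toReal_pos (fun e => ?_) (body_isCompact h).measure_lt_top.ne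
  refine (measure_ball_pos volume (0 : Sp n) hc).ne'
    (measure_mono_null (t := body h) (fun x hx u hu => ?_) e)
  refine (real_inner_le_norm x u).trans ?_
  rw [mem_sphere_zero_iff_norm.1 hu, mul_one]
  exact (mem_ball_zero_iff.1 hx).le.trans (hmin hu)

/-- A homogeneous function read in coordinates. -/
def push (B : Sp n ≃ₗ[ℝ] (Fin n → ℝ)) (f : Sp n → ℝ) : (Fin n → ℝ) → ℝ := fun w => f (B.symm w)

/-- The dual coordinates of a point. -/
noncomputable def cmap (B : Sp n ≃ₗ[ℝ] (Fin n → ℝ)) : Sp n →ₗ[ℝ] (Fin n → ℝ) where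
  toFun x i := ⟪B.symm (Pi.single i 1), x⟫
  map_add' x y := funext fun i => inner_add_right _ _ _
  map_smul' c x := funext fun i => real_inner_smul_right _ _ _

lemma cmap_dot (x : Sp n) (w : Fin n → ℝ) : cmap B x ⬝ᵥ w = ⟪x, B.symm w⟫ := by
  conv_rhs => rw [pi_eq_sum_univ' w, map_sum, inner_sum]
  refine Finset.sum_congr rfl fun i _ => ?_
  rw [map_smul, real_inner_smul_right, real_inner_comm, mul_comm]
  rfl

lemma cmap_bijective : Function.Bijective (cmap B) := by
  have hi : Function.Injective (cmap B) := by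
    refine (injective_iff_map_eq_zero _).2 fun x hx => ?_
    have := cmap_dot (B := B) x (B x)
    rw [hx, zero_dotProduct, LinearEquiv.symm_apply_apply] at this
    exact inner_self_eq_zero.1 this.symm
  exact ⟨hi, (LinearMap.injective_iff_surjective_of_finrank_eq_finrank (by simp)).1 hi⟩

lemma wulff_push (hf : Reg f) : wulff (push B f) = cmap B '' body f := by
  ext c
  obtain ⟨x, rfl⟩ := (cmap_bijective (B := B)).2 c
  rw [cmap_bijective.1.mem_set_image]
  refine ⟨fun h u hu => ?_, fun h w => ?_⟩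
  · have := h (B u)
    rwa [cmap_dot, push, LinearEquiv.symm_apply_apply] at this
  · rw [cmap_dot]
    unfold push
    rcases eq_or_ne (B.symm w) 0 with e | e
    · rw [e, inner_zero_right, hf.zero]
    have := h _ (unit_of_ne e)
    rw [real_inner_smul_right, hf.hom _ (inv_pos.2 (norm_pos_iff.2 e))] at this
    exact le_of_mul_le_mul_left this (inv_pos.2 (norm_pos_iff.2 e))

lemma volume_cmap : ∃ κ : ℝ, 0 < κ ∧ ∀ X : Set (Sp n), volume.real (cmap B '' X) = κ * volume.real X := by
  set L : (Fin n → ℝ) →ₗ[ℝ] Fin n → ℝ :=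
    (cmap B).comp (WithLp.linearEquiv 2 ℝ (Fin n → ℝ)).symm.toLinearMap with hL
  have hdet : 0 < |LinearMap.det L| := by
    refine abs_pos.2 fun h => ?_
    have := LinearMap.bot_lt_ker_of_det_eq_zero h
    rw [LinearMap.ker_eq_bot.2 (show Function.Injective L from cmap_bijective.1.comp
      (LinearEquiv.injective _))] at this
    exact lt_irrefl _ this
  refine ⟨|LinearMap.det L|, hdet, fun X => ?_⟩
  have e : cmap B '' X = L '' ((MeasurableEquiv.toLp 2 (Fin n → ℝ)).symm '' X) := by
    rw [image_image]; rfl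
  rw [measureReal_def, e, Measure.addHaar_image_linearMap, ENNReal.toReal_mul,
    ENNReal.toReal_ofReal (abs_nonneg _), MeasurableEquiv.image_symm,
    (PiLp.volume_preserving_toLp (Fin n)).measure_preimage_equiv X]
  rfl

lemma vol_push (B : Sp n ≃ₗ[ℝ] (Fin n → ℝ)) :
    ∃ κ : ℝ, 0 < κ ∧ ∀ f : Sp n → ℝ, Reg f → volume.real (wulff (push B f)) = κ * vol f := by
  obtain ⟨κ, hκ, h⟩ := volume_cmap (B := B)
  exact ⟨κ, hκ, fun f hf => by rw [wulff_push hf, h, vol]⟩

/-- The reflection in the coordinate `i`. -/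
def refl (B : Sp n ≃ₗ[ℝ] (Fin n → ℝ)) (i : Fin n) (u : Sp n) : Sp n :=
  B.symm (Function.update (B u) i (-(B u i)))

lemma refl_lin (B : Sp n ≃ₗ[ℝ] (Fin n → ℝ)) (i : Fin n) (a b : ℝ) (u v : Sp n) :
    refl B i (a • u + b • v) = a • refl B i u + b • refl B i v := by
  unfold refl
  rw [← map_smul, ← map_smul, ← map_add]
  congr 1
  funext j
  rcases eq_or_ne j i with rfl | hj
  · simp; ring
  · simp [hj]

lemma refl_neg (B : Sp n ≃ₗ[ℝ] (Fin n → ℝ)) (i : Fin n) (u : Sp n) :
    refl B i (-u) = -refl B i u := by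
  simpa using refl_lin B i (-1) 0 u u

lemma refl_refl (B : Sp n ≃ₗ[ℝ] (Fin n → ℝ)) (i : Fin n) (u : Sp n) :
    refl B i (refl B i u) = u := by
  simp only [refl, LinearEquiv.apply_symm_apply, Function.update_self, neg_neg,
    Function.update_idem, Function.update_eq_self, LinearEquiv.symm_apply_apply]

lemma refl_comm (B : Sp n ≃ₗ[ℝ] (Fin n → ℝ)) (i j : Fin n) (u : Sp n) :
    refl B i (refl B j u) = refl B j (refl B i u) := by
  unfold refl
  congr 1
  funext k
  simp only [LinearEquiv.apply_symm_apply, Function.update_apply]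
  rcases eq_or_ne i j with rfl | hij
  · rfl
  rcases eq_or_ne k i with rfl | hki
  · simp [hij, hij.symm]
  · simp [hki, hij.symm]

/-- The reflection as a continuous linear equivalence. -/
noncomputable def reflE (B : Sp n ≃ₗ[ℝ] (Fin n → ℝ)) (i : Fin n) : Sp n ≃L[ℝ] Sp n :=
  LinearEquiv.toContinuousLinearEquiv
    { toFun := refl B i
      map_add' := fun u v => by simpa using refl_lin B i 1 1 u v
      map_smul' := fun c u => by simpa using refl_lin B i c 0 u u
      invFun := refl B i
      left_inv := refl_refl B i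
      right_inv := refl_refl B i }

lemma Reg.refl (hf : Reg f) (B : Sp n ≃ₗ[ℝ] (Fin n → ℝ)) (i : Fin n) :
    Reg fun u => f (Vale.Agent.P227.Local.refl B i u) :=
  hf.comp (reflE B i)

lemma refl_ne (B : Sp n ≃ₗ[ℝ] (Fin n → ℝ)) (i : Fin n) {u : Sp n} (hu : u ≠ 0) :
    refl B i u ≠ 0 := (reflE B i).injective.ne hu |>.trans_eq (map_zero (reflE B i))

/-- Coordinates with the coordinate `i` moved to the first place. -/
noncomputable def front {m : ℕ} (B : Sp (m + 1) ≃ₗ[ℝ] (Fin (m + 1) → ℝ)) (i : Fin (m + 1)) :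
    Sp (m + 1) ≃ₗ[ℝ] (Fin (m + 1) → ℝ) :=
  B.trans (LinearEquiv.funCongrLeft ℝ ℝ (Equiv.swap 0 i))

lemma front_refl {m : ℕ} (B : Sp (m + 1) ≃ₗ[ℝ] (Fin (m + 1) → ℝ)) (i : Fin (m + 1))
    (w : Fin (m + 1) → ℝ) :
    refl B i ((front B i).symm w) = (front B i).symm (Fibre.flip0 w) := by
  apply (front B i).injective
  rw [LinearEquiv.apply_symm_apply]
  funext k
  have hx : ∀ j, B ((front B i).symm w) j = w (Equiv.swap 0 i j) := fun j => by
    have := congrFun ((front B i).apply_symm_apply w) (Equiv.swap 0 i j)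
    simp only [front, LinearEquiv.trans_apply, LinearEquiv.funCongrLeft_apply,
      LinearMap.funLeft_apply, Equiv.swap_apply_self] at this
    exact this
  simp only [front, refl, LinearEquiv.trans_apply, LinearEquiv.funCongrLeft_apply,
    LinearMap.funLeft_apply, LinearEquiv.apply_symm_apply]
  rcases eq_or_ne k 0 with rfl | hk
  · rw [Equiv.swap_apply_left, Function.update_self]
    have := hx i
    rw [Equiv.swap_apply_right] at this
    simp only [front] at this
    simp [Fibre.flip0]
  · have hne : Equiv.swap 0 i k ≠ i := fun e => hk ((Equiv.swap 0 i).injective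
      (e.trans (Equiv.swap_apply_left 0 i).symm))
    obtain ⟨j, rfl⟩ := Fin.exists_succ_eq.2 hk
    rw [Function.update_of_ne hne]
    have := hx (Equiv.swap 0 i j.succ)
    simp only [front, Equiv.swap_apply_self] at this
    simp [Fibre.flip0, Fin.tail]

end Vale.Agent.P227.Local
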