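import Mathlib

/-!
The second-order expansion of a determinant along a parabola of matrices.
-/

namespace Vale.Agent.P227.Local

/-- The linear part of a product. -/
def p1 : ∀ k : ℕ, (Fin k → ℝ) → (Fin k → ℝ) → ℝ
  | 0, _, _ => 0
  | k + 1, a, b => a 0 * p1 k (fun i => a i.succ) (fun i => b i.succ) + b 0 * ∏ i : Fin k, a i.succ

/-- The quadratic part of a product. -/
def p2 : ∀ k : ℕ, (Fin k → ℝ) → (Fin k → ℝ) → ℝ
  | 0, _, _ => 0
  | k + 1, a, b => a 0 * p2 k (fun i => a i.succ) (fun i => b i.succ)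
      + b 0 * p1 k (fun i => a i.succ) (fun i => b i.succ)

/-- The remainder of a product. -/
def p3 : ∀ k : ℕ, (Fin k → ℝ) → (Fin k → ℝ) → (Fin k → ℝ) → ℝ → ℝ
  | 0, _, _, _, _ => 0
  | k + 1, a, b, c, s =>
      (a 0 + s * b 0 + s ^ 2 * c 0) * p3 k (fun i => a i.succ) (fun i => b i.succ)
          (fun i => c i.succ) s
      + (b 0 + s * c 0) * (p2 k (fun i => a i.succ) (fun i => b i.succ)
          + p1 k (fun i => a i.succ) (fun i => c i.succ))
      + c 0 * p1 k (fun i => a i.succ) (fun i => b i.succ)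

lemma prod_expand : ∀ (k : ℕ) (a b c : Fin k → ℝ) (s : ℝ),
    ∏ i, (a i + s * b i + s ^ 2 * c i)
      = (∏ i, a i) + s * p1 k a b + s ^ 2 * (p2 k a b + p1 k a c) + s ^ 3 * p3 k a b c s
  | 0, _, _, _, _ => by simp [p1, p2, p3]
  | k + 1, a, b, c, s => by
      rw [Fin.prod_univ_succ, Fin.prod_univ_succ, prod_expand k]
      simp only [p1, p2, p3]
      ring

lemma p1_lin : ∀ (k : ℕ) (a b c : Fin k → ℝ) (r t : ℝ),
    p1 k a (fun i => r * b i + t * c i) = r * p1 k a b + t * p1 k a c
  | 0, _, _, _, _, _ => by simp [p1]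
  | k + 1, a, b, c, r, t => by
      simp only [p1]
      rw [p1_lin k]
      ring

lemma p2_para : ∀ (k : ℕ) (a b c : Fin k → ℝ),
    p2 k a (fun i => b i + c i) + p2 k a (fun i => b i - c i) = 2 * p2 k a b + 2 * p2 k a c
  | 0, _, _, _ => by simp [p2]
  | k + 1, a, b, c => by
      have e := p2_para k (fun i => a i.succ) (fun i => b i.succ) (fun i => c i.succ)
      have l1 := p1_lin k (fun i => a i.succ) (fun i => b i.succ) (fun i => c i.succ) 1 1
      have l2 := p1_lin k (fun i => a i.succ) (fun i => b i.succ) (fun i => c i.succ) 1 (-1)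
      simp only [one_mul, neg_one_mul, ← sub_eq_add_neg] at l1 l2
      simp only [p2, l1, l2]
      linear_combination a 0 * e

lemma continuous_p1 : ∀ k : ℕ,
    Continuous fun q : (Fin k → ℝ) × (Fin k → ℝ) => p1 k q.1 q.2
  | 0 => by simp only [p1]; exact continuous_const
  | k + 1 => by
      have h := (continuous_p1 k).comp (f := fun q : (Fin (k + 1) → ℝ) × (Fin (k + 1) → ℝ) =>
        ((fun i => q.1 i.succ), (fun i => q.2 i.succ))) (by fun_prop)
      simp only [Function.comp_def] at h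
      simp only [p1]
      fun_prop

lemma continuous_p2 : ∀ k : ℕ,
    Continuous fun q : (Fin k → ℝ) × (Fin k → ℝ) => p2 k q.1 q.2
  | 0 => by simp only [p2]; exact continuous_const
  | k + 1 => by
      have h := (continuous_p2 k).comp (f := fun q : (Fin (k + 1) → ℝ) × (Fin (k + 1) → ℝ) =>
        ((fun i => q.1 i.succ), (fun i => q.2 i.succ))) (by fun_prop)
      have h' := (continuous_p1 k).comp (f := fun q : (Fin (k + 1) → ℝ) × (Fin (k + 1) → ℝ) =>
        ((fun i => q.1 i.succ), (fun i => q.2 i.succ))) (by fun_prop)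
      simp only [Function.comp_def] at h h'
      simp only [p2]
      fun_prop

lemma continuous_p3 : ∀ k : ℕ,
    Continuous fun q : ((Fin k → ℝ) × (Fin k → ℝ) × (Fin k → ℝ)) × ℝ =>
      p3 k q.1.1 q.1.2.1 q.1.2.2 q.2
  | 0 => by simp only [p3]; exact continuous_const
  | k + 1 => by
      have h := (continuous_p3 k).comp
        (f := fun q : ((Fin (k + 1) → ℝ) × (Fin (k + 1) → ℝ) × (Fin (k + 1) → ℝ)) × ℝ =>
        (((fun i => q.1.1 i.succ), (fun i => q.1.2.1 i.succ), (fun i => q.1.2.2 i.succ)), q.2))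
        (by fun_prop)
      have h1 := (continuous_p1 k).comp
        (f := fun q : ((Fin (k + 1) → ℝ) × (Fin (k + 1) → ℝ) × (Fin (k + 1) → ℝ)) × ℝ =>
        ((fun i => q.1.1 i.succ), (fun i => q.1.2.1 i.succ))) (by fun_prop)
      have h2 := (continuous_p1 k).comp
        (f := fun q : ((Fin (k + 1) → ℝ) × (Fin (k + 1) → ℝ) × (Fin (k + 1) → ℝ)) × ℝ =>
        ((fun i => q.1.1 i.succ), (fun i => q.1.2.2 i.succ))) (by fun_prop)
      have h3 := (continuous_p2 k).comp
        (f := fun q : ((Fin (k + 1) → ℝ) × (Fin (k + 1) → ℝ) × (Fin (k + 1) → ℝ)) × ℝ =>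
        ((fun i => q.1.1 i.succ), (fun i => q.1.2.1 i.succ))) (by fun_prop)
      simp only [Function.comp_def] at h h1 h2 h3
      simp only [p3]
      fun_prop

variable {n : ℕ}

/-- Square matrices. -/
abbrev MN (n : ℕ) := Matrix (Fin n) (Fin n) ℝ

/-- The sign of a permutation as a real number. -/
noncomputable def sg (σ : Equiv.Perm (Fin n)) : ℝ := ((Equiv.Perm.sign σ : ℤ) : ℝ)

/-- The linear part of a determinant. -/
noncomputable def d1 (A B : MN n) : ℝ :=
  ∑ σ : Equiv.Perm (Fin n), sg σ * p1 n (fun i => A (σ i) i) (fun i => B (σ i) i)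

/-- The quadratic part of a determinant. -/
noncomputable def d2 (A B : MN n) : ℝ :=
  ∑ σ : Equiv.Perm (Fin n), sg σ * p2 n (fun i => A (σ i) i) (fun i => B (σ i) i)

/-- The remainder of a determinant. -/
noncomputable def d3 (A B C : MN n) (s : ℝ) : ℝ :=
  ∑ σ : Equiv.Perm (Fin n),
    sg σ * p3 n (fun i => A (σ i) i) (fun i => B (σ i) i) (fun i => C (σ i) i) s

lemma det_expand (A B C : MN n) (s : ℝ) : (A + s • B + s ^ 2 • C).det
    = A.det + s * d1 A B + s ^ 2 * (d2 A B + d1 A C) + s ^ 3 * d3 A B C s := by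
  simp only [Matrix.det_apply', d1, d2, d3, sg, Matrix.add_apply, Matrix.smul_apply, smul_eq_mul,
    prod_expand, Finset.mul_sum, ← Finset.sum_add_distrib]
  exact Finset.sum_congr rfl fun σ _ => by ring

lemma d1_lin (A B C : MN n) (a b : ℝ) : d1 A (a • B + b • C) = a * d1 A B + b * d1 A C := by
  simp only [d1, Matrix.add_apply, Matrix.smul_apply, smul_eq_mul, p1_lin, Finset.mul_sum,
    ← Finset.sum_add_distrib]
  exact Finset.sum_congr rfl fun σ _ => by ring

lemma d2_para (A B C : MN n) : d2 A (B + C) + d2 A (B - C) = 2 * d2 A B + 2 * d2 A C := by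
  simp only [d2, Matrix.add_apply, Matrix.sub_apply, Finset.mul_sum, ← Finset.sum_add_distrib]
  refine Finset.sum_congr rfl fun σ _ => ?_
  rw [← mul_add, p2_para]
  ring

lemma continuous_d1 : Continuous fun q : MN n × MN n => d1 q.1 q.2 :=
  continuous_finsetSum _ fun σ _ => continuous_const.mul ((continuous_p1 n).comp
    (f := fun q : MN n × MN n => ((fun i => q.1 (σ i) i), (fun i => q.2 (σ i) i))) (by fun_prop))

lemma continuous_d2 : Continuous fun q : MN n × MN n => d2 q.1 q.2 :=
  continuous_finsetSum _ fun σ _ => continuous_const.mul ((continuous_p2 n).comp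
    (f := fun q : MN n × MN n => ((fun i => q.1 (σ i) i), (fun i => q.2 (σ i) i))) (by fun_prop))

lemma continuous_d3 :
    Continuous fun q : (MN n × MN n × MN n) × ℝ => d3 q.1.1 q.1.2.1 q.1.2.2 q.2 :=
  continuous_finsetSum _ fun σ _ => continuous_const.mul ((continuous_p3 n).comp
    (f := fun q : (MN n × MN n × MN n) × ℝ =>
      (((fun i => q.1.1 (σ i) i), (fun i => q.1.2.1 (σ i) i), (fun i => q.1.2.2 (σ i) i)), q.2))
    (by fun_prop))

end Vale.Agent.P227.Local
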