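import Mathlib
import Vale.Agent.P227.Local.Calc
import Vale.Agent.P227.Local.Asymp
import Vale.Agent.P227.Local.Det

/-!
Second-order expansion of the volume of the Wulff body near a body with positive curvature.
-/

namespace Vale.Agent.P227.Local

open MeasureTheory Metric Set Filter Topology
open scoped RealInnerProductSpace Matrix

variable {n : ℕ}

noncomputable def mat (f : (Sp n) → ℝ) (y : (Sp n)) : (MN n) :=
  LinearMap.toMatrix (EuclideanSpace.basisFun (Fin n) ℝ).toBasis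
    (EuclideanSpace.basisFun (Fin n) ℝ).toBasis (dchart f y).toLinearMap

/-- Continuous away from the origin and homogeneous of degree zero. -/
def Nice {X : Type*} [TopologicalSpace X] (F : (Sp n) → X) : Prop :=
  ContinuousOn F {0}ᶜ ∧ ∀ r : ℝ, 0 < r → ∀ y, y ≠ 0 → F (r • y) = F y

lemma Nice.map {X Y : Type*} [TopologicalSpace X] [TopologicalSpace Y] {F : (Sp n) → X} (hF : Nice F)
    {k : X → Y} (hk : Continuous k) : Nice (fun y => k (F y)) :=
  ⟨hk.comp_continuousOn hF.1, fun r hr y hy => congrArg k (hF.2 r hr y hy)⟩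

lemma Nice.pair {X Y : Type*} [TopologicalSpace X] [TopologicalSpace Y] {F : (Sp n) → X} {G : (Sp n) → Y}
    (hF : Nice F) (hG : Nice G) : Nice (fun y => (F y, G y)) :=
  ⟨hF.1.prodMk hG.1, fun r hr y hy => Prod.ext (hF.2 r hr y hy) (hG.2 r hr y hy)⟩

abbrev dom (n : ℕ) : Set (Sp n) := closedBall (0 : (Sp n)) 1 \ {0}

lemma meas_dom : MeasurableSet (dom n) :=
  measurableSet_closedBall.diff (measurableSet_singleton 0)

lemma unit_of_ne {y : (Sp n)} (hy : y ≠ 0) : ‖y‖⁻¹ • y ∈ sphere (0 : (Sp n)) 1 := by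
  rw [mem_sphere_zero_iff_norm]; exact norm_smul_inv_norm hy

lemma Nice.at_unit {X : Type*} [TopologicalSpace X] {F : (Sp n) → X} (hF : Nice F) {y : (Sp n)}
    (hy : y ≠ 0) : F (‖y‖⁻¹ • y) = F y :=
  hF.2 _ (inv_pos.2 (norm_pos_iff.2 hy)) y hy

lemma Nice.int {F : (Sp n) → ℝ} (hF : Nice F) : IntegrableOn F (dom n) := by
  obtain ⟨C, hC⟩ := (isCompact_sphere (0 : (Sp n)) 1).exists_bound_of_continuousOn
    (hF.1.mono fun x hx => ne_zero_of_mem_unit_sphere ⟨x, hx⟩)
  refine ⟨(hF.1.mono fun x hx => hx.2).aestronglyMeasurable meas_dom, ?_⟩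
  have : IsFiniteMeasure (volume.restrict (dom n)) := ⟨by
    rw [Measure.restrict_apply_univ]
    exact (measure_mono sdiff_subset).trans_lt measure_closedBall_lt_top⟩
  refine HasFiniteIntegral.of_bounded (C := C) ?_
  filter_upwards [ae_restrict_mem meas_dom] with y hy
  rw [← hF.at_unit hy.2]
  exact hC _ (unit_of_ne hy.2)

variable {f g h γ δ : (Sp n) → ℝ}

lemma nice_mat (hf : Reg f) : Nice (mat f) := by
  refine ⟨?_, fun r hr y hy => by rw [mat, mat, dchart_hom hf hr hy]⟩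
  have hc : Continuous fun T : (Sp n) →L[ℝ] (Sp n) => LinearMap.toMatrix
      (EuclideanSpace.basisFun (Fin n) ℝ).toBasis
      (EuclideanSpace.basisFun (Fin n) ℝ).toBasis T.toLinearMap := by
    exact LinearMap.continuous_of_finiteDimensional
      ((LinearMap.toMatrix (EuclideanSpace.basisFun (Fin n) ℝ).toBasis
        (EuclideanSpace.basisFun (Fin n) ℝ).toBasis).toLinearMap ∘ₗ
        ContinuousLinearMap.coeLM ℝ)
  exact hc.comp_continuousOn (dchart_cont hf)

lemma mat_lin (hf : Reg f) (hg : Reg g) (a b : ℝ) {y : (Sp n)} (hy : y ≠ 0) :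
    mat (fun z => a * f z + b * g z) y = a • mat f y + b • mat g y := by
  simp [mat, dchart_lin hf hg a b hy]

lemma det_mat (f : (Sp n) → ℝ) (y : (Sp n)) : (mat f y).det = (dchart f y).det := by
  rw [mat, LinearMap.det_toMatrix]

noncomputable def wgt (h : (Sp n) → ℝ) (y : (Sp n)) : ℝ := |(mat h y).det| / (mat h y).det

lemma nice_wgt (hh : Good h) : Nice (wgt h) := by
  have hd : Nice (fun y => (mat h y).det) :=
    (nice_mat hh.toReg).map continuous_id.matrix_det
  refine ⟨hd.1.abs.div hd.1 fun y hy => ?_, fun r hr y hy => by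
    simp only [wgt, (nice_mat hh.toReg).2 r hr y hy]⟩
  rw [det_mat]; exact dchart_det_ne hh hy

/-- Weighted integral over the punctured ball. -/
noncomputable def intg (h : (Sp n) → ℝ) (F : (Sp n) → ℝ) : ℝ := ∫ y in (dom n), wgt h y * F y

lemma intg_lin (hh : Good h) {F G : (Sp n) → ℝ} (hF : Nice F) (hG : Nice G) (a b : ℝ) :
    intg h (fun y => a * F y + b * G y) = a * intg h F + b * intg h G := by
  have iF := (((nice_wgt hh).pair hF).map continuous_mul).int
  have iG := (((nice_wgt hh).pair hG).map continuous_mul).int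
  rw [intg, intg, intg, ← integral_const_mul, ← integral_const_mul,
    ← integral_add (iF.const_mul a) (iG.const_mul b)]
  exact integral_congr_ae (Eventually.of_forall fun y => by ring)

noncomputable def vol (f : (Sp n) → ℝ) : ℝ := volume.real (body f)

noncomputable def lin1 (h γ : (Sp n) → ℝ) : ℝ := intg h fun y => d1 (mat h y) (mat γ y)

noncomputable def quad (h γ : (Sp n) → ℝ) : ℝ := intg h fun y => d2 (mat h y) (mat γ y)

lemma nice_d1 (hf : Reg f) (hg : Reg g) : Nice (fun y => d1 (mat f y) (mat g y)) :=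
  ((nice_mat hf).pair (nice_mat hg)).map continuous_d1

lemma nice_d2 (hf : Reg f) (hg : Reg g) : Nice (fun y => d2 (mat f y) (mat g y)) :=
  ((nice_mat hf).pair (nice_mat hg)).map continuous_d2

lemma lin1_lin (hh : Good h) (hf : Reg f) (hg : Reg g) (a b : ℝ) :
    lin1 h (fun z => a * f z + b * g z) = a * lin1 h f + b * lin1 h g := by
  rw [lin1, lin1, lin1, ← intg_lin hh (nice_d1 hh.toReg hf) (nice_d1 hh.toReg hg)]
  refine setIntegral_congr_fun meas_dom fun y hy => ?_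
  dsimp only
  rw [mat_lin hf hg a b hy.2, d1_lin]

lemma quad_para (hh : Good h) (hf : Reg f) (hg : Reg g) :
    quad h (fun z => 1 * f z + 1 * g z) + quad h (fun z => 1 * f z + (-1) * g z)
      = 2 * quad h f + 2 * quad h g := by
  have hp := (hf.smul 1).add (hg.smul 1)
  have hm := (hf.smul 1).add (hg.smul (-1))
  have e := intg_lin hh (nice_d2 hh.toReg hp) (nice_d2 hh.toReg hm) 1 1
  rw [one_mul, one_mul] at e
  rw [quad, quad, quad, quad, ← e,
    ← intg_lin hh (nice_d2 hh.toReg hf) (nice_d2 hh.toReg hg) 2 2]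
  refine setIntegral_congr_fun meas_dom fun y hy => ?_
  dsimp only
  rw [mat_lin hf hg 1 1 hy.2, mat_lin hf hg 1 (-1) hy.2]
  simp only [one_smul, neg_smul, ← sub_eq_add_neg, one_mul, d2_para]

lemma hess_lin (hf : Reg f) (hg : Reg g) (a b : ℝ) {x : (Sp n)} (hx : x ≠ 0) :
    hess (fun z => a * f z + b * g z) x = a • hess f x + b • hess g x := by
  refine HasFDerivAt.fderiv ?_
  refine (((grad_diff hf hx).hasFDerivAt.const_smul a).add
    ((grad_diff hg hx).hasFDerivAt.const_smul b)).congr_of_eventuallyEq ?_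
  filter_upwards [isOpen_compl_singleton.mem_nhds hx] with z hz
  simp [grad_lin hf hg a b hz]

lemma hess_cont (hf : Reg f) : ContinuousOn (hess f) {0}ᶜ :=
  (grad_cd hf).continuousOn_fderiv_of_isOpen isOpen_compl_singleton le_rfl

/-- The family `h + a γ + b δ`. -/
def fam (h γ δ : (Sp n) → ℝ) (a b : ℝ) (z : (Sp n)) : ℝ := 1 * (1 * h z + a * γ z) + b * δ z

lemma fam_reg (hh : Reg h) (hγ : Reg γ) (hδ : Reg δ) (a b : ℝ) : Reg (fam h γ δ a b) :=
  (((hh.smul 1).add (hγ.smul a)).smul 1).add (hδ.smul b)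

lemma fam_mat (hh : Reg h) (hγ : Reg γ) (hδ : Reg δ) (a b : ℝ) {y : (Sp n)} (hy : y ≠ 0) :
    mat (fam h γ δ a b) y = mat h y + a • mat γ y + b • mat δ y := by
  unfold fam
  rw [mat_lin ((hh.smul 1).add (hγ.smul a)) hδ 1 b hy, mat_lin hh hγ 1 a hy, one_smul, one_smul]

lemma fam_hess (hh : Reg h) (hγ : Reg γ) (hδ : Reg δ) (a b : ℝ) {y : (Sp n)} (hy : y ≠ 0) :
    hess (fam h γ δ a b) y = hess h y + a • hess γ y + b • hess δ y := by
  unfold fam
  rw [hess_lin ((hh.smul 1).add (hγ.smul a)) hδ 1 b hy, hess_lin hh hγ 1 a hy, one_smul, one_smul]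

lemma fam_good (hh : Good h) (hγ : Reg γ) (hδ : Reg δ) :
    ∀ᶠ p in 𝓝 (0 : ℝ × ℝ), Good (fam h γ δ p.1 p.2) ∧
      ∀ y ∈ (dom n), |(dchart (fam h γ δ p.1 p.2) y).det| =
        wgt h y * (mat h y + p.1 • mat γ y + p.2 • mat δ y).det := by
  have hS := isCompact_sphere (0 : (Sp n)) 1
  have hne : ∀ x ∈ sphere (0 : (Sp n)) 1, x ≠ 0 := fun x hx => ne_zero_of_mem_unit_sphere ⟨x, hx⟩
  have e1 : ∀ᶠ p in 𝓝 (0 : ℝ × ℝ), ∀ u ∈ sphere (0 : (Sp n)) 1,
      0 < h u + p.1 * γ u + p.2 * δ u ∧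
      0 < (mat h u + p.1 • mat γ u + p.2 • mat δ u).det * (mat h u).det := by
    refine hS.eventually_forall_of_forall_eventually fun u hu => ?_
    have hn := isOpen_compl_singleton.mem_nhds (hne u hu)
    have c : ∀ {F : (Sp n) → ℝ}, Reg F → ContinuousAt (fun q : (ℝ × ℝ) × (Sp n) => F q.2) (0, u) :=
      fun {F} hF => (hF.cd.continuousOn.continuousAt hn).comp (f := fun q : (ℝ × ℝ) × (Sp n) => q.2) continuousAt_snd
    have cm : ∀ {F : (Sp n) → ℝ}, Reg F → ContinuousAt (fun q : (ℝ × ℝ) × (Sp n) => mat F q.2) (0, u) :=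
      fun {F} hF => ContinuousAt.comp (g := mat F) (f := fun q : (ℝ × ℝ) × (Sp n) => q.2)
        ((nice_mat hF).1.continuousAt hn) continuousAt_snd
    have ca : ContinuousAt (fun q : (ℝ × ℝ) × (Sp n) => q.1.1) (0, u) := by fun_prop
    have cb : ContinuousAt (fun q : (ℝ × ℝ) × (Sp n) => q.1.2) (0, u) := by fun_prop
    refine (ContinuousAt.eventually_lt continuousAt_const
      (((c hh.toReg).add (ca.mul (c hγ))).add (cb.mul (c hδ))) ?_).and ?_
    · simpa using hh.pos u (mem_sphere_zero_iff_norm.1 hu)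
    have cd : ∀ {k : (ℝ × ℝ) × (Sp n) → (MN n)}, ContinuousAt k (0, u) →
        ContinuousAt (fun q => (k q).det) (0, u) := fun hk =>
      (continuous_id.matrix_det.continuousAt).comp hk
    refine ContinuousAt.eventually_lt continuousAt_const
      ((cd (((cm hh.toReg).add (ca.smul (cm hγ))).add (cb.smul (cm hδ)))).mul (cd (cm hh.toReg))) ?_
    simpa [det_mat] using dchart_det_ne hh (hne u hu)
  have hK : IsCompact {q : (Sp n) × (Sp n) | q ∈ sphere (0 : (Sp n)) 1 ×ˢ sphere (0 : (Sp n)) 1 ∧ ⟪q.1, q.2⟫ = 0} :=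
    (hS.prod hS).inter_right (isClosed_eq (continuous_fst.inner continuous_snd) continuous_const)
  have e2 : ∀ᶠ p in 𝓝 (0 : ℝ × ℝ), ∀ q ∈ {q : (Sp n) × (Sp n) | q ∈ sphere (0 : (Sp n)) 1 ×ˢ sphere (0 : (Sp n)) 1
      ∧ ⟪q.1, q.2⟫ = 0},
      0 < ⟪(hess h q.1 + p.1 • hess γ q.1 + p.2 • hess δ q.1) q.2, q.2⟫ := by
    refine hK.eventually_forall_of_forall_eventually fun q hq => ?_
    have hn := isOpen_compl_singleton.mem_nhds (hne q.1 hq.1.1)
    have c : ∀ {F : (Sp n) → ℝ}, Reg F →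
        ContinuousAt (fun r : (ℝ × ℝ) × (Sp n) × (Sp n) => hess F r.2.1) (0, q) := fun {F} hF =>
      ((hess_cont hF).continuousAt hn).comp (f := fun r : (ℝ × ℝ) × (Sp n) × (Sp n) => r.2.1) (by fun_prop)
    have ca : ContinuousAt (fun r : (ℝ × ℝ) × (Sp n) × (Sp n) => r.1.1) (0, q) := by fun_prop
    have cb : ContinuousAt (fun r : (ℝ × ℝ) × (Sp n) × (Sp n) => r.1.2) (0, q) := by fun_prop
    have cv : ContinuousAt (fun r : (ℝ × ℝ) × (Sp n) × (Sp n) => r.2.2) (0, q) := by fun_prop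
    refine ContinuousAt.eventually_lt continuousAt_const
      ((((c hh.toReg).add (ca.smul (c hγ))).add (cb.smul (c hδ))).clm_apply cv |>.inner cv) ?_
    simpa using hh.curv q.1 q.2 (mem_sphere_zero_iff_norm.1 hq.1.1)
      (mem_sphere_zero_iff_norm.1 hq.1.2) hq.2
  filter_upwards [e1, e2] with p h1 h2
  have hr := fam_reg hh.toReg hγ hδ p.1 p.2
  refine ⟨⟨hr, fun u hu => ?_, fun u v hu hv huv => ?_⟩, fun y hy => ?_⟩
  · simpa [fam] using (h1 u (mem_sphere_zero_iff_norm.2 hu)).1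
  · rw [fam_hess hh.toReg hγ hδ _ _ (fun h => by simp [h] at hu)]
    exact h2 (u, v) ⟨⟨mem_sphere_zero_iff_norm.2 hu, mem_sphere_zero_iff_norm.2 hv⟩, huv⟩
  · have := (h1 _ (unit_of_ne hy.2)).2
    rw [(nice_mat hh.toReg).at_unit hy.2, (nice_mat hγ).at_unit hy.2,
      (nice_mat hδ).at_unit hy.2] at this
    rw [← det_mat, fam_mat hh.toReg hγ hδ _ _ hy.2, wgt]
    rcases pos_and_pos_or_neg_and_neg_of_mul_pos this with ⟨a, b⟩ | ⟨a, b⟩
    · rw [abs_of_pos a, abs_of_pos b, div_self b.ne', one_mul]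
    · rw [abs_of_neg a, abs_of_neg b, neg_div, div_self b.ne, neg_one_mul]

/-- The remainder integrand. -/
noncomputable def rem (h γ δ : Sp n → ℝ) (s : ℝ) (y : Sp n) : ℝ :=
  d3 (mat h y) (mat γ y) (mat δ y) s

lemma nice_rem (hh : Reg h) (hγ : Reg γ) (hδ : Reg δ) (s : ℝ) : Nice (rem h γ δ s) :=
  ((nice_mat hh).pair ((nice_mat hγ).pair (nice_mat hδ))).map
    (k := fun q : MN n × MN n × MN n => d3 q.1 q.2.1 q.2.2 s)
    (continuous_d3.comp (f := fun q : MN n × MN n × MN n => (q, s)) (by fun_prop))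

lemma rem_bound (hh : Good h) (hγ : Reg γ) (hδ : Reg δ) :
    ∃ C : ℝ, ∀ s ∈ Icc (-1 : ℝ) 1, |intg h (rem h γ δ s)| ≤ C := by
  have hne : ∀ x ∈ sphere (0 : Sp n) 1, x ≠ 0 := fun x hx => ne_zero_of_mem_unit_sphere ⟨x, hx⟩
  have cm : ∀ {F : Sp n → ℝ}, Reg F →
      ContinuousOn (fun q : ℝ × Sp n => mat F q.2) (Icc (-1 : ℝ) 1 ×ˢ sphere (0 : Sp n) 1) :=
    fun {F} hF => ((nice_mat hF).1.comp continuousOn_snd fun q hq => hne q.2 hq.2)
  have hc := continuous_d3.comp_continuousOn (g := fun q : (MN n × MN n × MN n) × ℝ =>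
      d3 q.1.1 q.1.2.1 q.1.2.2 q.2)
    (((cm hh.toReg).prodMk ((cm hγ).prodMk (cm hδ))).prodMk continuousOn_fst)
  have hw : ContinuousOn (fun q : ℝ × Sp n => wgt h q.2)
      (Icc (-1 : ℝ) 1 ×ˢ sphere (0 : Sp n) 1) :=
    (nice_wgt hh).1.comp continuousOn_snd fun q hq => hne q.2 hq.2
  obtain ⟨C, hC⟩ := (isCompact_Icc.prod (isCompact_sphere (0 : Sp n) 1)).exists_bound_of_continuousOn
    (hw.mul hc)
  refine ⟨|C| * volume.real (dom n), fun s hs => ?_⟩
  have hfin : volume (dom n) < ⊤ := (measure_mono sdiff_subset).trans_lt measure_closedBall_lt_top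
  change ‖∫ y in dom n, wgt h y * rem h γ δ s y‖ ≤ |C| * volume.real (dom n)
  refine norm_setIntegral_le_of_norm_le_const hfin fun y hy => ?_
  refine le_trans ?_ (le_abs_self C)
  have := hC (s, ‖y‖⁻¹ • y) ⟨hs, unit_of_ne hy.2⟩
  simp only [Pi.mul_apply, Function.comp_def] at this
  rw [(nice_wgt hh).at_unit hy.2, (nice_mat hh.toReg).at_unit hy.2, (nice_mat hγ).at_unit hy.2,
    (nice_mat hδ).at_unit hy.2] at this
  exact this

lemma vol_fam [NeZero n] (hh : Good h) (hγ : Reg γ) (hδ : Reg δ) {s : ℝ}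
    (hs : Good (fam h γ δ s (s ^ 2)) ∧ ∀ y ∈ dom n, |(dchart (fam h γ δ s (s ^ 2)) y).det| =
      wgt h y * (mat h y + s • mat γ y + s ^ 2 • mat δ y).det) :
    vol (fam h γ δ s (s ^ 2)) = vol h + s * lin1 h γ + s ^ 2 * (quad h γ + lin1 h δ)
      + s ^ 3 * intg h (rem h γ δ s) := by
  have n0 : Nice fun y => (mat h y).det := (nice_mat hh.toReg).map continuous_id.matrix_det
  have n1 := nice_d1 hh.toReg hγ
  have n2 : Nice fun y => d2 (mat h y) (mat γ y) + d1 (mat h y) (mat δ y) :=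
    ((nice_d2 hh.toReg hγ).pair (nice_d1 hh.toReg hδ)).map continuous_add
  have h0 : vol h = intg h fun y => (mat h y).det := by
    rw [vol, volume_body hh]
    refine setIntegral_congr_fun meas_dom fun y hy => ?_
    show |(dchart h y).det| = wgt h y * (mat h y).det
    rw [wgt, div_mul_cancel₀ _ (by rw [det_mat]; exact dchart_det_ne hh hy.2), det_mat]
  have e1 := intg_lin hh n0 n1 1 s
  have e2 := intg_lin hh n2 (nice_rem hh.toReg hγ hδ s) (s ^ 2) (s ^ 3)
  have n01 : Nice fun y => 1 * (mat h y).det + s * d1 (mat h y) (mat γ y) :=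
    (n0.pair n1).map (k := fun q : ℝ × ℝ => 1 * q.1 + s * q.2) (by fun_prop)
  have n23 : Nice fun y => s ^ 2 * (d2 (mat h y) (mat γ y) + d1 (mat h y) (mat δ y))
      + s ^ 3 * rem h γ δ s y :=
    (n2.pair (nice_rem hh.toReg hγ hδ s)).map
      (k := fun q : ℝ × ℝ => s ^ 2 * q.1 + s ^ 3 * q.2) (by fun_prop)
  have e3 := intg_lin hh n01 n23 1 1
  have e4 := intg_lin hh (nice_d2 hh.toReg hγ) (nice_d1 hh.toReg hδ) 1 1
  simp only [one_mul] at e1 e2 e3 e4
  rw [h0, vol, volume_body hs.1]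
  have key : ∫ y in closedBall (0 : Sp n) 1 \ {0}, |(dchart (fam h γ δ s (s ^ 2)) y).det|
      = intg h fun y => ((mat h y).det + s * d1 (mat h y) (mat γ y))
        + (s ^ 2 * (d2 (mat h y) (mat γ y) + d1 (mat h y) (mat δ y)) + s ^ 3 * rem h γ δ s y) :=
    setIntegral_congr_fun meas_dom fun y hy => by
      rw [hs.2 y hy, det_expand]
      simp only [rem]
      ring
  rw [key, e3, e1, e2, e4]
  simp only [lin1, quad]
  ring

/-- The second-order expansion of the volume along `h + s γ + s^2 δ`. -/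
theorem curve [NeZero n] (hh : Good h) (hγ : Reg γ) (hδ : Reg δ) :
    (∀ᶠ s in 𝓝 0, Good (fam h γ δ s (s ^ 2))) ∧
    Err (fun s => vol (fam h γ δ s (s ^ 2))
      - (vol h + s * lin1 h γ + s ^ 2 * (quad h γ + lin1 h δ))) := by
  have ht : Tendsto (fun s : ℝ => (s, s ^ 2)) (𝓝 0) (𝓝 (0 : ℝ × ℝ)) := by
    simpa [Prod.mk_zero_zero] using ((continuous_id.prodMk (continuous_pow 2)).tendsto (0 : ℝ))
  have hev := ht.eventually (fam_good hh hγ hδ)
  refine ⟨hev.mono fun s hs => hs.1, ?_⟩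
  obtain ⟨C, hC⟩ := rem_bound hh hγ hδ
  refine Asymptotics.IsBigO.of_bound C ?_
  filter_upwards [hev, Icc_mem_nhds (by norm_num : (-1 : ℝ) < 0) one_pos] with s hs hs1
  rw [vol_fam hh hγ hδ hs, add_sub_cancel_left, norm_mul, mul_comm]
  exact mul_le_mul_of_nonneg_right (hC s hs1) (norm_nonneg _)

end Vale.Agent.P227.Local
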