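import Vale.Agent.P074.BM

/-!
Wulff bodies in coordinates, their vertical fibres, and the Brunn-Minkowski bound for the moment
of the height under averaging with the mirror image.
-/

namespace Vale.Agent.P227.Local.Fibre

open MeasureTheory Set
open scoped ENNReal

variable {n m : ℕ}

/-- The Wulff body, with all directions. -/
def wulff (F : (Fin n → ℝ) → ℝ) : Set (Fin n → ℝ) := {x | ∀ u, x ⬝ᵥ u ≤ F u}

/-- The reflection in the first coordinate. -/
def flip0 (u : Fin (m + 1) → ℝ) : Fin (m + 1) → ℝ := Fin.cons (-u 0) (Fin.tail u)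

lemma dot_cons (t : ℝ) (y : Fin m → ℝ) (u : Fin (m + 1) → ℝ) :
    (Fin.cons t y : Fin (m + 1) → ℝ) ⬝ᵥ u = t * u 0 + y ⬝ᵥ Fin.tail u := by
  simp [dotProduct, Fin.sum_univ_succ, Fin.tail]

lemma flip0_flip0 (u : Fin (m + 1) → ℝ) : flip0 (flip0 u) = u := by
  simp [flip0, Fin.cons_self_tail]

lemma dot_flip0 (x u : Fin (m + 1) → ℝ) : flip0 x ⬝ᵥ flip0 u = x ⬝ᵥ u := by
  conv_rhs => rw [← Fin.cons_self_tail x, dot_cons]
  rw [flip0, dot_cons]
  simp [flip0]

lemma isClosed_wulff (F : (Fin n → ℝ) → ℝ) : IsClosed (wulff F) := by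
  rw [show wulff F = ⋂ u, {x | x ⬝ᵥ u ≤ F u} by ext; simp [wulff]]
  exact isClosed_iInter fun u => isClosed_le
    (continuous_finsetSum _ fun i _ => (continuous_apply i).mul continuous_const) continuous_const

lemma convex_wulff (F : (Fin n → ℝ) → ℝ) : Convex ℝ (wulff F) := by
  intro x hx y hy a b ha hb hab u
  rw [add_dotProduct, smul_dotProduct, smul_dotProduct, smul_eq_mul, smul_eq_mul]
  calc a * (x ⬝ᵥ u) + b * (y ⬝ᵥ u) ≤ a * F u + b * F u := by gcongr <;> [exact hx u; exact hy u]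
    _ = F u := by rw [← add_mul, hab, one_mul]

lemma isCompact_wulff (F : (Fin n → ℝ) → ℝ) : IsCompact (wulff F) := by
  refine (isCompact_univ_pi fun i : Fin n =>
    isCompact_Icc (a := -F (-Pi.single i 1)) (b := F (Pi.single i 1))).of_isClosed_subset
    (isClosed_wulff F) fun x hx i _ => ⟨?_, ?_⟩
  · have := hx (-Pi.single i 1)
    rw [dotProduct_neg, dotProduct_single, mul_one] at this
    linarith
  · simpa using hx (Pi.single i 1)

lemma neg_mem_wulff {F : (Fin n → ℝ) → ℝ} (hF : ∀ u, F (-u) = F u) {x : Fin n → ℝ}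
    (hx : x ∈ wulff F) : -x ∈ wulff F := fun u => by
  rw [neg_dotProduct, ← dotProduct_neg, ← hF u]
  exact hx (-u)

lemma flip0_mem_wulff {F : (Fin (m + 1) → ℝ) → ℝ} {x : Fin (m + 1) → ℝ} :
    flip0 x ∈ wulff F ↔ x ∈ wulff fun u => F (flip0 u) := by
  constructor <;> intro hx u
  · rw [← dot_flip0]
    exact hx _
  · have := hx (flip0 u)
    rw [← dot_flip0] at this
    simpa [flip0_flip0] using this

/-- The fibre over `y` of a set, in the first coordinate. -/
def fib (X : Set (Fin (m + 1) → ℝ)) (y : Fin m → ℝ) : Set ℝ :=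
  {t | (Fin.cons t y : Fin (m + 1) → ℝ) ∈ X}

lemma lintegral_fib {X : Set (Fin (m + 1) → ℝ)} (hX : MeasurableSet X) {f : ℝ → ℝ≥0∞}
    (hf : Measurable f) :
    Measurable (fun y => ∫⁻ t in fib X y, f t) ∧
      ∫⁻ x in X, f (x 0) = ∫⁻ y, ∫⁻ t in fib X y, f t := by
  have hmp := (volume_preserving_piFinSuccAbove (fun _ : Fin (m + 1) => ℝ) 0).symm
  set e := (MeasurableEquiv.piFinSuccAbove (fun _ : Fin (m + 1) => ℝ) 0).symm with he
  have e0 : ∀ p : ℝ × (Fin m → ℝ), e p = Fin.cons p.1 p.2 := fun p => by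
    simp [he, MeasurableEquiv.piFinSuccAbove_symm_apply, Fin.insertNthEquiv, Fin.insertNth_zero']
  set g : ℝ × (Fin m → ℝ) → ℝ≥0∞ := fun p => X.indicator (fun x => f (x 0)) (e p) with hg
  have hgm : Measurable g := ((hf.comp (measurable_pi_apply 0)).indicator hX).comp e.measurable
  have hs : ∀ y, ∫⁻ t, g (t, y) = ∫⁻ t in fib X y, f t := fun y => by
    have hmf : MeasurableSet (fib X y) := by
      have : fib X y = (fun t => e (t, y)) ⁻¹' X := by ext t; simp [fib, e0]
      rw [this]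
      exact (e.measurable.comp measurable_prodMk_right) hX
    rw [← lintegral_indicator hmf]
    refine lintegral_congr fun t => ?_
    simp only [hg, e0]
    by_cases h : (Fin.cons t y : Fin (m + 1) → ℝ) ∈ X
    · rw [indicator_of_mem h, indicator_of_mem (show t ∈ fib X y from h), Fin.cons_zero]
    · rw [indicator_of_notMem h, indicator_of_notMem (show t ∉ fib X y from h)]
  refine ⟨by simpa only [hs] using hgm.lintegral_prod_left' (μ := (volume : Measure ℝ)), ?_⟩
  calc ∫⁻ x in X, f (x 0) = ∫⁻ x, X.indicator (fun x => f (x 0)) x := (lintegral_indicator hX _).symm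
    _ = ∫⁻ p, X.indicator (fun x => f (x 0)) (e p) :=
        (hmp.lintegral_comp_emb e.measurableEmbedding _).symm
    _ = ∫⁻ p, g p := rfl
    _ = _ := by
      rw [Measure.volume_eq_prod, lintegral_prod_symm' _ hgm]
      exact lintegral_congr hs

lemma volume_fib {X : Set (Fin (m + 1) → ℝ)} (hX : MeasurableSet X) :
    Measurable (fun y => volume (fib X y)) ∧ volume X = ∫⁻ y, volume (fib X y) := by
  have h := lintegral_fib hX (f := fun _ => 1) measurable_const
  simpa using h

lemma fib_flip0 (X : Set (Fin (m + 1) → ℝ)) (y : Fin m → ℝ) :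
    fib (flip0 ⁻¹' X) y = -fib X y := by
  ext t
  simp [fib, flip0]

lemma continuous_flip0 : Continuous (flip0 : (Fin (m + 1) → ℝ) → Fin (m + 1) → ℝ) :=
  (continuous_apply 0).neg.finCons (continuous_pi fun i => continuous_apply i.succ)

lemma volume_flip0 {X : Set (Fin (m + 1) → ℝ)} (hX : MeasurableSet X) :
    volume (flip0 ⁻¹' X) = volume X := by
  rw [(volume_fib (continuous_flip0.measurable hX)).2, (volume_fib hX).2]
  simp [fib_flip0]

/-- The moment of the height. -/
noncomputable def mom (X : Set (Fin (m + 1) → ℝ)) : ℝ≥0∞ := ∫⁻ x in X, ENNReal.ofReal |x 0|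

lemma mom_eq {X : Set (Fin (m + 1) → ℝ)} :
    mom X = ∫⁻ r in Ioi (0 : ℝ), volume ({x | r ≤ |x 0|} ∩ X) := by
  rw [mom, lintegral_eq_lintegral_meas_le (volume.restrict X)
    (Filter.Eventually.of_forall fun x => abs_nonneg (x 0))
    (continuous_abs.comp (continuous_apply 0)).aemeasurable]
  refine lintegral_congr fun r => ?_
  exact Measure.restrict_apply (measurableSet_le measurable_const
    (continuous_abs.comp (continuous_apply 0)).measurable)

/-- Averaging with the mirror image cannot lower the moment of the height. -/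
theorem mom_le {A K : Set (Fin (m + 1) → ℝ)} (hA : IsCompact A) (hK : IsCompact K)
    (hAs : ∀ x ∈ A, -x ∈ A) (hKs : ∀ x ∈ K, -x ∈ K)
    (h : ∀ a ∈ A, ∀ b ∈ A, (1 / 2 : ℝ) • a + (1 / 2 : ℝ) • flip0 b ∈ K) : mom A ≤ mom K := by
  rw [mom_eq, mom_eq]
  refine setLIntegral_mono' measurableSet_Ioi fun r (hr : 0 < r) => ?_
  have split : ∀ {X : Set (Fin (m + 1) → ℝ)}, IsCompact X → (∀ x ∈ X, -x ∈ X) →
      volume ({x | r ≤ |x 0|} ∩ X) = 2 * volume ({x | r ≤ x 0} ∩ X) := by
    intro X hX hXs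
    have e : {x : Fin (m + 1) → ℝ | r ≤ |x 0|} ∩ X
        = ({x | r ≤ x 0} ∩ X) ∪ -({x | r ≤ x 0} ∩ X) := by
      ext x
      simp only [mem_inter_iff, mem_ofPred_eq, mem_union, mem_neg, Pi.neg_apply, le_abs]
      constructor
      · rintro ⟨h1 | h1, h2⟩
        · exact Or.inl ⟨h1, h2⟩
        · exact Or.inr ⟨h1, hXs x h2⟩
      · rintro (⟨h1, h2⟩ | ⟨h1, h2⟩)
        · exact ⟨Or.inl h1, h2⟩
        · exact ⟨Or.inr h1, neg_neg x ▸ hXs _ h2⟩
    have hm : MeasurableSet ({x | r ≤ x 0} ∩ X) :=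
      (measurableSet_le measurable_const (measurable_pi_apply 0)).inter hX.measurableSet
    rw [e, measure_union (Set.disjoint_left.2 fun x h1 h2 => ?_) hm.neg, Measure.measure_neg,
      two_mul]
    have a : r ≤ x 0 := h1.1
    have b : r ≤ -(x 0) := h2.1
    linarith
  rw [split hA hAs, split hK hKs]
  refine mul_le_mul_right ?_ _
  have hcl : IsClosed {x : Fin (m + 1) → ℝ | r ≤ x 0} :=
    isClosed_le continuous_const (continuous_apply 0)
  set T := {x : Fin (m + 1) → ℝ | r ≤ x 0} ∩ A with hT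
  have hTc : IsCompact T := hA.inter_left hcl
  set S := flip0 ⁻¹' (-T) with hS
  have hSv : volume S = volume T := by
    rw [hS, volume_flip0 hTc.measurableSet.neg, Measure.measure_neg]
  have hSc : IsCompact S := by
    have : S = flip0 '' (-T) := by
      ext x
      exact ⟨fun hx => ⟨_, hx, flip0_flip0 x⟩, fun ⟨z, hz, e⟩ => by
        simpa [hS, ← e, flip0_flip0] using hz⟩
    rw [this]
    exact hTc.neg.image continuous_flip0
  have key := Vale.Agent.P074.BM.bm (s := 1 / 2) (by norm_num) (by norm_num) _ T S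
    ({x | r ≤ x 0} ∩ K) hTc hSc (hK.inter_left hcl) fun a ha b hb => by
      have hb' : -flip0 b ∈ T := hb
      have hbA : flip0 b ∈ A := neg_neg (flip0 b) ▸ hAs _ hb'.2
      have := h a ha.2 _ hbA
      rw [flip0_flip0] at this
      norm_num at this ⊢
      refine ⟨?_, this⟩
      have a1 : r ≤ a 0 := ha.1
      have b1 : r ≤ -(flip0 b 0) := hb'.1
      simp [flip0] at b1
      linarith
  rwa [hSv, ← ENNReal.rpow_add_of_nonneg _ _ (by norm_num) (by norm_num), sub_add_cancel,
    ENNReal.rpow_one] at key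

/-- The moment of an interval containing a nearly centred one. -/
lemma interval_moment {a b z : ℝ} (hab : a ≤ b) (hz : 0 ≤ z) (hzr : z ≤ (b - a) / 2)
    (hzm : z ≤ |(a + b) / 2|) :
    ENNReal.ofReal (((b - a) / 2) ^ 2 + z ^ 2) ≤ ∫⁻ t in Icc a b, ENNReal.ofReal |t| := by
  rw [← ofReal_integral_eq_lintegral_ofReal (continuous_abs.integrableOn_Icc)
    (Filter.Eventually.of_forall fun t => abs_nonneg t)]
  refine ENNReal.ofReal_le_ofReal ?_
  rw [integral_Icc_eq_integral_Ioc, ← intervalIntegral.integral_of_le hab]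
  have hp : ∀ p q : ℝ, 0 ≤ p → p ≤ q → ∫ t in p..q, |t| = (q ^ 2 - p ^ 2) / 2 := fun p q h0 h1 => by
    rw [intervalIntegral.integral_congr (g := fun t => t) fun t ht => abs_of_nonneg ?_, integral_id]
    rw [uIcc_of_le h1] at ht
    linarith [ht.1]
  have hn : ∀ p q : ℝ, q ≤ 0 → p ≤ q → ∫ t in p..q, |t| = (p ^ 2 - q ^ 2) / 2 := fun p q h0 h1 => by
    rw [intervalIntegral.integral_congr (g := fun t => -t) fun t ht => abs_of_nonpos ?_,
      intervalIntegral.integral_neg, integral_id]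
    · ring
    rw [uIcc_of_le h1] at ht
    linarith [ht.2]
  have hm : z ^ 2 ≤ ((a + b) / 2) ^ 2 := by
    rw [← sq_abs ((a + b) / 2)]
    exact pow_le_pow_left₀ hz hzm 2
  have hr : z ^ 2 ≤ ((b - a) / 2) ^ 2 := pow_le_pow_left₀ hz hzr 2
  rcases le_or_gt 0 a with ha | ha
  · rw [hp a b ha hab]
    nlinarith
  rcases le_or_gt b 0 with hb | hb
  · rw [hn a b hb hab]
    nlinarith
  rw [← intervalIntegral.integral_add_adjacent_intervals (b := 0)
    (continuous_abs.intervalIntegrable _ _) (continuous_abs.intervalIntegrable _ _),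
    hn a 0 le_rfl ha.le, hp 0 b le_rfl hb.le]
  nlinarith

end Vale.Agent.P227.Local.Fibre
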