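import Vale.Agent.P227.Local.Coord
import Vale.Agent.P227.Sym.Transfer

/-!
The second variation of the logarithmic Brunn-Minkowski inequality: invariance, additivity and
the two sectors.
-/

namespace Vale.Agent.P227.Local

open MeasureTheory Metric Set Filter Topology
open scoped RealInnerProductSpace Pointwise
open Vale.Agent.P227.Local.Fibre (wulff)

variable {n : ℕ} {h g g₁ g₂ : Sp n → ℝ} {B : Sp n ≃ₗ[ℝ] (Fin n → ℝ)}

/-- The logarithmic second-order term `g^2 / (2 h)`. -/
noncomputable def qf (h g : Sp n → ℝ) (z : Sp n) : ℝ := g z ^ 2 / (2 * h z)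

lemma qf_reg (hh : Good h) (hg : Reg g) : Reg (qf h g) := by
  refine ⟨?_, fun r hr x => ?_⟩
  · exact (hg.cd.pow 2).div (contDiffOn_const.mul hh.cd)
      fun x hx => mul_ne_zero two_ne_zero (hh.pos' hx).ne'
  · rw [qf, qf, hg.hom r hr, hh.hom r hr]
    field_simp

lemma reg_zero : Reg (fun _ : Sp n => (0 : ℝ)) :=
  ⟨contDiffOn_const, fun r _ _ => by simp⟩

/-- The second variation of the logarithm of the volume along `h exp (s g / h)`. -/
noncomputable def form (h g : Sp n → ℝ) : ℝ :=
  quad h g + lin1 h (qf h g) - lin1 h g ^ 2 / (2 * vol h)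

lemma lin1_zero (hh : Good h) : lin1 h (fun _ => 0) = 0 := by
  have := lin1_lin hh (reg_zero (n := n)) (reg_zero (n := n)) 1 1
  simp only [mul_zero, add_zero, one_mul] at this
  linarith

lemma quad_zero (hh : Good h) : quad h (fun _ => 0) = 0 := by
  have := quad_para hh (reg_zero (n := n)) (reg_zero (n := n))
  simp only [mul_zero, add_zero] at this
  linarith

lemma form_para (hh : Good h) (h1 : Reg g₁) (h2 : Reg g₂) :
    form h (fun z => 1 * g₁ z + 1 * g₂ z) + form h (fun z => 1 * g₁ z + (-1) * g₂ z)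
      = 2 * form h g₁ + 2 * form h g₂ := by
  have eq := quad_para hh h1 h2
  have l1 := lin1_lin hh h1 h2 1 1
  have l2 := lin1_lin hh h1 h2 1 (-1)
  have hp := (h1.smul 1).add (h2.smul 1)
  have hm := (h1.smul 1).add (h2.smul (-1))
  have q1 := lin1_lin hh (qf_reg hh hp) (qf_reg hh hm) 1 1
  have q2 := lin1_lin hh (qf_reg hh h1) (qf_reg hh h2) 2 2
  have e : (fun z => 1 * qf h (fun z => 1 * g₁ z + 1 * g₂ z) z
      + 1 * qf h (fun z => 1 * g₁ z + (-1) * g₂ z) z)
      = fun z => 2 * qf h g₁ z + 2 * qf h g₂ z := funext fun z => by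
    simp only [qf]; ring
  rw [e, q2] at q1
  unfold form
  rw [l1, l2]
  linear_combination eq - q1

lemma eq_of_err {a a' b b' : ℝ} (he : Err fun s => a * s + b * s ^ 2 - (a' * s + b' * s ^ 2)) :
    a = a' ∧ b = b' := by
  have h1 := coeff_nonpos he (a := a - a') (b := b - b') (Eventually.of_forall fun s => le_of_eq (by ring))
  have h2 := coeff_nonpos ((err_cube (k := fun _ => 0) continuousAt_const).sub he)
    (a := a' - a) (b := b' - b) (Eventually.of_forall fun s => le_of_eq (by ring))
  exact ⟨by linarith [h1.1], by linarith [h1.2, h2.2]⟩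

variable {m : ℕ} {h g : Sp (m + 1) → ℝ} {B : Sp (m + 1) ≃ₗ[ℝ] (Fin (m + 1) → ℝ)}
  {i : Fin (m + 1)}

lemma vol_refl {f : Sp (m + 1) → ℝ} (hf : Reg f) :
    vol (fun u => f (refl B i u)) = vol f := by
  obtain ⟨κ, hκ, hv⟩ := vol_push (front B i)
  have e : wulff (push (front B i) fun u => f (refl B i u))
      = Fibre.flip0 ⁻¹' wulff (push (front B i) f) := by
    ext x
    rw [mem_preimage, Fibre.flip0_mem_wulff]
    simp only [wulff, push, front_refl, mem_ofPred_eq]
  have h1 := hv _ (hf.refl B i)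
  have h2 := hv _ hf
  rw [e, measureReal_def, Fibre.volume_flip0 (Fibre.isClosed_wulff _).measurableSet,
    ← measureReal_def, h2] at h1
  exact (mul_left_cancel₀ hκ.ne' h1).symm

lemma form_refl (hh : Good h) (hg : Reg g) (hi : ∀ u, h (refl B i u) = h u) :
    lin1 h (fun u => g (refl B i u)) = lin1 h g ∧ form h (fun u => g (refl B i u)) = form h g := by
  obtain ⟨-, e1⟩ := curve hh hg (qf_reg hh hg)
  obtain ⟨-, e2⟩ := curve hh (hg.refl B i) (qf_reg hh (hg.refl B i))
  have key : ∀ s, vol (fam h (fun u => g (refl B i u)) (qf h fun u => g (refl B i u)) s (s ^ 2))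
      = vol (fam h g (qf h g) s (s ^ 2)) := fun s => by
    rw [← vol_refl (B := B) (i := i) (fam_reg hh.toReg hg (qf_reg hh hg) s (s ^ 2))]
    congr 1
    funext u
    simp only [fam, qf, hi]
  obtain ⟨ea, eb⟩ := eq_of_err (a := lin1 h g)
    (b := quad h g + lin1 h (qf h g))
    (a' := lin1 h fun u => g (refl B i u))
    (b' := quad h (fun u => g (refl B i u)) + lin1 h (qf h fun u => g (refl B i u)))
    ((e2.sub e1).congr (Eventually.of_forall fun s => by rw [key s]; ring))
  exact ⟨ea.symm, by unfold form; rw [← ea, eb]⟩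

/-- The sector odd under a reflection of the body. -/
lemma form_odd (hh : Good h) (heh : ∀ u, h (-u) = h u) (hi : ∀ u, h (refl B i u) = h u)
    (hg : Reg g) (heg : ∀ u, g (-u) = g u) (hgo : ∀ u, g (refl B i u) = -g u) : form h g ≤ 0 := by
  set C := front B i with hC
  obtain ⟨κ, hκ, hv⟩ := vol_push C
  have hF : Fibre.Gauge (push C h) := by
    refine ⟨hh.toReg.continuous.comp C.symm.toLinearMap.continuous_of_finiteDimensional,
      fun u hu => hh.pos' (C.symm.map_ne_zero_iff.2 hu), fun c hc u => ?_,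
      fun u => by simp [push, heh], fun u => ?_, fun u => ?_⟩
    · rcases hc.eq_or_lt with rfl | hc
      · simp [push, hh.toReg.zero]
      · rw [push, push, map_smul, hh.hom c hc]
    · rw [push, ← front_refl, hi, push]
    · have e : (Fin.cons 0 (Fin.tail u) : Fin (m + 1) → ℝ)
          = (1 / 2 : ℝ) • u + (1 / 2 : ℝ) • Fibre.flip0 u := by
        funext k
        induction k using Fin.cases
        · simp [Fibre.flip0]
        · simp [Fibre.flip0, Fin.tail]; ring
      unfold push
      rw [e, map_add, map_smul, map_smul]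
      refine (hh.subadd _ _).trans (le_of_eq ?_)
      rw [hh.hom _ (by norm_num), hh.hom _ (by norm_num), ← front_refl, hi]
      ring
  obtain ⟨L, hL0, hL⟩ : ∃ L, 0 ≤ L ∧ ∀ u : Sp (m + 1), u ≠ 0 → ‖fderiv ℝ g u‖ ≤ L := by
    obtain ⟨L, hL⟩ := (isCompact_sphere (0 : Sp (m + 1)) 1).exists_bound_of_continuousOn
      ((grad_cd hg).continuousOn.mono fun x hx => ne_zero_of_mem_unit_sphere ⟨x, hx⟩)
    refine ⟨max L 0, le_max_right _ _, fun u hu => ?_⟩
    have hn : ‖fderiv ℝ g u‖ = ‖grad g u‖ :=
      ((InnerProductSpace.toDual ℝ (Sp (m + 1))).symm.norm_map _).symm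
    rw [hn, ← grad_hom hg (inv_pos.2 (norm_pos_iff.2 hu)) hu]
    exact (hL _ (unit_of_ne hu)).trans (le_max_left _ _)
  set b := L * ‖C.symm (Pi.single 0 1)‖ with hb
  have hG : Fibre.Test b (push C g) := by
    refine ⟨fun u => by simp [push, heg], fun u => by rw [push, ← front_refl, hgo, push],
      fun u => ?_⟩
    have hodd : g (C.symm (Fibre.flip0 u)) = -g (C.symm u) := by rw [← front_refl, hgo]
    by_cases ht : Fin.tail u = 0
    · have e : Fibre.flip0 u = -u := by
        funext k
        induction k using Fin.cases with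
        | zero => simp [Fibre.flip0]
        | succ j =>
          have hj : u j.succ = 0 := congrFun ht j
          simp [Fibre.flip0, Fin.tail, hj]
      rw [e, map_neg, heg] at hodd
      have : g (C.symm u) = 0 := by linarith
      rw [push, this, abs_zero]
      positivity
    set x := C.symm u
    set y := C.symm (Fibre.flip0 u)
    have hseg : ∀ z ∈ segment ℝ y x, z ≠ 0 := by
      rintro z ⟨p, q, -, -, hpq, rfl⟩ hz
      apply ht
      have := congrArg C hz
      simp only [map_add, map_smul, x, y, LinearEquiv.apply_symm_apply, map_zero] at this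
      funext j
      have hj := congrFun this j.succ
      simp [Fibre.flip0, Fin.tail, ← add_mul, hpq] at hj ⊢
      exact hj
    have hd := (convex_segment y x).norm_image_sub_le_of_norm_fderiv_le
      (fun z hz => hg.diff (hseg z hz)) (fun z hz => hL z (hseg z hz))
      (left_mem_segment ℝ y x) (right_mem_segment ℝ y x)
    have e : x - y = (2 * u 0) • C.symm (Pi.single 0 1) := by
      simp only [x, y, ← map_sub, ← map_smul]
      congr 1
      funext k
      induction k using Fin.cases
      · simp [Fibre.flip0]; ring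
      · simp [Fibre.flip0, Fin.tail, Fin.succ_ne_zero]
    rw [hodd, sub_neg_eq_add, Real.norm_eq_abs, ← two_mul, abs_mul, abs_two, e, norm_smul,
      Real.norm_eq_abs, abs_mul, abs_two] at hd
    show |g x| ≤ b * |u 0|
    rw [hb]
    linarith
  obtain ⟨W, hW, hstep⟩ := Fibre.odd_step hF hG
  have hlin : lin1 h g = 0 := by
    have h1 := (form_refl (B := B) (i := i) hh hg hi).1
    have h2 := lin1_lin hh hg hg (-1) 0
    simp only [zero_mul, add_zero, neg_one_mul] at h2
    rw [show (fun u => g (refl B i u)) = fun z => -g z from funext hgo, h2] at h1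
    linarith
  obtain ⟨-, eA⟩ := curve hh hg reg_zero
  obtain ⟨-, eE⟩ := curve hh reg_zero (qf_reg hh hg)
  rw [lin1_zero hh, add_zero, hlin] at eA
  rw [lin1_zero hh, quad_zero hh, zero_add] at eE
  refine le_of_forall_pos_le_add fun ε hε => ?_
  rw [zero_add]
  set ε' := ε * W * κ with hε'
  have hpA : ∀ s, Fibre.pert (push C h) (push C g) s = push C (fam h g (fun _ => 0) s (s ^ 2)) :=
    fun s => funext fun w => by simp [Fibre.pert, push, fam]
  have hpE : ∀ s, Fibre.pert (push C h) (Fibre.corr (push C h) (push C g)) (s ^ 2)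
      = push C (fam h (fun _ => 0) (qf h g) s (s ^ 2)) :=
    fun s => funext fun w => by simp [Fibre.pert, Fibre.corr, push, fam, qf]
  have ebs : Err fun s : ℝ => |s| * s ^ 2 * (b * quad h g) := by
    refine Asymptotics.IsBigO.of_bound |b * quad h g| (Eventually.of_forall fun s => ?_)
    simp only [Real.norm_eq_abs, abs_mul, abs_abs, abs_pow]
    exact le_of_eq (by ring)
  set eA' := fun s => vol (fam h g (fun _ => 0) s (s ^ 2)) - (vol h + s * 0 + s ^ 2 * quad h g)
  set eE' := fun s => vol (fam h (fun _ => 0) (qf h g) s (s ^ 2))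
    - (vol h + s * 0 + s ^ 2 * lin1 h (qf h g))
  have herr : Err fun s => -(W * (eE' s + eA' s)) - |s| * s ^ 2 * (b * quad h g)
      - |s| * b * eA' s := by
    refine ((((eE.add eA).mul_cont (k := fun _ => -W) continuousAt_const).sub ebs).sub
      (eA.mul_cont (k := fun s => |s| * b)
        (continuous_abs.continuousAt.mul continuousAt_const))).congr
      (Eventually.of_forall fun s => ?_)
    simp only [eA', eE']
    ring
  have hfor : form h g = quad h g + lin1 h (qf h g) := by
    unfold form; rw [hlin]; ring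
  have := (coeff_nonpos herr (a := 0) (b := W * form h g - ε * W) ?_).2
  · nlinarith
  filter_upwards [hstep ε' (by positivity)] with s hs
  rw [hpA, hpE, hv _ hh.toReg, hv _ (fam_reg hh.toReg hg reg_zero s (s ^ 2)),
    hv _ (fam_reg hh.toReg reg_zero (qf_reg hh hg) s (s ^ 2))] at hs
  rw [hfor]
  simp only [eA', eE']
  refine le_of_mul_le_mul_left ?_ hκ
  rw [hε'] at hs
  linarith

/-- The sector invariant under all reflections. -/
lemma form_even (hh : Good h) (heh : ∀ u, h (-u) = h u)
    (hi : ∀ j : Fin (m + 1), (j : ℕ) + 2 < m + 1 → ∀ u, h (refl B j u) = h u)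
    (hg : Reg g) (heg : ∀ u, g (-u) = g u)
    (hgi : ∀ j : Fin (m + 1), (j : ℕ) + 2 < m + 1 → ∀ u, g (refl B j u) = g u) :
    form h g ≤ 0 := by
  obtain ⟨κ, hκ, hv⟩ := vol_push B
  have hq := qf_reg hh hg
  obtain ⟨hgood, eV⟩ := curve hh hg hq
  obtain ⟨c0, hc0, hc⟩ : ∃ c, 0 ≤ c ∧ ∀ u, |qf h g u| ≤ c * h u := by
    obtain ⟨c, hc⟩ := (isCompact_sphere (0 : Sp (m + 1)) 1).exists_bound_of_continuousOn
      ((cont_sphere hq).div (cont_sphere hh.toReg) fun x hx =>
        (hh.pos x (mem_sphere_zero_iff_norm.1 hx)).ne')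
    refine ⟨max c 0, le_max_right _ _, fun u => ?_⟩
    rcases eq_or_ne u 0 with rfl | hu
    · simp [hq.zero, hh.toReg.zero]
    have := hc _ (unit_of_ne hu)
    rw [Pi.div_apply, hq.hom _ (inv_pos.2 (norm_pos_iff.2 hu)),
      hh.hom _ (inv_pos.2 (norm_pos_iff.2 hu)),
      mul_div_mul_left _ _ (inv_ne_zero (norm_ne_zero_iff.2 hu)), Real.norm_eq_abs, abs_div,
      abs_of_pos (hh.pos' hu), div_le_iff₀ (hh.pos' hu)] at this
    exact this.trans (mul_le_mul_of_nonneg_right (le_max_left _ _) (hh.pos' hu).le)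
  set ct : ℝ → ℝ := fun s => 1 + c0 ^ 2 * s ^ 4 with hct
  set fp : ℝ → Sp (m + 1) → ℝ := fun s => fam h g (qf h g) s (s ^ 2) with hfp
  have hR : ∀ s, Reg (fp s) := fun s => fam_reg hh.toReg hg hq s (s ^ 2)
  have hev : ∀ᶠ s in 𝓝 (0 : ℝ), Good (fp s) ∧ Good (fp (-s)) := by
    have hn : Tendsto (fun s : ℝ => -s) (𝓝 0) (𝓝 0) := by simpa using continuous_neg.tendsto (0 : ℝ)
    filter_upwards [hgood, hn.eventually hgood] with s h1 h2 using ⟨h1, h2⟩
  have key : ∀ᶠ s in 𝓝 (0 : ℝ),
      vol (fp s) * vol (fp (-s)) ≤ (ct s ^ (m + 1)) ^ 2 * vol h ^ 2 := by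
    filter_upwards [hev] with s hs
    have c1 : 1 ≤ ct s := le_add_of_nonneg_right (by positivity)
    have hinv : ∀ (r : ℝ) (j : Fin (m + 1)), (j : ℕ) + 2 < m + 1 →
        Sym.Refl j (wulff (push B (fp r))) := by
      intro r j hj x hx w
      have := hx (Function.update w j (-w j))
      have e : push B (fp r) (Function.update w j (-w j)) = push B (fp r) w := by
        have hw : refl B j (B.symm w) = B.symm (Function.update w j (-w j)) := by simp [refl]
        simp only [push, ← hw, hfp, fam, qf, hi j hj, hgi j hj]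
      rw [e] at this
      refine le_trans (le_of_eq ?_) this
      simp only [dotProduct]
      refine Finset.sum_congr rfl fun k _ => ?_
      rcases eq_or_ne k j with rfl | hk
      · simp
      · simp [hk]
    have hgd : ∀ r, Sym.Good (wulff (push B (fp r))) := fun r =>
      ⟨Fibre.isCompact_wulff _, Fibre.convex_wulff _, fun x hx =>
        Fibre.neg_mem_wulff (fun u => by simp [push, hfp, fam, qf, heh, heg]) hx⟩
    have hsh : ∀ r, Good (fp r) → ∀ w, Sym.sh (wulff (push B (fp r))) w ≤ push B (fp r) w :=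
      fun r hr w => csSup_le (Set.Nonempty.image _
        (show (wulff (push B (fp r))).Nonempty from ⟨0, fun u => by
          rw [zero_dotProduct]; exact hr.nonneg _⟩))
        fun _ ⟨x, hx, e⟩ => e ▸ hx w
    have main := Sym.main (a := 1 / 2) (by norm_num) (by norm_num) (m + 1) _ _ (hgd s) (hgd (-s))
      fun j hj => ⟨hinv s j hj, hinv (-s) j hj⟩
    have hsub : Sym.lw (1 / 2) (wulff (push B (fp s))) (wulff (push B (fp (-s))))
        ⊆ ct s • wulff (push B h) := by
      intro x hx
      refine ⟨(ct s)⁻¹ • x, fun w => ?_, ?_⟩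
      · rw [smul_dotProduct, smul_eq_mul, inv_mul_le_iff₀ (by linarith)]
        refine (hx w).trans ?_
        have p1 := hsh s hs.1 w
        have p2 := hsh (-s) hs.2 w
        have n1 := (hgd s).sh_nonneg w
        have n2 := (hgd (-s)).sh_nonneg w
        refine le_trans (mul_le_mul (Real.rpow_le_rpow n1 p1 (by norm_num))
          (Real.rpow_le_rpow n2 p2 (by norm_num)) (Real.rpow_nonneg n2 _)
          (Real.rpow_nonneg (n1.trans p1) _)) ?_
        have hh0 : 0 ≤ push B h w := hh.nonneg _
        rw [show (1 : ℝ) - 1 / 2 = 1 / 2 by norm_num, ← Real.mul_rpow (n1.trans p1) (n2.trans p2),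
          ← Real.sqrt_eq_rpow, Real.sqrt_le_left (by positivity)]
        set u := B.symm w
        have hq2 : qf h g u ^ 2 ≤ c0 ^ 2 * h u ^ 2 := by
          rw [← mul_pow, ← sq_abs]
          exact pow_le_pow_left₀ (abs_nonneg _) (hc u) 2
        have hg2 : g u ^ 2 = 2 * qf h g u * h u := by
          rcases eq_or_ne u 0 with e | e
          · simp [e, hg.zero, hh.toReg.zero]
          · rw [qf]
            field_simp [(hh.pos' e).ne']
        simp only [push, hfp, fam, hct]
        nlinarith [mul_le_mul_of_nonneg_left hq2 (by positivity : (0 : ℝ) ≤ s ^ 4),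
          mul_nonneg (by positivity : (0 : ℝ) ≤ c0 ^ 2 * s ^ 4) (sq_nonneg (h u)),
          mul_nonneg (by positivity : (0 : ℝ) ≤ (c0 ^ 2 * s ^ 4) ^ 2) (sq_nonneg (h u))]
      · simp [smul_smul, (show ct s ≠ 0 by linarith)]
    have hfin : ∀ f, volume (wulff (push B f)) ≠ ⊤ := fun f =>
      (Fibre.isCompact_wulff _).measure_lt_top.ne
    have h2 := ENNReal.toReal_mono (by
        rw [Measure.addHaar_smul]
        exact ENNReal.mul_ne_top ENNReal.ofReal_ne_top (hfin h))
      (main.trans (measure_mono hsub))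
    rw [ENNReal.toReal_mul, ← ENNReal.toReal_rpow, ← ENNReal.toReal_rpow, Measure.addHaar_smul,
      ENNReal.toReal_mul, ENNReal.toReal_ofReal (abs_nonneg _), Module.finrank_fin_fun,
      abs_of_nonneg (pow_nonneg (by linarith) _), ← measureReal_def, ← measureReal_def,
      ← measureReal_def, hv _ hh.toReg, hv _ (hR s), hv _ (hR (-s)),
      show (1 : ℝ) - 1 / 2 = 1 / 2 by norm_num] at h2
    have v1 : 0 ≤ κ * vol (fp s) := mul_nonneg hκ.le measureReal_nonneg
    have v2 : 0 ≤ κ * vol (fp (-s)) := mul_nonneg hκ.le measureReal_nonneg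
    rw [← Real.mul_rpow v1 v2, ← Real.sqrt_eq_rpow] at h2
    have h3 := pow_le_pow_left₀ (Real.sqrt_nonneg _) h2 2
    rw [Real.sq_sqrt (mul_nonneg v1 v2)] at h3
    refine le_of_mul_le_mul_left ?_ (by positivity : 0 < κ ^ 2)
    linarith
  set a := lin1 h g
  set q := quad h g + lin1 h (qf h g) with hqd
  set V := vol h with hVd
  set e : ℝ → ℝ := fun s => vol (fp s) - (V + s * a + s ^ 2 * q) with hed
  have ep : Err e := eV
  have em : Err fun s => vol (fp (-s)) - (V - s * a + s ^ 2 * q) :=
    ep.reflect.congr (Eventually.of_forall fun s => by simp only [hed, neg_sq]; ring)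
  have epow : Err fun s => ((ct s ^ (m + 1)) ^ 2 - 1) * V ^ 2 := by
    have hg' : ∀ (N : ℕ) (x : ℝ), x ^ N - 1 = (x - 1) * ∑ k ∈ Finset.range N, x ^ k :=
      fun N x => (mul_geom_sum x N).symm
    refine (err_cube (k := fun s => s * c0 ^ 2
      * (∑ k ∈ Finset.range ((m + 1) * 2), ct s ^ k) * V ^ 2) (by fun_prop)).congr
      (Eventually.of_forall fun s => ?_)
    rw [← pow_mul, hg' ((m + 1) * 2) (ct s), show ct s - 1 = c0 ^ 2 * s ^ 4 by simp [hct]]
    ring
  have herr : Err fun s => ((ct s ^ (m + 1)) ^ 2 - 1) * V ^ 2 - s ^ 4 * q ^ 2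
      - (e s * (V - s * a + s ^ 2 * q)
        + (vol (fp (-s)) - (V - s * a + s ^ 2 * q)) * (V + s * a + s ^ 2 * q)
        + e s * (vol (fp (-s)) - (V - s * a + s ^ 2 * q))) := by
    refine ((epow.sub (err_cube (k := fun s => s * q ^ 2) (by fun_prop))).sub
      (((ep.mul_cont (k := fun s => V - s * a + s ^ 2 * q) (by fun_prop)).add
        (em.mul_cont (k := fun s => V + s * a + s ^ 2 * q) (by fun_prop))).add (ep.mul em))).congr
      (Eventually.of_forall fun s => ?_)
    ring
  have hco := (coeff_nonpos herr (a := 0) (b := 2 * V * q - a ^ 2) ?_).2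
  · have h0 : 0 < V := vol_pos hh
    show q - a ^ 2 / (2 * V) ≤ 0
    rw [sub_nonpos, le_div_iff₀ (by linarith)]
    linarith
  filter_upwards [key] with s hs
  have : vol (fp s) = V + s * a + s ^ 2 * q + e s := by simp only [hed]; ring
  rw [this] at hs
  linarith

end Vale.Agent.P227.Local
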