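import Vale.Agent.P227.Local.Form

/-!
The local logarithmic Brunn-Minkowski inequality at bodies with all but two commuting reflections,
against arbitrary even perturbations.
-/

namespace Vale.Agent.P227.Local

open MeasureTheory Metric Set Filter Topology
open scoped RealInnerProductSpace Pointwise

variable {m : ℕ} {h g : Sp (m + 1) → ℝ} {B : Sp (m + 1) ≃ₗ[ℝ] (Fin (m + 1) → ℝ)}

/-- Splitting along the reflections, one at a time. -/
theorem form_nonpos (hh : Good h) (heh : ∀ u, h (-u) = h u)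
    (hi : ∀ j : Fin (m + 1), (j : ℕ) + 2 < m + 1 → ∀ u, h (refl B j u) = h u) :
    ∀ (d k : ℕ), m + 1 ≤ k + d + 2 → ∀ g : Sp (m + 1) → ℝ, Reg g → (∀ u, g (-u) = g u) →
      (∀ j : Fin (m + 1), (j : ℕ) < k → (j : ℕ) + 2 < m + 1 → ∀ u, g (refl B j u) = g u) →
      form h g ≤ 0 := by
  intro d
  induction d with
  | zero => exact fun k hk g hg heg hgi => form_even hh heh hi hg heg fun j hj => hgi j (by omega) hj
  | succ d ih =>
    intro k hk g hg heg hgi
    by_cases hk2 : k + 2 < m + 1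
    swap
    · exact form_even hh heh hi hg heg fun j hj => hgi j (by omega) hj
    set j0 : Fin (m + 1) := ⟨k, by omega⟩
    set gp : Sp (m + 1) → ℝ := fun u => (1 / 2) * g u + (1 / 2) * g (refl B j0 u) with hgp
    set gm : Sp (m + 1) → ℝ := fun u => (1 / 2) * g u + (-(1 / 2)) * g (refl B j0 u) with hgm
    have rp : Reg gp := (hg.smul _).add ((hg.refl B j0).smul _)
    have rm : Reg gm := (hg.smul _).add ((hg.refl B j0).smul _)
    have hp := ih (k + 1) (by omega) gp rp (fun u => by simp [hgp, refl_neg, heg])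
      fun j hj hj2 u => by
        rcases Nat.lt_succ_iff_lt_or_eq.1 hj with hlt | heq
        · simp only [hgp, refl_comm B j0 j, hgi j hlt hj2]
        · obtain rfl : j = j0 := Fin.ext heq
          simp only [hgp, refl_refl]
          ring
    have hm := form_odd hh heh (hi j0 hk2) rm (fun u => by simp [hgm, refl_neg, heg]) fun u => by
      simp only [hgm, refl_refl]
      ring
    have e := form_para hh rp rm
    rw [show (fun z => 1 * gp z + 1 * gm z) = g from funext fun z => by simp only [hgp, hgm]; ring,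
      show (fun z => 1 * gp z + (-1) * gm z) = fun u => g (refl B j0 u) from
        funext fun z => by simp only [hgp, hgm]; ring,
      (form_refl hh hg (hi j0 hk2)).2] at e
    linarith

lemma rel_bound {n : ℕ} {h g : Sp n → ℝ} (hh : Good h) (hg : Reg g) :
    ∃ c, 0 ≤ c ∧ ∀ u, |g u| ≤ c * h u := by
  obtain ⟨c, hc⟩ := (isCompact_sphere (0 : Sp n) 1).exists_bound_of_continuousOn
    ((cont_sphere hg).div (cont_sphere hh.toReg) fun x hx =>
      (hh.pos x (mem_sphere_zero_iff_norm.1 hx)).ne')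
  refine ⟨max c 0, le_max_right _ _, fun u => ?_⟩
  rcases eq_or_ne u 0 with rfl | hu
  · simp [hg.zero, hh.toReg.zero]
  have := hc _ (unit_of_ne hu)
  rw [Pi.div_apply, hg.hom _ (inv_pos.2 (norm_pos_iff.2 hu)),
    hh.hom _ (inv_pos.2 (norm_pos_iff.2 hu)),
    mul_div_mul_left _ _ (inv_ne_zero (norm_ne_zero_iff.2 hu)), Real.norm_eq_abs, abs_div,
    abs_of_pos (hh.pos' hu), div_le_iff₀ (hh.pos' hu)] at this
  exact this.trans (mul_le_mul_of_nonneg_right (le_max_left _ _) (hh.pos' hu).le)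

lemma ev_lt {f : ℝ → ℝ} (hf : Continuous f) {r : ℝ} (h0 : f 0 < r) :
    ∀ᶠ t in 𝓝 (0 : ℝ), f t < r :=
  (hf.tendsto 0).eventually (gt_mem_nhds h0)

/-- The logarithmic combination near `h` contains a slightly shrunk second-order model. -/
lemma comb_ge (hh : Good h) (hg : Reg g) (c : ℝ) :
    ∃ C, 0 ≤ C ∧ ∀ᶠ t in 𝓝 (0 : ℝ),
      (1 - C * |t| ^ 3) ^ (m + 1)
          * vol (fam h (fun u => c * g u) (fun u => -(c * (1 - c)) * qf h g u) t (t ^ 2))
        ≤ vol (fun u => h u ^ (1 - c) * (h u + t * g u) ^ c) := by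
  obtain ⟨c0, hc0, hc⟩ := rel_bound hh hg
  obtain ⟨Ct, hCt, δ, hδ, hb⟩ := (rpow_tay c).bound
  set C := 2 * (Ct * c0 ^ 3) with hC
  refine ⟨C, by positivity, ?_⟩
  set γ := fun u => c * g u
  set w := fun u => -(c * (1 - c)) * qf h g u
  obtain ⟨hgood, -⟩ := curve hh (hg.smul c) ((qf_reg hh hg).smul (-(c * (1 - c))))
  have ht : ∀ᶠ t in 𝓝 (0 : ℝ), |t| * c0 < min δ (1 / 2) ∧ C * |t| ^ 3 < 1 ∧
      (1 / 2 : ℝ) ≤ 1 - |c| * (|t| * c0) - |c * (1 - c)| / 2 * (|t| * c0) ^ 2 := by
    have e3 := ev_lt (f := fun t : ℝ => |c| * (|t| * c0) + |c * (1 - c)| / 2 * (|t| * c0) ^ 2)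
      (r := 1 / 2) (by fun_prop) (by simp)
    filter_upwards [ev_lt (f := fun t : ℝ => |t| * c0) (r := min δ (1 / 2)) (by fun_prop)
      (by simp [hδ]), ev_lt (f := fun t : ℝ => C * |t| ^ 3) (r := 1) (by fun_prop) (by simp), e3]
      with t a1 a2 a3 using ⟨a1, a2, by linarith⟩
  filter_upwards [hgood, ht] with t hgt ⟨h1, h2, h3⟩
  set p := 1 - C * |t| ^ 3
  have hp : 0 ≤ p := by simp only [p]; linarith
  rw [show p ^ (m + 1) * vol (fam h γ w t (t ^ 2))
      = volume.real (p • body (fam h γ w t (t ^ 2))) by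
    rw [measureReal_def, Measure.addHaar_smul, ENNReal.toReal_mul,
      ENNReal.toReal_ofReal (abs_nonneg _), finrank_euclideanSpace_fin,
      abs_of_nonneg (pow_nonneg hp _)]
    rfl]
  refine measureReal_mono ?_ (body_isCompact _).measure_lt_top.ne
  rintro _ ⟨x, hx, rfl⟩ u hu
  rw [real_inner_smul_left]
  refine (mul_le_mul_of_nonneg_left (hx u hu) hp).trans ?_
  have hhu := hh.pos u (mem_sphere_zero_iff_norm.1 hu)
  set z := t * g u / h u with hz
  have hz1 : |z| ≤ |t| * c0 := by
    rw [hz, abs_div, abs_mul, abs_of_pos hhu, div_le_iff₀ hhu, mul_assoc]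
    exact mul_le_mul_of_nonneg_left (hc u) (abs_nonneg t)
  have efam : fam h γ w t (t ^ 2) u = h u * tay c z := by
    simp only [fam, γ, w, qf, hz, tay]
    field_simp
    ring
  have etrue : h u ^ (1 - c) * (h u + t * g u) ^ c = h u * (1 + z) ^ c := by
    have hz0 : 0 ≤ 1 + z := by linarith [neg_abs_le z, min_le_right δ (1 / 2 : ℝ)]
    rw [show h u + t * g u = h u * (1 + z) by rw [hz]; field_simp,
      Real.mul_rpow hhu.le hz0, ← mul_assoc, ← Real.rpow_add hhu, sub_add_cancel, Real.rpow_one]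
  show p * fam h γ w t (t ^ 2) u ≤ h u ^ (1 - c) * (h u + t * g u) ^ c
  rw [efam, etrue, mul_left_comm]
  refine mul_le_mul_of_nonneg_left ?_ hhu.le
  have hb' := abs_le.1 (hb z ((hz1.trans_lt h1).trans_le (min_le_left _ _)))
  have htay : (1 / 2 : ℝ) ≤ tay c z := by
    refine h3.trans ?_
    simp only [tay]
    have a1 : -(c * z) ≤ |c| * (|t| * c0) :=
      (neg_le_abs _).trans (by rw [abs_mul]; exact mul_le_mul_of_nonneg_left hz1 (abs_nonneg c))
    have a2 : c * (1 - c) / 2 * z ^ 2 ≤ |c * (1 - c)| / 2 * (|t| * c0) ^ 2 := by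
      refine mul_le_mul (by linarith [le_abs_self (c * (1 - c))]) ?_ (sq_nonneg z) (by positivity)
      rw [← sq_abs z]
      exact pow_le_pow_left₀ (abs_nonneg z) hz1 2
    linarith
  have hz3 : Ct * |z| ^ 3 ≤ Ct * c0 ^ 3 * |t| ^ 3 := by
    have := mul_le_mul_of_nonneg_left (pow_le_pow_left₀ (abs_nonneg z) hz1 3) hCt.le
    linarith [mul_pow |t| c0 3]
  have hA : Ct * c0 ^ 3 * |t| ^ 3 ≤ C * |t| ^ 3 * tay c z := by
    rw [hC]
    nlinarith [mul_le_mul_of_nonneg_left htay (by positivity : 0 ≤ 2 * (Ct * c0 ^ 3) * |t| ^ 3)]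
  simp only [p]
  linarith

/-- A nonpositive second variation gives the local inequality, for every weight. -/
theorem local_of_form (hh : Good h) (hg : Reg g) (hform : form h g ≤ 0) {c : ℝ}
    (hc : c ∈ Icc (0 : ℝ) 1) {ε : ℝ} (hε : 0 < ε) :
    ∀ᶠ t in 𝓝 (0 : ℝ),
      vol h ^ (1 - c) * vol (fun u => h u + t * g u) ^ c
        ≤ vol (fun u => h u ^ (1 - c) * (h u + t * g u) ^ c) + ε * t ^ 2 := by
  obtain ⟨hgL, eL⟩ := curve hh hg reg_zero
  rw [lin1_zero hh, add_zero] at eL
  have hq := qf_reg hh hg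
  obtain ⟨-, eM⟩ := curve hh (hg.smul c) (hq.smul (-(c * (1 - c))))
  set a := lin1 h g
  set Q := quad h g
  set V := vol h with hV
  have hV0 : 0 < V := vol_pos hh
  have l1 : lin1 h (fun u => c * g u) = c * a := by
    have := lin1_lin hh hg hg c 0
    simpa using this
  have l2 : lin1 h (fun u => -(c * (1 - c)) * qf h g u) = -(c * (1 - c)) * lin1 h (qf h g) := by
    have := lin1_lin hh hq hq (-(c * (1 - c))) 0
    simpa using this
  have l3 : quad h (fun u => c * g u) = c ^ 2 * Q := by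
    have hd : ∀ (k : ℕ) (x y : Fin k → ℝ) (r : ℝ), p2 k x (fun i => r * y i) = r ^ 2 * p2 k x y := by
      intro k
      induction k with
      | zero => intros; simp [p2]
      | succ k ih =>
        intro x y r
        have hl := p1_lin k (fun i => x i.succ) (fun i => y i.succ) (fun i => y i.succ) r 0
        simp only [zero_mul, add_zero] at hl
        simp only [p2, ih, hl]
        ring
    have e : ∀ y ∈ dom (m + 1), d2 (mat h y) (mat (fun u => c * g u) y)
        = c ^ 2 * d2 (mat h y) (mat g y) := by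
      intro y hy
      have hm := mat_lin hg hg c 0 hy.2
      simp only [zero_mul, add_zero, zero_smul] at hm
      simp only [d2, hm, Matrix.smul_apply, smul_eq_mul, hd, Finset.mul_sum]
      exact Finset.sum_congr rfl fun σ _ => by ring
    simp only [Q, quad, intg]
    rw [← integral_const_mul]
    refine setIntegral_congr_fun meas_dom fun y hy => ?_
    rw [e y hy]
    show _ = c ^ 2 * (wgt h y * _)
    ring
  rw [l1, l2, l3] at eM
  have eL' : Err fun t => vol (fun u => h u + t * g u) - (V + t * a + t ^ 2 * Q) :=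
    eL.congr (Eventually.of_forall fun t => by
      have : fam h g (fun _ => 0) t (t ^ 2) = fun u => h u + t * g u :=
        funext fun u => by simp [fam]
      rw [this])
  set el := fun t => vol (fun u => h u + t * g u) - (V + t * a + t ^ 2 * Q) with hel
  set z := fun t => (t * a + t ^ 2 * Q + el t) / V with hz
  have hzO : z =O[𝓝 0] fun t : ℝ => t := by
    have h1 : (fun t : ℝ => (a + t * Q) * t) =O[𝓝 0] fun t : ℝ => t := by
      simpa using (((by fun_prop : Continuous fun t : ℝ => a + t * Q).continuousAt (x := 0)).isBigO_one ℝ).mul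
        (Asymptotics.isBigO_refl (fun t : ℝ => t) (𝓝 0))
    have h2 : el =O[𝓝 0] fun t : ℝ => t := by
      refine Asymptotics.IsBigO.trans eL' ?_
      simpa using (((continuous_pow 2).continuousAt (x := (0 : ℝ))).isBigO_one ℝ).mul
        (Asymptotics.isBigO_refl (fun t : ℝ => t) (𝓝 0)) |>.congr_left fun t => (pow_succ t 2).symm
    exact ((h1.add h2).const_mul_left V⁻¹).congr_left fun t => by simp only [hz]; ring
  have hz0 : Tendsto z (𝓝 0) (𝓝 0) := hzO.trans_tendsto tendsto_id
  have er : Err fun t => (1 + z t) ^ c - tay c (z t) :=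
    ((rpow_tay c).comp_tendsto hz0).trans (hzO.pow 3)
  set M := fun t : ℝ =>
    vol (fam h (fun u => c * g u) (fun u => -(c * (1 - c)) * qf h g u) t (t ^ 2)) with hM
  set lhs := fun t => V * (1 + z t) ^ c
  obtain ⟨C, hC, hcomb⟩ := comb_ge hh hg c
  set D : ℝ → ℝ := fun t => lhs t - M t - c * (1 - c) * form h g * t ^ 2 with hD
  have eD : Err D := by
    refine (((er.mul_cont (k := fun _ => V) continuousAt_const).add
      (eL'.mul_cont (k := fun t => c - c * (1 - c) / 2 * (2 * (t * a + t ^ 2 * Q) + el t) / V)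
        ?_)).add (err_cube
          (k := fun t => -(c * (1 - c)) / 2 * (2 * a * Q + t * Q ^ 2) / V) (by fun_prop))).sub eM
      |>.congr (Eventually.of_forall fun t => ?_)
    · have hcont : ContinuousAt el 0 := by
        have h0 : el 0 = 0 := by simp [hel, hV]
        rw [ContinuousAt, h0]
        exact eL'.tendsto
      fun_prop
    · have hf : form h g = Q + lin1 h (qf h g) - a ^ 2 / (2 * V) := rfl
      simp only [hD, lhs, hM, hz, tay, hf, hel]
      field_simp
      ring
  obtain ⟨K, hK, δ, hδ, hKb⟩ := eD.bound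
  have hMcont : Tendsto M (𝓝 0) (𝓝 V) := by
    have h1 := eM.tendsto.add (((by fun_prop : Continuous fun t : ℝ =>
      V + t * (c * a) + t ^ 2 * (c ^ 2 * Q + -(c * (1 - c)) * lin1 h (qf h g)))).tendsto 0)
    simpa [hM] using h1
  have hsmall : ∀ᶠ t in 𝓝 (0 : ℝ),
      |t| < δ ∧ (K + (m + 1) * C * (V + 1)) * |t| < ε ∧ C * |t| ^ 3 ≤ 1 := by
    filter_upwards [ev_lt (f := fun t : ℝ => |t|) (r := δ) (by fun_prop) (by simpa using hδ),
      ev_lt (f := fun t : ℝ => (K + (m + 1) * C * (V + 1)) * |t|) (r := ε) (by fun_prop)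
        (by simpa using hε),
      ev_lt (f := fun t : ℝ => C * |t| ^ 3) (r := 1) (by fun_prop) (by simp)]
      with t a1 a2 a3 using ⟨a1, a2, a3.le⟩
  filter_upwards [hsmall, hcomb, hMcont.eventually (ge_mem_nhds (lt_add_one V)),
    hz0.eventually (le_mem_nhds (by norm_num : (-1 : ℝ) < 0))] with t ⟨t1, t2, t3⟩ tc tM tz
  have el1 : V ^ (1 - c) * vol (fun u => h u + t * g u) ^ c = lhs t := by
    have : vol (fun u => h u + t * g u) = V * (1 + z t) := by
      simp only [hz, hel]; field_simp; ring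
    rw [this, Real.mul_rpow hV0.le (by linarith), ← mul_assoc, ← Real.rpow_add hV0,
      sub_add_cancel, Real.rpow_one]
  rw [el1]
  have hM0 : 0 ≤ M t := measureReal_nonneg
  have bern : M t - (m + 1) * C * |t| ^ 3 * M t ≤ (1 - C * |t| ^ 3) ^ (m + 1) * M t := by
    have := one_add_mul_le_pow (a := -(C * |t| ^ 3)) (by linarith) (m + 1)
    rw [← sub_eq_add_neg 1 (C * |t| ^ 3)] at this
    have := mul_le_mul_of_nonneg_right this hM0
    push_cast at this
    linarith
  have h5 : lhs t ≤ M t + K * |t| ^ 3 := by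
    have := (le_abs_self _).trans (hKb t t1)
    simp only [hD] at this
    have hneg : c * (1 - c) * form h g * t ^ 2 ≤ 0 := mul_nonpos_of_nonpos_of_nonneg
      (mul_nonpos_of_nonneg_of_nonpos (mul_nonneg hc.1 (by linarith [hc.2])) hform) (sq_nonneg t)
    linarith
  have h6 : (m + 1) * C * |t| ^ 3 * M t ≤ (m + 1) * C * |t| ^ 3 * (V + 1) :=
    mul_le_mul_of_nonneg_left tM (by positivity)
  have h7 : (K + (m + 1) * C * (V + 1)) * |t| ^ 3 ≤ ε * t ^ 2 := by
    rw [← sq_abs t, pow_succ' |t| 2, ← mul_assoc]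
    exact mul_le_mul_of_nonneg_right t2.le (sq_nonneg _)
  linarith

/-- The local inequality at bodies with reflections, for every weight. -/
theorem local_log_bm (hh : Good h) (heh : ∀ u, h (-u) = h u)
    (hi : ∀ j : Fin (m + 1), (j : ℕ) + 2 < m + 1 → ∀ u, h (refl B j u) = h u)
    (hg : Reg g) (heg : ∀ u, g (-u) = g u) {c : ℝ} (hc : c ∈ Icc (0 : ℝ) 1) {ε : ℝ} (hε : 0 < ε) :
    ∀ᶠ t in 𝓝 (0 : ℝ),
      vol h ^ (1 - c) * vol (fun u => h u + t * g u) ^ c
        ≤ vol (fun u => h u ^ (1 - c) * (h u + t * g u) ^ c) + ε * t ^ 2 :=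
  local_of_form hh hg (form_nonpos hh heh hi (m + 1) 0 (by omega) g hg heg (fun j hj => by omega))
    hc hε

end Vale.Agent.P227.Local
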