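import Vale.Agent.P227.Local.Main
import Vale.Agent.P100.GoodRadius

/-!
The moment inequality obtained from intersections with translates, and radial integrals.
-/

namespace Vale.Agent.P227.Local.Moment

open MeasureTheory Metric Set Filter Topology
open scoped RealInnerProductSpace Pointwise ENNReal

variable {n : ℕ}

/-- The second moment. -/
noncomputable def mom2 (X : Set (Sp n)) : ℝ≥0∞ := ∫⁻ x in X, ENNReal.ofReal (‖x‖ ^ 2)

/-- Intersections with translates: averaging can only enlarge them. -/
lemma inter_le {A B K : Set (Sp n)} (hA : IsCompact A) (hB : IsCompact B) (hK : IsCompact K)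
    (hAs : ∀ x ∈ A, -x ∈ A) (hBs : ∀ x ∈ B, -x ∈ B)
    (h : ∀ a ∈ A, ∀ b ∈ B, (1 / 2 : ℝ) • a + (1 / 2 : ℝ) • b ∈ K) (z : Sp n) :
    volume (A ∩ (fun x => x - z) ⁻¹' B) ≤ volume (K ∩ (fun x => x - z) ⁻¹' K) := by
  have hc : ∀ {X : Set (Sp n)}, IsCompact X → IsCompact ((fun x => x - z) ⁻¹' X) := fun hX =>
    (Homeomorph.subRight z).isCompact_preimage.2 hX
  set P := A ∩ (fun x => x - z) ⁻¹' B
  set Q := B ∩ (fun x => x - z) ⁻¹' A
  have hPQ : volume Q = volume P := by
    have e : Q = (fun x => z - x) ⁻¹' P := by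
      ext x
      simp only [P, Q, mem_inter_iff, mem_preimage]
      constructor
      · rintro ⟨h1, h2⟩
        exact ⟨by simpa using hAs _ h2, by simpa using hBs _ h1⟩
      · rintro ⟨h1, h2⟩
        exact ⟨by simpa using hBs _ h2, by simpa using hAs _ h1⟩
    rw [e, (Measure.measurePreserving_sub_left volume z).measure_preimage
      (hA.inter_right (hc hB).isClosed).measurableSet.nullMeasurableSet]
  have key := Vale.Agent.P074.BM.bm_euclidean (s := 1 / 2) (by norm_num) (by norm_num)
    (A := P) (B := Q) (C := K ∩ (fun x => x - z) ⁻¹' K) (hA.inter_right (hc hB).isClosed)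
    (hB.inter_right (hc hA).isClosed) (hK.inter_right (hc hK).isClosed) fun a ha b hb => by
      norm_num
      refine ⟨h a ha.1 b hb.1, ?_⟩
      have := h _ hb.2 _ ha.2
      convert this using 1
      module
  rwa [hPQ, ← ENNReal.rpow_add_of_nonneg _ _ (by norm_num) (by norm_num), sub_add_cancel,
    ENNReal.rpow_one] at key

/-- Integrating the intersections against the squared norm. -/
lemma cross_eq {A B : Set (Sp n)} (hA : MeasurableSet A) (hB : MeasurableSet B) :
    ∫⁻ z, ENNReal.ofReal (‖z‖ ^ 2) * volume (A ∩ (fun x => x - z) ⁻¹' B)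
      = ∫⁻ x in A, ∫⁻ y in B, ENNReal.ofReal (‖x - y‖ ^ 2) := by
  set F : Sp n → Sp n → ℝ≥0∞ := fun z x =>
    ENNReal.ofReal (‖z‖ ^ 2) * (A.indicator 1 x * B.indicator 1 (x - z)) with hF
  have hFm : Measurable (Function.uncurry F) :=
    (ENNReal.measurable_ofReal.comp (measurable_norm.comp measurable_fst |>.pow_const 2)).mul
      (((measurable_one.indicator hA).comp measurable_snd).mul
        ((measurable_one.indicator hB).comp (measurable_snd.sub measurable_fst)))
  have e1 : ∀ z, ENNReal.ofReal (‖z‖ ^ 2) * volume (A ∩ (fun x => x - z) ⁻¹' B) = ∫⁻ x, F z x := by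
    intro z
    rw [lintegral_const_mul _ (by fun_prop (disch := assumption)),
      ← lintegral_indicator_one (hA.inter ((measurable_sub_const z) hB))]
    congr 1
    exact lintegral_congr fun x => by
      by_cases h1 : x ∈ A <;> by_cases h2 : x - z ∈ B <;> simp [h1, h2]
  rw [lintegral_congr e1, lintegral_lintegral_swap hFm.aemeasurable, ← lintegral_indicator hA]
  refine lintegral_congr fun x => ?_
  by_cases hx : x ∈ A
  · rw [indicator_of_mem hx, ← lintegral_indicator hB,
      ← (Measure.measurePreserving_sub_left volume x).lintegral_comp_emb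
        (MeasurableEquiv.subLeft x).measurableEmbedding
        (fun y => B.indicator (fun y => ENNReal.ofReal (‖x - y‖ ^ 2)) y)]
    refine lintegral_congr fun z => ?_
    by_cases h2 : x - z ∈ B <;> simp [hF, hx, h2]
  · rw [indicator_of_notMem hx]
    simp [hF, hx]

/-- For a symmetric second factor the cross term drops out. -/
lemma cross_sym {A B : Set (Sp n)} (hA : MeasurableSet A) (hB : MeasurableSet B)
    (hBs : ∀ x ∈ B, -x ∈ B) :
    ∫⁻ x in A, ∫⁻ y in B, ENNReal.ofReal (‖x - y‖ ^ 2)
      = mom2 A * volume B + volume A * mom2 B := by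
  have hm : Measurable fun y : Sp n => ENNReal.ofReal (‖y‖ ^ 2) := by fun_prop
  have inner : ∀ x : Sp n, ∫⁻ y in B, ENNReal.ofReal (‖x - y‖ ^ 2)
      = ENNReal.ofReal (‖x‖ ^ 2) * volume B + mom2 B := by
    intro x
    have eflip : ∫⁻ y in B, ENNReal.ofReal (‖x + y‖ ^ 2) = ∫⁻ y in B, ENNReal.ofReal (‖x - y‖ ^ 2) := by
      have hpre : (fun y : Sp n => -y) ⁻¹' B = B :=
        Subset.antisymm (fun y hy => by simpa using hBs _ hy) fun y hy => hBs y hy
      conv_lhs => rw [← (Measure.measurePreserving_neg (volume : Measure (Sp n))).setLIntegral_comp_preimage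
        hB (by fun_prop)]
      rw [hpre]
      simp [sub_eq_add_neg]
    have hsum : (∫⁻ y in B, ENNReal.ofReal (‖x - y‖ ^ 2)) + ∫⁻ y in B, ENNReal.ofReal (‖x + y‖ ^ 2)
        = 2 * (ENNReal.ofReal (‖x‖ ^ 2) * volume B + mom2 B) := by
      rw [← lintegral_add_left (by fun_prop), mul_add, ← setLIntegral_const, mom2,
        ← lintegral_const_mul _ measurable_const, ← lintegral_const_mul _ hm,
        ← lintegral_add_left (measurable_const.const_mul _)]
      refine lintegral_congr fun y => ?_
      rw [← mul_add, ← ENNReal.ofReal_add (sq_nonneg _) (sq_nonneg _),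
        ← ENNReal.ofReal_add (sq_nonneg _) (sq_nonneg _), two_mul,
        ← ENNReal.ofReal_add (by positivity) (by positivity)]
      congr 1
      linarith [parallelogram_law_with_norm ℝ x y]
    rw [eflip, ← two_mul] at hsum
    exact (ENNReal.mul_right_inj two_ne_zero ENNReal.ofNat_ne_top).1 hsum
  simp only [inner]
  rw [lintegral_add_right _ measurable_const, lintegral_mul_const _ hm, setLIntegral_const,
    mul_comm (mom2 B) (volume A)]
  rfl

/-- The moment inequality. -/
theorem mom2_le {A B K : Set (Sp n)} (hA : IsCompact A) (hB : IsCompact B) (hK : IsCompact K)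
    (hAs : ∀ x ∈ A, -x ∈ A) (hBs : ∀ x ∈ B, -x ∈ B) (hKs : ∀ x ∈ K, -x ∈ K)
    (h : ∀ a ∈ A, ∀ b ∈ B, (1 / 2 : ℝ) • a + (1 / 2 : ℝ) • b ∈ K) :
    mom2 A * volume B + volume A * mom2 B ≤ mom2 K * volume K + volume K * mom2 K := by
  rw [← cross_sym hA.measurableSet hB.measurableSet hBs,
    ← cross_sym hK.measurableSet hK.measurableSet hKs,
    ← cross_eq hA.measurableSet hB.measurableSet, ← cross_eq hK.measurableSet hK.measurableSet]
  exact lintegral_mono fun z => mul_le_mul_right (inter_le hA hB hK hAs hBs h z) _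

lemma mom2_ne_top {A : Set (Sp n)} (hA : IsCompact A) : mom2 A ≠ ⊤ := by
  obtain ⟨R, hR⟩ := hA.isBounded.exists_norm_le
  refine ne_top_of_le_ne_top (ENNReal.mul_ne_top ENNReal.ofReal_ne_top hA.measure_lt_top.ne)
    ((setLIntegral_mono' hA.measurableSet fun x hx => ?_).trans
      (le_of_eq (setLIntegral_const A (ENNReal.ofReal (R ^ 2)))))
  exact ENNReal.ofReal_le_ofReal (pow_le_pow_left₀ (norm_nonneg x) (hR x hx) 2)

/-- The radial function. -/
noncomputable def rad (K : Set (Sp n)) (θ : sphere (0 : Sp n) 1) : ℝ := (gauge K (θ : Sp n))⁻¹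

/-- A convex compact set containing a ball about the origin. -/
structure Body (K : Set (Sp n)) : Prop where
  cpt : IsCompact K
  conv : Convex ℝ K
  nhd : K ∈ 𝓝 (0 : Sp n)

variable {K : Set (Sp n)}

lemma Body.rad_pos (hK : Body K) (θ : sphere (0 : Sp n) 1) : 0 < rad K θ :=
  inv_pos.2 ((gauge_pos (absorbent_nhds_zero hK.nhd)
    (hK.cpt.totallyBounded.isVonNBounded ℝ)).2 (ne_zero_of_mem_unit_sphere θ))

lemma Body.mem_iff (hK : Body K) (θ : sphere (0 : Sp n) 1) {t : ℝ} (ht : 0 ≤ t) :
    t • (θ : Sp n) ∈ K ↔ t ≤ rad K θ := by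
  have hp := hK.rad_pos θ
  rw [rad, inv_pos] at hp
  have h := gauge_le_one_iff_mem_closure hK.conv hK.nhd (x := t • (θ : Sp n))
  rw [hK.cpt.isClosed.closure_eq, gauge_smul_of_nonneg ht, smul_eq_mul] at h
  rw [← h, rad, ← one_div, le_div_iff₀ hp]

lemma Body.rad_cont (hK : Body K) : Continuous (rad K) :=
  ((continuous_gauge hK.conv hK.nhd).comp continuous_subtype_val).inv₀ fun θ =>
    (inv_pos.1 (hK.rad_pos θ)).ne'

lemma Body.rad_le_of_subset {L : Set (Sp n)} (hK : Body K) (hL : Body L) (h : K ⊆ L)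
    (θ : sphere (0 : Sp n) 1) : rad K θ ≤ rad L θ :=
  (hL.mem_iff θ (hK.rad_pos θ).le).1 (h ((hK.mem_iff θ (hK.rad_pos θ).le).2 le_rfl))

lemma rad_int [NeZero n] (hK : Body K) (k : ℕ) :
    Integrable (fun θ => rad K θ ^ k) (volume : Measure (Sp n)).toSphere :=
  (hK.rad_cont.pow k).integrable_of_hasCompactSupport (HasCompactSupport.of_compactSpace _)

/-- Integrals of powers of the norm over a convex body, in radial form. -/
lemma norm_pow [NeZero n] (hK : Body K) (k : ℕ) :
    ∫⁻ x in K, ENNReal.ofReal (‖x‖ ^ k)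
      = ENNReal.ofReal
          ((∫ θ, rad K θ ^ (n + k) ∂(volume : Measure (Sp n)).toSphere) / ((n + k : ℕ) : ℝ)) := by
  have hn : 0 < n := Nat.pos_of_ne_zero (NeZero.ne n)
  have hKm := hK.cpt.measurableSet
  have hg : Measurable (K.indicator fun x : Sp n => ENNReal.ofReal (‖x‖ ^ k)) :=
    (by fun_prop : Measurable fun x : Sp n => ENNReal.ofReal (‖x‖ ^ k)).indicator hKm
  rw [← lintegral_indicator hKm, Vale.Agent.P100.lintegral_polar volume hg,
    finrank_euclideanSpace_fin, ← integral_div,
    ofReal_integral_eq_lintegral_ofReal ((rad_int hK (n + k)).div_const _)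
      (Eventually.of_forall fun θ => by have := hK.rad_pos θ; positivity)]
  unfold Vale.Agent.P100.slice
  have hp : Measurable fun z : ℝ × sphere (0 : Sp n) 1 =>
      K.indicator (fun x : Sp n => ENNReal.ofReal (‖x‖ ^ k)) (z.1 • (z.2 : Sp n)) :=
    hg.comp (measurable_fst.smul (measurable_subtype_coe.comp measurable_snd))
  calc ∫⁻ r in Ioi (0 : ℝ), ENNReal.ofReal (r ^ (n - 1)) *
        ∫⁻ θ, K.indicator (fun x : Sp n => ENNReal.ofReal (‖x‖ ^ k)) (r • (θ : Sp n))
          ∂(volume : Measure (Sp n)).toSphere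
      = ∫⁻ r in Ioi (0 : ℝ), ∫⁻ θ, ENNReal.ofReal (r ^ (n - 1)) *
          K.indicator (fun x : Sp n => ENNReal.ofReal (‖x‖ ^ k)) (r • (θ : Sp n))
          ∂(volume : Measure (Sp n)).toSphere := by
        refine lintegral_congr fun r => (lintegral_const_mul _ ?_).symm
        exact hp.comp measurable_prodMk_left
    _ = ∫⁻ θ, (∫⁻ r in Ioi (0 : ℝ), ENNReal.ofReal (r ^ (n - 1)) *
          K.indicator (fun x : Sp n => ENNReal.ofReal (‖x‖ ^ k)) (r • (θ : Sp n)))
          ∂(volume : Measure (Sp n)).toSphere := by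
        rw [lintegral_lintegral_swap]
        exact ((by fun_prop : Measurable fun z : ℝ × sphere (0 : Sp n) 1 =>
          ENNReal.ofReal (z.1 ^ (n - 1))).mul hp).aemeasurable
    _ = _ := by
        refine lintegral_congr fun θ => ?_
        have hp := hK.rad_pos θ
        have e : ∀ r ∈ Ioi (0 : ℝ), ENNReal.ofReal (r ^ (n - 1)) *
            K.indicator (fun x : Sp n => ENNReal.ofReal (‖x‖ ^ k)) (r • (θ : Sp n))
            = (Ioc 0 (rad K θ)).indicator (fun r => ENNReal.ofReal (r ^ (n - 1 + k))) r := by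
          intro r hr
          have hr' : 0 < r := hr
          have hnr : ‖r • (θ : Sp n)‖ = r := by simp [norm_smul, abs_of_pos hr']
          by_cases h : r ≤ rad K θ
          · rw [indicator_of_mem ((hK.mem_iff θ hr'.le).2 h), indicator_of_mem (show r ∈ Ioc 0 (rad K θ) from ⟨hr', h⟩), hnr,
              ← ENNReal.ofReal_mul (by positivity), ← pow_add]
          · rw [indicator_of_notMem fun hm => h ((hK.mem_iff θ hr'.le).1 hm),
              indicator_of_notMem (fun hm => h hm.2 : r ∉ Ioc 0 (rad K θ)), mul_zero]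
        rw [setLIntegral_congr_fun measurableSet_Ioi e, lintegral_indicator measurableSet_Ioc,
          Measure.restrict_restrict measurableSet_Ioc,
          inter_eq_left.2 (show Ioc 0 (rad K θ) ⊆ Ioi 0 from fun r hr => hr.1),
          ← ofReal_integral_eq_lintegral_ofReal
            ((continuous_pow _).integrableOn_Icc.mono_set Ioc_subset_Icc_self)
            ((ae_restrict_iff' measurableSet_Ioc).2 (Eventually.of_forall fun r hr => by
              have : 0 < r := hr.1
              positivity)),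
          ← intervalIntegral.integral_of_le hp.le, integral_pow, zero_pow (by omega), sub_zero]
        rw [show n - 1 + k + 1 = n + k by omega]
        congr 2
        rw [show n + k = n - 1 + k + 1 by omega]
        push_cast
        ring

lemma vol_rad [NeZero n] (hK : Body K) :
    volume.real K = (∫ θ, rad K θ ^ n ∂(volume : Measure (Sp n)).toSphere) / (n : ℝ) := by
  have h := norm_pow hK 0
  simp only [pow_zero, ENNReal.ofReal_one, setLIntegral_one, add_zero] at h
  rw [measureReal_def, h, ENNReal.toReal_ofReal]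
  exact div_nonneg (integral_nonneg fun θ => by have := hK.rad_pos θ; positivity) n.cast_nonneg

lemma mom_rad [NeZero n] (hK : Body K) :
    (mom2 K).toReal
      = (∫ θ, rad K θ ^ (n + 2) ∂(volume : Measure (Sp n)).toSphere) / ((n + 2 : ℕ) : ℝ) := by
  rw [mom2, norm_pow hK 2, ENNReal.toReal_ofReal]
  exact div_nonneg (integral_nonneg fun θ => by have := hK.rad_pos θ; positivity) (Nat.cast_nonneg _)

end Vale.Agent.P227.Local.Moment
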