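import Vale.Agent.P227.Local.Moment

/-!
The local inequality at bodies pinched between two close ellipsoids, with no symmetry.
-/

namespace Vale.Agent.P227.Local.Pinch

open MeasureTheory Metric Set Filter Topology
open scoped RealInnerProductSpace Pointwise ENNReal
open Vale.Agent.P227.Local.Moment

variable {n : ℕ}

/-- Second-order expansion of a power with a cubic error. -/
lemma pow_approx (k : ℕ) {u : ℝ} (hu : |u| ≤ 1) :
    |(1 + u) ^ k - (1 + k * u + (k * (k - 1) / 2 : ℝ) * u ^ 2)| ≤ 3 ^ k * |u| ^ 3 := by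
  induction k with
  | zero => simp
  | succ k ih =>
    have e : (1 + u) ^ (k + 1) - (1 + ((k + 1 : ℕ) : ℝ) * u
          + (((k + 1 : ℕ) : ℝ) * (((k + 1 : ℕ) : ℝ) - 1) / 2) * u ^ 2)
        = (1 + u) * ((1 + u) ^ k - (1 + k * u + (k * (k - 1) / 2 : ℝ) * u ^ 2))
          + (k * (k - 1) / 2 : ℝ) * u ^ 3 := by
      push_cast; ring
    rw [e]
    refine (abs_add_le _ _).trans ?_
    rw [abs_mul, abs_mul, abs_pow]
    have h1 : |1 + u| ≤ 2 := (abs_add_le _ _).trans (by rw [abs_one]; linarith)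
    have h3 : |(k * (k - 1) / 2 : ℝ)| ≤ 3 ^ k := by
      have hk : ∀ j : ℕ, 0 ≤ (j : ℝ) * (j - 1) / 2 ∧ (j : ℝ) * (j - 1) / 2 ≤ 3 ^ j ∧ (j : ℝ) ≤ 3 ^ j := by
        intro j
        induction j with
        | zero => norm_num
        | succ j ihj =>
          obtain ⟨q1, q2, q3⟩ := ihj
          have hj : (0 : ℝ) ≤ j := Nat.cast_nonneg j
          have h1j : (1 : ℝ) ≤ 3 ^ j := one_le_pow₀ (by norm_num)
          have e : ((j + 1 : ℕ) : ℝ) * ((j + 1 : ℕ) - 1) / 2 = (j : ℝ) * (j - 1) / 2 + j := by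
            push_cast; ring
          rw [e, pow_succ (3 : ℝ)]
          push_cast
          exact ⟨by linarith, by linarith, by linarith⟩
      rw [abs_of_nonneg (hk k).1]
      exact (hk k).2.1
    calc |1 + u| * |(1 + u) ^ k - (1 + k * u + (k * (k - 1) / 2 : ℝ) * u ^ 2)|
          + |(k * (k - 1) / 2 : ℝ)| * |u| ^ 3
        ≤ 2 * (3 ^ k * |u| ^ 3) + 3 ^ k * |u| ^ 3 :=
          add_le_add (mul_le_mul h1 ih (abs_nonneg _) zero_le_two)
            (mul_le_mul_of_nonneg_right h3 (by positivity))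
      _ = 3 ^ (k + 1) * |u| ^ 3 := by ring

/-- The radial density of `|x|^2 - S^2`. -/
noncomputable def dens (n : ℕ) (S x : ℝ) : ℝ := x ^ (n + 2) / ((n + 2 : ℕ) : ℝ) - S ^ 2 * (x ^ n / n)

lemma dens_anti (hn : 0 < n) {S x y : ℝ} (hx : 0 ≤ x) (hxy : x ≤ y) (hy : y ≤ S) :
    dens n S y ≤ dens n S x := by
  have hd : ∀ t, HasDerivAt (dens n S) (t ^ (n + 1) - S ^ 2 * t ^ (n - 1)) t := fun t => by
    have := ((hasDerivAt_pow (n + 2) t).div_const ((n + 2 : ℕ) : ℝ)).sub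
      (((hasDerivAt_pow n t).div_const (n : ℝ)).const_mul (S ^ 2))
    refine this.congr_deriv ?_
    have h1 : ((n + 2 : ℕ) : ℝ) ≠ 0 := by positivity
    have h2 : (n : ℝ) ≠ 0 := by positivity
    rw [show n + 2 - 1 = n + 1 by omega]
    field_simp
  have hm : AntitoneOn (dens n S) (Icc 0 S) := by
    refine antitoneOn_of_deriv_nonpos (convex_Icc 0 S)
      (fun t _ => (hd t).continuousAt.continuousWithinAt)
      (fun t _ => (hd t).differentiableAt.differentiableWithinAt) fun t ht => ?_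
    rw [interior_Icc] at ht
    rw [(hd t).deriv, show n + 1 = n - 1 + 2 by omega, pow_add]
    nlinarith [pow_nonneg ht.1.le (n - 1), pow_le_pow_left₀ ht.1.le ht.2.le 2]
  exact hm ⟨hx, hxy.trans hy⟩ ⟨hx.trans hxy, hy⟩ hxy

/-- Second-order lower bound for the densities. -/
lemma dens_low (hn : 0 < n) {S ρ u : ℝ} (hρ : 0 ≤ ρ) (hρS : ρ ≤ S) (hu : |u| ≤ 1) :
    ρ ^ n * u ^ 2 * ((n + 1) * ρ ^ 2 - ((n : ℝ) - 1) * S ^ 2)
        - 4 * (3 ^ (n + 2) * |u| ^ 3) * S ^ (n + 2)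
      ≤ dens n S (ρ * (1 + u)) + dens n S (ρ * (1 - u)) - 2 * dens n S ρ := by
  have hn1 : (1 : ℝ) ≤ n := by exact_mod_cast hn
  have hN : (0 : ℝ) < (n : ℝ) + 2 := by linarith
  set E := (3 : ℝ) ^ (n + 2) * |u| ^ 3
  have hE0 : 0 ≤ E := by positivity
  have p3 : (3 : ℝ) ^ n * |u| ^ 3 ≤ E := mul_le_mul_of_nonneg_right
    (pow_le_pow_right₀ (by norm_num) (by omega)) (by positivity)
  have a1 := abs_le.1 (pow_approx (n + 2) hu)
  have a2 := abs_le.1 (pow_approx (n + 2) (u := -u) (by rwa [abs_neg]))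
  have b1 := abs_le.1 (pow_approx n hu)
  have b2 := abs_le.1 (pow_approx n (u := -u) (by rwa [abs_neg]))
  rw [abs_neg] at a2 b2
  simp only [← sub_eq_add_neg, neg_sq, mul_neg] at a2 b2
  push_cast at a1 a2
  have i1 : ((n : ℝ) + 2) * (n + 1) * u ^ 2 - 2 * E
      ≤ (1 + u) ^ (n + 2) + (1 - u) ^ (n + 2) - 2 := by linarith [a1.1, a2.1]
  have i2 : (1 + u) ^ n + (1 - u) ^ n - 2 ≤ (n : ℝ) * (n - 1) * u ^ 2 + 2 * E := by
    linarith [b1.2, b2.2]
  set P := ρ ^ (n + 2) / ((n : ℝ) + 2) with hP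
  set Q := S ^ 2 * (ρ ^ n / n) with hQ
  have hP0 : 0 ≤ P := by positivity
  have hQ0 : 0 ≤ Q := by positivity
  have k1 : P ≤ S ^ (n + 2) :=
    (div_le_self (by positivity) (by linarith)).trans (pow_le_pow_left₀ hρ hρS _)
  have k2 : Q ≤ S ^ (n + 2) := by
    rw [hQ, pow_add, mul_comm]
    exact mul_le_mul_of_nonneg_right ((div_le_self (by positivity) hn1).trans
      (pow_le_pow_left₀ hρ hρS _)) (sq_nonneg S)
  have x1 : P * (((n : ℝ) + 2) * (n + 1) * u ^ 2) = ρ ^ n * u ^ 2 * ((n + 1) * ρ ^ 2) := by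
    rw [hP]; field_simp; ring
  have x2 : Q * ((n : ℝ) * (n - 1) * u ^ 2) = ρ ^ n * u ^ 2 * (((n : ℝ) - 1) * S ^ 2) := by
    rw [hQ]; field_simp
  have e : dens n S (ρ * (1 + u)) + dens n S (ρ * (1 - u)) - 2 * dens n S ρ
      = P * ((1 + u) ^ (n + 2) + (1 - u) ^ (n + 2) - 2) - Q * ((1 + u) ^ n + (1 - u) ^ n - 2) := by
    simp only [dens, mul_pow, hP, hQ]; push_cast; ring
  have j1 := mul_le_mul_of_nonneg_left i1 hP0
  have j2 := mul_le_mul_of_nonneg_left i2 hQ0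
  rw [mul_sub, x1] at j1
  rw [mul_add, x2] at j2
  have l1 := mul_le_mul_of_nonneg_right k1 hE0
  have l2 := mul_le_mul_of_nonneg_right k2 hE0
  rw [e]
  linarith

/-- Second-order upper bound for the corrected volume element. -/
lemma corr_up (hn : 0 < n) {ρ ρe u : ℝ} (hρ : 0 ≤ ρ) (he : 0 ≤ ρe) (hu : |u| ≤ 1)
    (heu : ρe ≤ ρ * (1 + u ^ 2 / 2)) :
    2 * (ρe ^ n / n - ρ ^ n / n) ≤ ρ ^ n * u ^ 2 + 2 * ρ ^ n * (3 ^ (n + 2) * |u| ^ 3) := by
  have hn1 : (1 : ℝ) ≤ n := by exact_mod_cast hn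
  have hv : u ^ 2 / 2 ≤ 1 := by
    have := pow_le_pow_left₀ (abs_nonneg u) hu 2
    rw [sq_abs] at this; linarith
  have e1 := (abs_le.1 (pow_approx n (u := u ^ 2 / 2)
    (by rw [abs_of_nonneg (by positivity)]; exact hv))).2
  rw [abs_of_nonneg (by positivity : (0 : ℝ) ≤ u ^ 2 / 2)] at e1
  set E := (3 : ℝ) ^ (n + 2) * |u| ^ 3
  have hE0 : 0 ≤ E := by positivity
  have hv2 : (u ^ 2 / 2) ^ 2 ≤ |u| ^ 3 / 4 := by
    have e : (u ^ 2 / 2) ^ 2 = |u| ^ 4 / 4 := by rw [← sq_abs u]; ring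
    rw [e]
    linarith [pow_le_pow_of_le_one (abs_nonneg u) hu (by norm_num : 3 ≤ 4)]
  have hv3 : (u ^ 2 / 2) ^ 3 ≤ |u| ^ 3 / 8 := by
    have e : (u ^ 2 / 2) ^ 3 = |u| ^ 6 / 8 := by rw [← sq_abs u]; ring
    rw [e]
    linarith [pow_le_pow_of_le_one (abs_nonneg u) hu (by norm_num : 3 ≤ 6)]
  have hn3 : (n : ℝ) ≤ 3 ^ (n + 2) := by
    exact_mod_cast (Nat.lt_pow_self (by norm_num : 1 < 3)).le.trans
      (Nat.pow_le_pow_right (by norm_num) (by omega : n ≤ n + 2))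
  have hc0 : 0 ≤ (n : ℝ) * (n - 1) / 2 := by
    have := mul_nonneg (show (0 : ℝ) ≤ n by linarith) (show (0 : ℝ) ≤ n - 1 by linarith)
    linarith
  have t1 := mul_le_mul_of_nonneg_left hv2 hc0
  have t2 : ((n : ℝ) - 1) * |u| ^ 3 ≤ E :=
    mul_le_mul_of_nonneg_right (by linarith) (pow_nonneg (abs_nonneg u) 3)
  have t2' := mul_le_mul_of_nonneg_left t2 (by linarith : (0 : ℝ) ≤ (n : ℝ) / 8)
  have t3 := mul_le_mul_of_nonneg_left hv3 (by positivity : (0 : ℝ) ≤ 3 ^ n)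
  have p3 : (3 : ℝ) ^ n * |u| ^ 3 ≤ E := mul_le_mul_of_nonneg_right
    (pow_le_pow_right₀ (by norm_num) (by omega)) (by positivity)
  have p4 := mul_le_mul_of_nonneg_right hn1 hE0
  have i3 : (1 + u ^ 2 / 2) ^ n - 1 ≤ (n : ℝ) * (u ^ 2 / 2) + (n : ℝ) * E := by linarith
  have h1 := div_le_div_of_nonneg_right (pow_le_pow_left₀ he heu n) (by linarith : (0 : ℝ) ≤ n)
  rw [mul_pow] at h1
  have h2 := mul_le_mul_of_nonneg_left i3 (by positivity : 0 ≤ 2 * (ρ ^ n / (n : ℝ)))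
  have x3 : 2 * (ρ ^ n / (n : ℝ)) * ((n : ℝ) * (u ^ 2 / 2) + (n : ℝ) * E)
      = ρ ^ n * u ^ 2 + 2 * ρ ^ n * E := by field_simp
  rw [x3] at h2
  rw [mul_sub, mul_one, mul_assoc, div_mul_eq_mul_div] at h2
  linarith

/-- The estimate in one direction `θ`. -/
lemma pointwise (hn : 0 < n) {r S ρ ρp ρm ρe u c : ℝ} (hr : r ≤ ρ) (hr0 : 0 < r)
    (hp : 0 ≤ ρp) (hm : 0 ≤ ρm) (he : 0 ≤ ρe) (hu : |u| ≤ 1 / 2) (hu2 : |u| ≤ c)
    (hS : ρ * (1 + c) ≤ S) (hpu : ρp ≤ ρ * (1 + u)) (hmu : ρm ≤ ρ * (1 - u))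
    (heu : ρe ≤ ρ * (1 + u ^ 2 / 2)) (hc0 : 0 ≤ (n + 1) * r ^ 2 - ((n : ℝ) - 1) * S ^ 2) :
    ((n + 1) * r ^ 2 - ((n : ℝ) - 1) * S ^ 2) * (2 * (ρe ^ n / n - ρ ^ n / n))
      ≤ dens n S ρp + dens n S ρm - 2 * dens n S ρ + 10 * 3 ^ (n + 2) * S ^ (n + 2) * |u| ^ 3 := by
  have hρ : 0 < ρ := hr0.trans_le hr
  have hcu := abs_le.1 hu2
  have h0 : 0 ≤ c := (abs_nonneg u).trans hu2
  have hu1 : |u| ≤ 1 := hu.trans (by norm_num)
  have hn1 : (1 : ℝ) ≤ n := by exact_mod_cast hn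
  have d1 := dens_anti hn hp hpu ((mul_le_mul_of_nonneg_left (by linarith) hρ.le).trans hS)
  have d2 := dens_anti hn hm hmu ((mul_le_mul_of_nonneg_left (by linarith) hρ.le).trans hS)
  have hSρ : ρ ≤ S := (le_mul_of_one_le_right hρ.le (by linarith)).trans hS
  have low := dens_low hn hρ.le hSρ hu1
  have up := mul_le_mul_of_nonneg_left (corr_up hn hρ.le he hu1 heu) hc0
  have r2 := pow_le_pow_left₀ hr0.le hr 2
  have hq : ((n + 1) * r ^ 2 - ((n : ℝ) - 1) * S ^ 2) * (ρ ^ n * u ^ 2)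
      ≤ ρ ^ n * u ^ 2 * ((n + 1) * ρ ^ 2 - ((n : ℝ) - 1) * S ^ 2) := by
    rw [mul_comm]
    refine mul_le_mul_of_nonneg_left ?_ (by positivity)
    linarith [mul_le_mul_of_nonneg_left r2 (by linarith : (0 : ℝ) ≤ (n : ℝ) + 1)]
  have q3 : (n + 1) * r ^ 2 - ((n : ℝ) - 1) * S ^ 2 ≤ 2 * S ^ 2 := by
    linarith [mul_le_mul_of_nonneg_left (pow_le_pow_left₀ hr0.le (hr.trans hSρ) 2)
      (by linarith : (0 : ℝ) ≤ (n : ℝ) + 1)]
  set E := (3 : ℝ) ^ (n + 2) * |u| ^ 3 with hE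
  have hqE : ((n + 1) * r ^ 2 - ((n : ℝ) - 1) * S ^ 2) * (2 * ρ ^ n * E) ≤ 6 * E * S ^ (n + 2) :=
    calc _ ≤ 2 * S ^ 2 * (2 * ρ ^ n * E) := mul_le_mul_of_nonneg_right q3 (by positivity)
      _ ≤ 2 * S ^ 2 * (2 * S ^ n * E) := by
          have := pow_le_pow_left₀ hρ.le hSρ n
          gcongr
      _ = 4 * E * S ^ (n + 2) := by ring
      _ ≤ 6 * E * S ^ (n + 2) := by
          have : 0 ≤ E * S ^ (n + 2) := by have := hρ.le.trans hSρ; positivity
          linarith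
  rw [mul_add] at up
  rw [show 10 * 3 ^ (n + 2) * S ^ (n + 2) * |u| ^ 3 = 10 * E * S ^ (n + 2) by rw [hE]; ring]
  linarith

variable [NeZero n] {h g : Sp n → ℝ} {r R C : ℝ}

lemma body_body (hr : 0 < r) (hlo : ∀ u, r * ‖u‖ ≤ h u) : Body (body h) := by
  refine ⟨body_isCompact h, fun x hx y hy a b ha hb hab u hu => ?_, ?_⟩
  · rw [inner_add_left, real_inner_smul_left, real_inner_smul_left]
    calc a * ⟪x, u⟫ + b * ⟪y, u⟫ ≤ a * h u + b * h u := by gcongr <;> [exact hx u hu; exact hy u hu]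
      _ = h u := by rw [← add_mul, hab, one_mul]
  · refine Filter.mem_of_superset (ball_mem_nhds 0 hr) fun x hx u hu => ?_
    refine (real_inner_le_norm x u).trans ?_
    have := hlo u
    rw [mem_sphere_zero_iff_norm.1 hu, mul_one] at this ⊢
    exact (mem_ball_zero_iff.1 hx).le.trans this

lemma rad_bounds (hr : 0 < r) (hlo : ∀ u, r * ‖u‖ ≤ h u) (hhi : ∀ u, h u ≤ R * ‖u‖)
    (θ : sphere (0 : Sp n) 1) : r ≤ rad (body h) θ ∧ rad (body h) θ ≤ R := by
  have hb := body_body hr hlo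
  have hθ := mem_sphere_zero_iff_norm.1 θ.2
  constructor
  · refine (hb.mem_iff θ hr.le).1 fun u hu => ?_
    refine (real_inner_le_norm _ _).trans ?_
    have := hlo u
    rwa [norm_smul, hθ, mul_one, Real.norm_eq_abs, abs_of_pos hr]
  · have := (hb.mem_iff θ (hb.rad_pos θ).le).2 le_rfl θ θ.2
    rw [real_inner_smul_left, real_inner_self_eq_norm_sq, hθ, one_pow, mul_one] at this
    exact this.trans (by simpa [hθ] using hhi θ)

/-- A supporting direction at a boundary point. -/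
lemma contact (hh : Reg h) (hr : 0 < r) (hlo : ∀ u, r * ‖u‖ ≤ h u) (θ : sphere (0 : Sp n) 1) :
    ∃ v ∈ sphere (0 : Sp n) 1, rad (body h) θ * ⟪(θ : Sp n), v⟫ = h v := by
  have hpos : ∀ u ∈ sphere (0 : Sp n) 1, 0 < h u := fun u hu => by
    have := hlo u
    rw [mem_sphere_zero_iff_norm.1 hu, mul_one] at this
    linarith
  have hb := body_body hr hlo
  obtain ⟨v, hv, hmax⟩ := (isCompact_sphere (0 : Sp n) 1).exists_isMaxOn ⟨θ, θ.2⟩
    (ContinuousOn.div (f := fun u : Sp n => ⟪(θ : Sp n), u⟫) (by fun_prop) (cont_sphere hh)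
      fun u hu => (hpos u hu).ne')
  refine ⟨v, hv, le_antisymm ?_ ?_⟩
  · have := (hb.mem_iff θ (hb.rad_pos θ).le).2 le_rfl v hv
    rwa [real_inner_smul_left] at this
  · set m := ⟪(θ : Sp n), v⟫ / h v with hm
    have hm0 : 0 < m := by
      have h1 : ⟪(θ : Sp n), (θ : Sp n)⟫ / h θ ≤ m := hmax θ.2
      rw [real_inner_self_eq_norm_sq, mem_sphere_zero_iff_norm.1 θ.2, one_pow] at h1
      exact (div_pos one_pos (hpos θ θ.2)).trans_le h1
    have hmem : m⁻¹ ≤ rad (body h) θ := (hb.mem_iff θ (inv_nonneg.2 hm0.le)).1 fun u hu => by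
      have h1 : ⟪(θ : Sp n), u⟫ / h u ≤ m := hmax hu
      rw [div_le_iff₀ (hpos u hu)] at h1
      rw [real_inner_smul_left, inv_mul_le_iff₀ hm0]
      exact h1
    have e : ⟪(θ : Sp n), v⟫ = m * h v := by rw [hm, div_mul_cancel₀ _ (hpos v hv).ne']
    rw [e, ← mul_assoc]
    refine le_mul_of_one_le_left (hpos v hv).le ?_
    have := mul_le_mul_of_nonneg_right hmem hm0.le
    rwa [inv_mul_cancel₀ hm0.ne'] at this

/-- The inequality among the volumes of the perturbed bodies. -/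
theorem core (hh : Reg h) (heh : ∀ u, h (-u) = h u) (hr : 0 < r) (hlo : ∀ u, r * ‖u‖ ≤ h u)
    (hhi : ∀ u, h u ≤ R * ‖u‖) (hg : Reg g) (heg : ∀ u, g (-u) = g u)
    (hC : ∀ u, |g u| ≤ C * h u) {S : ℝ} (hS : R < S)
    (hq0 : 0 ≤ (n + 1) * r ^ 2 - ((n : ℝ) - 1) * S ^ 2) :
    ∃ K, ∀ᶠ s in 𝓝 (0 : ℝ),
      (S ^ 2 * vol h + (mom2 (body h)).toReal)
          * (vol (fun u => h u + s * g u) + vol (fun u => h u + -s * g u) - 2 * vol h)
        + 2 * ((n + 1) * r ^ 2 - ((n : ℝ) - 1) * S ^ 2) * vol h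
          * (vol (fun u => h u + s ^ 2 * qf h g u) - vol h)
      ≤ K * |s| * (|s| ^ 2 + |vol (fun u => h u + s * g u) - vol h|
          + |vol (fun u => h u + -s * g u) - vol h|) := by
  classical
  set q := (n + 1) * r ^ 2 - ((n : ℝ) - 1) * S ^ 2
  have hn : 0 < n := Nat.pos_of_ne_zero (NeZero.ne n)
  obtain ⟨θ0⟩ : Nonempty (sphere (0 : Sp n) 1) :=
    ⟨⟨EuclideanSpace.single (⟨0, hn⟩ : Fin n) 1, by simp⟩⟩
  have hpos : ∀ u ∈ sphere (0 : Sp n) 1, 0 < h u := fun u hu => by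
    have := hlo u
    rw [mem_sphere_zero_iff_norm.1 hu, mul_one] at this
    linarith
  have hC0 : 0 ≤ C := nonneg_of_mul_nonneg_left ((abs_nonneg _).trans (hC θ0)) (hpos θ0 θ0.2)
  have hR : 0 < R := hr.trans_le ((rad_bounds hr hlo hhi θ0).1.trans (rad_bounds hr hlo hhi θ0).2)
  set μ := (volume : Measure (Sp n)).toSphere
  set V := vol h with hV
  set M := (mom2 (body h)).toReal with hM
  have hb := body_body hr hlo
  -- constants
  set κ1 := 10 * 3 ^ (n + 2) * S ^ (n + 2) * C ^ 3 * μ.real univ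
  set κ2 := 3 ^ (n + 2) * R ^ (n + 2) * C * μ.real univ * 8
  refine ⟨V * κ1 + κ2 + κ2, ?_⟩
  have hev : ∀ᶠ s in 𝓝 (0 : ℝ), |s| * C < 1 / 2 ∧ R * (1 + |s| * C) < S := by
    filter_upwards [ev_lt (f := fun s => |s| * C) (r := 1 / 2) (by fun_prop) (by simp),
      ev_lt (f := fun s => R * (1 + |s| * C)) (r := S) (by fun_prop) (by simpa using hS)]
      with s a b using ⟨a, b⟩
  filter_upwards [hev] with s ⟨hs, hsS⟩
  set fp := fun u => h u + s * g u
  set fm := fun u => h u + -s * g u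
  set fe := fun u => h u + s ^ 2 * qf h g u
  have hsg : ∀ u, |s * g u| ≤ |s| * C * h u := fun u => by
    rw [abs_mul, mul_assoc]; exact mul_le_mul_of_nonneg_left (hC u) (abs_nonneg s)
  have hh0 : ∀ u, 0 ≤ h u := fun u => (mul_nonneg hr.le (norm_nonneg u)).trans (hlo u)
  have lp : ∀ t : ℝ, |t| = |s| → ∀ u, r / 2 * ‖u‖ ≤ h u + t * g u := fun t ht u => by
    have : |t * g u| ≤ |s| * C * h u := by
      rw [abs_mul, ht, mul_assoc]; exact mul_le_mul_of_nonneg_left (hC u) (abs_nonneg s)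
    nlinarith [neg_abs_le (t * g u), hlo u, mul_le_mul_of_nonneg_right hs.le (hh0 u)]
  have le' : ∀ u, r * ‖u‖ ≤ fe u := fun u => (hlo u).trans
    (le_add_of_nonneg_right (mul_nonneg (sq_nonneg s) (div_nonneg (sq_nonneg _) (by linarith [hh0 u]))))
  have bp := body_body (h := fp) (half_pos hr) (lp s rfl)
  have bm := body_body (h := fm) (half_pos hr) (lp (-s) (abs_neg s))
  have be := body_body (h := fe) hr le'
  have key : ∀ θ, q * (2 * (rad (body fe) θ ^ n / n - rad (body h) θ ^ n / n))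
      ≤ dens n S (rad (body fp) θ) + dens n S (rad (body fm) θ) - 2 * dens n S (rad (body h) θ)
        + 10 * 3 ^ (n + 2) * S ^ (n + 2) * C ^ 3 * |s| ^ 3 ∧
      |rad (body fp) θ - rad (body h) θ| ≤ R * (|s| * C) ∧
      |rad (body fm) θ - rad (body h) θ| ≤ R * (|s| * C) := by
    intro θ
    obtain ⟨v, hv, heq⟩ := contact hh hr hlo θ
    set ρ := rad (body h) θ
    have hρ : 0 < ρ := hb.rad_pos θ
    obtain ⟨hρ1, hρ2⟩ := rad_bounds hr hlo hhi θ
    have hv0 := hpos v hv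
    set u := s * (g v / h v) with hu
    have hgv : |g v / h v| ≤ C := by
      rw [abs_div, abs_of_pos hv0, div_le_iff₀ hv0]; exact hC v
    have hu1 : |u| ≤ |s| * C := by
      rw [hu, abs_mul]; exact mul_le_mul_of_nonneg_left hgv (abs_nonneg s)
    have hθv : 0 < ⟪(θ : Sp n), v⟫ := pos_of_mul_pos_right (heq ▸ hv0) hρ.le
    have bound : ∀ {f : Sp n → ℝ} (hf : Body (body f)) (a : ℝ), f v ≤ h v * (1 + a) →
        rad (body f) θ ≤ ρ * (1 + a) := fun {f} hf a ha => by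
      have h1 := (hf.mem_iff θ (hf.rad_pos θ).le).2 le_rfl v hv
      rw [real_inner_smul_left] at h1
      refine le_of_mul_le_mul_right ?_ hθv
      calc rad (body f) θ * ⟪(θ : Sp n), v⟫ ≤ h v * (1 + a) := h1.trans ha
        _ = ρ * (1 + a) * ⟪(θ : Sp n), v⟫ := by rw [← heq]; ring
    have u1 := bound bp u (le_of_eq (by simp only [fp, hu]; field_simp))
    have u2 := bound bm (-u) (le_of_eq (by simp only [fm, hu]; field_simp))
    have u3 := bound be (u ^ 2 / 2) (le_of_eq (by simp only [fe, qf, hu]; field_simp))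
    rw [← sub_eq_add_neg] at u2
    have low : ∀ {f : Sp n → ℝ} (hf : Body (body f)), (∀ w, h w * (1 - |s| * C) ≤ f w) →
        ρ * (1 - |s| * C) ≤ rad (body f) θ := fun {f} hf hw =>
      (hf.mem_iff θ (mul_nonneg hρ.le (by linarith))).1 fun w hw' => by
        have h1 := (hb.mem_iff θ hρ.le).2 le_rfl w hw'
        rw [real_inner_smul_left] at h1 ⊢
        rw [mul_right_comm]
        exact (mul_le_mul_of_nonneg_right h1 (by linarith)).trans (hw w)
    have l1 := low bp fun w => by simp only [fp]; nlinarith [neg_abs_le (s * g w), hsg w]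
    have l2 := low bm fun w => by simp only [fm]; nlinarith [le_abs_self (s * g w), hsg w]
    have ub : ρ * u ≤ R * (|s| * C) ∧ -(ρ * u) ≤ R * (|s| * C) := by
      have := abs_le.1 hu1
      have := mul_le_mul hρ2 hu1 (abs_nonneg u) hR.le
      constructor <;> nlinarith [le_abs_self u, neg_abs_le u]
    have hsC : ρ * (|s| * C) ≤ R * (|s| * C) := mul_le_mul_of_nonneg_right hρ2 (by positivity)
    refine ⟨?_, abs_le.2 ⟨by linarith, by linarith [ub.1]⟩, abs_le.2 ⟨by linarith, by linarith [ub.2]⟩⟩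
    have hSu : ρ * (1 + |s| * C) ≤ S :=
      (mul_le_mul_of_nonneg_right hρ2 (by positivity)).trans hsS.le
    refine (pointwise hn hρ1 hr (bp.rad_pos θ).le (bm.rad_pos θ).le (be.rad_pos θ).le
      (hu1.trans hs.le) hu1 hSu u1 u2 u3 hq0).trans ?_
    have hS0 : 0 < S := hR.trans hS
    refine (add_le_add_iff_left _).2 ?_
    calc 10 * 3 ^ (n + 2) * S ^ (n + 2) * |u| ^ 3
        ≤ 10 * 3 ^ (n + 2) * S ^ (n + 2) * (|s| * C) ^ 3 :=
          mul_le_mul_of_nonneg_left (pow_le_pow_left₀ (abs_nonneg u) hu1 3) (by positivity)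
      _ = _ := by ring
  set Vp := vol fp
  set Vm := vol fm
  set Ve := vol fe
  set Mp := (mom2 (body fp)).toReal
  set Mm := (mom2 (body fm)).toReal
  have iv : ∀ {X : Set (Sp n)}, Body X → ∀ k : ℕ, Integrable (fun θ => rad X θ ^ k) μ :=
    fun hX k => rad_int hX k
  have idens : ∀ {X : Set (Sp n)}, Body X → Integrable (fun θ => dens n S (rad X θ)) μ ∧
      ∫ θ, dens n S (rad X θ) ∂μ = (mom2 X).toReal - S ^ 2 * volume.real X := fun {X} hX => by
    have i1 : Integrable (fun θ => rad X θ ^ (n + 2) / ((n + 2 : ℕ) : ℝ)) μ := (iv hX (n + 2)).div_const _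
    have i2 : Integrable (fun θ => S ^ 2 * (rad X θ ^ n / (n : ℝ))) μ :=
      ((iv hX n).div_const _).const_mul _
    refine ⟨i1.sub i2, ?_⟩
    unfold dens
    rw [integral_sub i1 i2, integral_div, integral_const_mul, integral_div, mom_rad hX, vol_rad hX]
  have hint : q * (2 * (Ve - V)) ≤ (Mp - S ^ 2 * Vp) + (Mm - S ^ 2 * Vm)
      - 2 * (M - S ^ 2 * V) + κ1 * |s| ^ 3 := by
    have i1 : Integrable (fun θ => q * (2 * (rad (body fe) θ ^ n / n - rad (body h) θ ^ n / n))) μ :=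
      ((((iv be n).div_const _).sub ((iv hb n).div_const _)).const_mul _).const_mul _
    have i23 : Integrable (fun θ => dens n S (rad (body fp) θ) + dens n S (rad (body fm) θ)) μ :=
      (idens bp).1.add (idens bm).1
    have i4 : Integrable (fun θ => 2 * dens n S (rad (body h) θ)) μ := (idens hb).1.const_mul _
    have i234 : Integrable (fun θ => dens n S (rad (body fp) θ) + dens n S (rad (body fm) θ)
        - 2 * dens n S (rad (body h) θ)) μ := i23.sub i4
    have h1 := integral_mono i1 (i234.add (integrable_const _)) fun θ => (key θ).1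
    simp only [Pi.add_apply] at h1
    rw [integral_add i234 (integrable_const _), integral_sub i23 i4,
      integral_add (idens bp).1 (idens bm).1, integral_const, integral_const_mul, integral_const_mul,
      integral_const_mul, integral_sub ((iv be n).div_const _) ((iv hb n).div_const _),
      integral_div, integral_div, ← vol_rad be, ← vol_rad hb, (idens bp).2, (idens bm).2,
      (idens hb).2, smul_eq_mul] at h1
    refine h1.trans (le_of_eq ?_)
    simp only [κ1, Mp, Mm, M, Vp, Vm, V, vol]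
    ring
  have mlip : ∀ {f : Sp n → ℝ}, Body (body f) →
      (∀ θ, |rad (body f) θ - rad (body h) θ| ≤ R * (|s| * C)) →
      |(mom2 (body f)).toReal - M| ≤ κ2 * |s| := by
    intro f hf hd
    rw [hM, mom_rad hf, mom_rad hb, ← sub_div, ← integral_sub (iv hf _) (iv hb _), abs_div]
    refine (div_le_self (abs_nonneg _) ?_).trans ((abs_integral_le_integral_abs).trans ?_)
    · rw [abs_of_nonneg (Nat.cast_nonneg _)]; exact_mod_cast (by omega : 1 ≤ n + 2)
    refine (integral_mono ((iv hf _).sub (iv hb _)).abs (integrable_const _) fun θ =>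
      (?_ : _ ≤ 3 ^ (n + 2) * R ^ (n + 2) * C * 8 * |s|)).trans (le_of_eq ?_)
    · obtain ⟨hρ1, hρ2⟩ := rad_bounds hr hlo hhi θ
      have hρ : 0 < rad (body h) θ := hb.rad_pos θ
      set ρ := rad (body h) θ
      set w := (rad (body f) θ - ρ) / R with hw
      have hwb : |w| ≤ |s| * C := by
        rw [hw, abs_div, abs_of_pos hR, div_le_iff₀' hR]; exact hd θ
      show |rad (body f) θ ^ (n + 2) - ρ ^ (n + 2)| ≤ _
      have hk := abs_pow_sub_pow_le (rad (body f) θ) ρ (n + 2)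
      refine hk.trans ?_
      have hmax : max |rad (body f) θ| |ρ| ≤ 2 * R := by
        refine max_le ?_ (by rw [abs_of_pos hρ]; linarith)
        have := abs_le.1 (hd θ)
        rw [abs_of_pos (hf.rad_pos θ)]
        nlinarith
      calc |rad (body f) θ - ρ| * ((n + 2 : ℕ) : ℝ) * max |rad (body f) θ| |ρ| ^ (n + 2 - 1)
          ≤ R * (|s| * C) * ((n + 2 : ℕ) : ℝ) * (2 * R) ^ (n + 1) := by
            rw [show n + 2 - 1 = n + 1 by omega]
            refine mul_le_mul (mul_le_mul_of_nonneg_right (hd θ) (Nat.cast_nonneg _))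
              (pow_le_pow_left₀ (le_max_of_le_left (abs_nonneg _)) hmax _) (by positivity)
              (by positivity)
        _ = ((n + 2 : ℕ) : ℝ) * 2 ^ (n + 1) * (R ^ (n + 2) * C * |s|) := by ring
        _ ≤ 3 ^ (n + 2) * 8 * (R ^ (n + 2) * C * |s|) := by
            refine mul_le_mul_of_nonneg_right ?_ (by positivity)
            have hk3 : ∀ j : ℕ, ((j + 2 : ℕ) : ℝ) * 2 ^ (j + 1) ≤ 3 ^ (j + 2) * 8 := by
              intro j
              induction j with
              | zero => norm_num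
              | succ j ihj =>
                push_cast at ihj ⊢
                have e1 : (2 : ℝ) ^ (j + 1 + 1) = 2 * 2 ^ (j + 1) := by ring
                have e2 : (3 : ℝ) ^ (j + 1 + 2) = 3 * 3 ^ (j + 2) := by ring
                rw [e1, e2]
                have : (0 : ℝ) < 2 ^ (j + 1) := by positivity
                nlinarith
            exact hk3 n
        _ = _ := by ring
    · rw [integral_const, smul_eq_mul]; simp only [κ2, μ]; ring
  have hsym : ∀ {f : Sp n → ℝ}, (∀ u, f (-u) = f u) → ∀ x ∈ body f, -x ∈ body f := by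
    intro f hf x hx u hu
    rw [inner_neg_left, ← inner_neg_right, ← hf u]
    exact hx (-u) (by simpa using hu)
  have hprod : Mp * Vm + Vp * Mm ≤ M * V + V * M := by
    have h1 := mom2_le bp.cpt bm.cpt hb.cpt (hsym fun u => by simp [fp, heh, heg])
      (hsym fun u => by simp [fm, heh, heg]) (hsym heh) fun a ha b hb' u hu => by
        rw [inner_add_left, real_inner_smul_left, real_inner_smul_left]
        have h1 := ha u hu
        have h2 := hb' u hu
        simp only [fp] at h1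
        simp only [fm] at h2
        linarith
    have fin : ∀ {X : Set (Sp n)}, Body X → mom2 X ≠ ⊤ ∧ volume X ≠ ⊤ := fun hX =>
      ⟨mom2_ne_top hX.cpt, hX.cpt.measure_lt_top.ne⟩
    have h2 := ENNReal.toReal_mono (ENNReal.add_ne_top.2
      ⟨ENNReal.mul_ne_top (fin hb).1 (fin hb).2, ENNReal.mul_ne_top (fin hb).2 (fin hb).1⟩) h1
    rw [ENNReal.toReal_add (ENNReal.mul_ne_top (fin bp).1 (fin bm).2)
        (ENNReal.mul_ne_top (fin bp).2 (fin bm).1),
      ENNReal.toReal_add (ENNReal.mul_ne_top (fin hb).1 (fin hb).2)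
        (ENNReal.mul_ne_top (fin hb).2 (fin hb).1)] at h2
    simp only [ENNReal.toReal_mul] at h2
    exact h2
  have mp := mlip bp fun θ => (key θ).2.1
  have mm := mlip bm fun θ => (key θ).2.2
  have hV0 : 0 ≤ V := measureReal_nonneg
  have hsr : 0 ≤ |s| := abs_nonneg s
  have hk1 : 0 ≤ κ1 := by have := hR.trans hS; positivity
  have hk2 : 0 ≤ κ2 := by positivity
  have b1 : -((Mp - M) * (Vm - V)) ≤ κ2 * |s| * |Vm - V| :=
    (neg_le_abs _).trans (by rw [abs_mul]; exact mul_le_mul_of_nonneg_right mp (abs_nonneg _))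
  have b2 : -((Mm - M) * (Vp - V)) ≤ κ2 * |s| * |Vp - V| :=
    (neg_le_abs _).trans (by rw [abs_mul]; exact mul_le_mul_of_nonneg_right mm (abs_nonneg _))
  have h3 := mul_le_mul_of_nonneg_left hint hV0
  have a1 := mul_nonneg (mul_nonneg hk1 hV0) (mul_nonneg hsr (abs_nonneg (Vp - V)))
  have a2 := mul_nonneg (mul_nonneg hk1 hV0) (mul_nonneg hsr (abs_nonneg (Vm - V)))
  have a3 := mul_nonneg hk2 (pow_nonneg hsr 3)
  have a4 := mul_nonneg hk2 (mul_nonneg hsr (abs_nonneg (Vp - V)))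
  have a5 := mul_nonneg hk2 (mul_nonneg hsr (abs_nonneg (Vm - V)))
  show (S ^ 2 * V + M) * (Vp + Vm - 2 * V) + 2 * q * V * (Ve - V) ≤ _
  linarith

end Vale.Agent.P227.Local.Pinch
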