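import Vale.Agent.P227.Local.Pinch

/-!
The second variation at bodies pinched between two close ellipsoids.
-/

namespace Vale.Agent.P227.Local.Pinch

open MeasureTheory Metric Set Filter Topology
open scoped RealInnerProductSpace Pointwise ENNReal
open Vale.Agent.P227.Local.Moment

variable {n : ℕ} [NeZero n] {h g : Sp n → ℝ} {r R : ℝ}

omit [NeZero n] in
lemma vol_comp (T : Sp n ≃L[ℝ] Sp n) :
    ∃ κ : ℝ, 0 < κ ∧ ∀ f : Sp n → ℝ, Reg f → vol (fun u => f (T.symm u)) = κ * vol f := by
  set B0 : Sp n ≃ₗ[ℝ] (Fin n → ℝ) := WithLp.linearEquiv 2 ℝ (Fin n → ℝ)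
  obtain ⟨κ0, h0, hv0⟩ := vol_push B0
  obtain ⟨κ1, h1, hv1⟩ := vol_push (T.toLinearEquiv.trans B0)
  refine ⟨κ1 / κ0, div_pos h1 h0, fun f hf => ?_⟩
  have e : push (T.toLinearEquiv.trans B0) f = push B0 (fun u => f (T.symm u)) := rfl
  have := hv1 f hf
  rw [e, hv0 _ (hf.comp T.symm)] at this
  field_simp
  linarith

lemma vol_scale {f : Sp n → ℝ} {c : ℝ} (hc : 0 < c) :
    vol (fun u => c * f u) = c ^ n * vol f := by
  have e : body (fun u => c * f u) = c • body f := by
    ext x
    constructor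
    · intro hx
      refine ⟨c⁻¹ • x, fun u hu => ?_, by simp [smul_smul, hc.ne']⟩
      rw [real_inner_smul_left, inv_mul_le_iff₀ hc]
      exact hx u hu
    · rintro ⟨y, hy, rfl⟩ u hu
      rw [real_inner_smul_left]
      exact mul_le_mul_of_nonneg_left (hy u hu) hc.le
  rw [vol, e, measureReal_def, Measure.addHaar_smul, ENNReal.toReal_mul,
    ENNReal.toReal_ofReal (abs_nonneg _), finrank_euclideanSpace_fin,
    abs_of_nonneg (pow_nonneg hc.le _)]
  rfl

omit [NeZero n] in
lemma pow_err (c : ℝ) :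
    Err fun s => (1 + c * s) ^ n - (1 + s * (n * c) + s ^ 2 * ((n * (n - 1) / 2 : ℝ) * c ^ 2)) := by
  refine Asymptotics.IsBigO.of_bound (3 ^ n * |c| ^ 3) ?_
  filter_upwards [ev_lt (f := fun s => |c * s|) (r := 1) (by fun_prop) (by simp)] with s hs
  have := pow_approx n hs.le
  rw [Real.norm_eq_abs, Real.norm_eq_abs, abs_pow, mul_assoc, ← mul_pow, ← abs_mul]
  refine le_trans (le_of_eq ?_) this
  congr 1
  ring

/-- The identities of the scaling direction. -/
lemma scale_dir (hh : Good h) :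
    lin1 h h = n * vol h ∧ quad h h = (n * (n - 1) / 2 : ℝ) * vol h := by
  obtain ⟨-, e⟩ := curve hh hh.toReg reg_zero
  rw [lin1_zero hh, add_zero] at e
  refine eq_of_err ((((pow_err (n := n) 1).mul_cont (k := fun _ => vol h) continuousAt_const).sub e).congr ?_)
  filter_upwards [Ioi_mem_nhds (show (-1 : ℝ) < 0 by norm_num)] with s (hs : -1 < s)
  have he : fam h h (fun _ => 0) s (s ^ 2) = fun u => (1 + s) * h u := funext fun u => by
    simp [fam]; ring
  rw [he, vol_scale (by linarith)]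
  ring

/-- Removing the scaling component leaves the second variation unchanged. -/
lemma form_shift (hh : Good h) (hg : Reg g) :
    ∃ g0 : Sp n → ℝ, Reg g0 ∧ ((∀ u, h (-u) = h u) → (∀ u, g (-u) = g u) → ∀ u, g0 (-u) = g0 u) ∧
      lin1 h g0 = 0 ∧ form h g = quad h g0 + lin1 h (qf h g0) := by
  have hV := vol_pos hh
  obtain ⟨l1, l2⟩ := scale_dir hh
  set V := vol h with hVd
  set a := lin1 h g with ha
  set c := a / (n * V) with hc
  have hn : (0 : ℝ) < n := by exact_mod_cast Nat.pos_of_ne_zero (NeZero.ne n)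
  have hac : a = c * (n * V) := by rw [hc]; field_simp
  set g0 : Sp n → ℝ := fun z => 1 * g z + (-c) * h z with hg0
  have r0 : Reg g0 := (hg.smul 1).add (hh.toReg.smul (-c))
  have la : lin1 h g0 = 0 := by rw [lin1_lin hh hg hh.toReg, l1]; linarith
  refine ⟨g0, r0, fun heh heg u => by simp [hg0, heh, heg], la, ?_⟩
  have hd : Reg fun z => -c * g z := hg.smul (-c)
  have ld : lin1 h (fun z => -c * g z) = -c * a := by
    have := lin1_lin hh hg hg (-c) 0
    simpa using this
  obtain ⟨-, e0⟩ := curve hh r0 hd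
  obtain ⟨-, eg⟩ := curve hh hg reg_zero
  rw [la, ld] at e0
  rw [lin1_zero hh, add_zero] at eg
  have hQ : (0 : ℝ) = a - c * (n * V) ∧ quad h g0 + -c * a
      = quad h g + -(n * c) * a + (n * (n - 1) / 2 : ℝ) * c ^ 2 * V := by
    have ep := pow_err (n := n) (-c)
    have e1 := eg.mul_cont (k := fun s => (1 + -c * s) ^ n) (by fun_prop)
    have e2 := ep.mul_cont (k := fun s => V + s * a + s ^ 2 * quad h g) (by fun_prop)
    have e3 := err_cube (k := fun s => -(n * c) * quad h g + (n * (n - 1) / 2 : ℝ) * c ^ 2 * a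
      + s * ((n * (n - 1) / 2 : ℝ) * c ^ 2 * quad h g)) (by fun_prop)
    refine eq_of_err ((((e1.add e2).add e3).sub e0).congr ?_)
    filter_upwards [ev_lt (f := fun s => c * s) (r := 1) (by fun_prop) (by simp)] with s hs
    have he : fam h g0 (fun z => -c * g z) s (s ^ 2)
        = fun u => (1 + -c * s) * fam h g (fun _ => 0) s (s ^ 2) u := funext fun u => by
      simp [fam, hg0]; ring
    rw [he, vol_scale (by linarith)]
    ring
  have hq : lin1 h (qf h g0) = lin1 h (qf h g) - c * a + c ^ 2 / 2 * (n * V) := by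
    have hqg := qf_reg hh hg
    have e : qf h g0 = fun z => 1 * (1 * qf h g z + (-c) * g z) + c ^ 2 / 2 * h z := by
      funext z
      rcases eq_or_ne z 0 with rfl | hz
      · simp [qf, hg0, hg.zero, hh.toReg.zero]
      · have := (hh.pos' hz).ne'
        simp only [qf, hg0]
        field_simp
        ring
    rw [e, lin1_lin hh ((hqg.smul 1).add (hg.smul (-c))) hh.toReg, lin1_lin hh hqg hg, l1]
    ring
  unfold form
  rw [hq, ← ha, ← hVd, show quad h g0 = quad h g + -(n * c) * a
    + (n * (n - 1) / 2 : ℝ) * c ^ 2 * V + c * a by linarith [hQ.2], hac]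
  field_simp
  ring

/-- The second variation is nonpositive at pinched bodies. -/
theorem form_nonpos_pinched (hh : Good h) (heh : ∀ u, h (-u) = h u) (hg : Reg g)
    (heg : ∀ u, g (-u) = g u) (T : Sp n ≃L[ℝ] Sp n) (hr : 0 < r)
    (hlo : ∀ u, r * ‖T u‖ ≤ h u) (hhi : ∀ u, h u ≤ R * ‖T u‖)
    (hpinch : (n : ℝ) * (n + 3) * R ^ 2 ≤ (n + 1) * (n + 2) * r ^ 2) : form h g ≤ 0 := by
  obtain ⟨g0, r0, heg0, la, hform⟩ := form_shift hh hg
  have heg0 := heg0 heh heg
  rw [hform]
  obtain ⟨κ, hκ, hv⟩ := vol_comp T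
  set h' : Sp n → ℝ := fun u => h (T.symm u) with hh'
  set g' : Sp n → ℝ := fun u => g0 (T.symm u) with hg'
  have lo' : ∀ u, r * ‖u‖ ≤ h' u := fun u => by simpa [hh'] using hlo (T.symm u)
  have hi' : ∀ u, h' u ≤ R * ‖u‖ := fun u => by simpa [hh'] using hhi (T.symm u)
  obtain ⟨C, -, hC⟩ := rel_bound hh r0
  set V := vol h with hV
  have hV0 : 0 < V := vol_pos hh
  set M := (mom2 (body h')).toReal
  have hvh : vol h' = κ * V := hv h hh.toReg
  have hb := body_body hr lo'
  have hn : (0 : ℝ) < n := by exact_mod_cast Nat.pos_of_ne_zero (NeZero.ne n)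
  have hMle : M ≤ n / (n + 2) * R ^ 2 * (κ * V) := by
    rw [← hvh]
    show (mom2 (body h')).toReal ≤ n / (n + 2) * R ^ 2 * volume.real (body h')
    rw [mom_rad hb, vol_rad hb]
    have : ∫ θ, rad (body h') θ ^ (n + 2) ∂(volume : Measure (Sp n)).toSphere
        ≤ R ^ 2 * ∫ θ, rad (body h') θ ^ n ∂(volume : Measure (Sp n)).toSphere := by
      rw [← integral_const_mul]
      refine integral_mono (rad_int hb _) ((rad_int hb _).const_mul _) fun θ => ?_
      show rad (body h') θ ^ (n + 2) ≤ R ^ 2 * rad (body h') θ ^ n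
      rw [pow_add, mul_comm]
      refine mul_le_mul_of_nonneg_right ?_ (pow_nonneg (hb.rad_pos θ).le n)
      exact pow_le_pow_left₀ (hb.rad_pos θ).le (rad_bounds hr lo' hi' θ).2 2
    refine (div_le_div_of_nonneg_right this (Nat.cast_nonneg _)).trans (le_of_eq ?_)
    push_cast
    field_simp
  set Q := quad h g0
  set L := lin1 h (qf h g0)
  obtain ⟨-, eA⟩ := curve hh r0 reg_zero
  obtain ⟨-, eE⟩ := curve hh reg_zero (qf_reg hh r0)
  rw [lin1_zero hh, la, add_zero] at eA
  rw [lin1_zero hh, quad_zero hh, zero_add] at eE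
  have hA : ∀ s, vol (fun u => h' u + s * g' u) = κ * vol (fam h g0 (fun _ => 0) s (s ^ 2)) := by
    intro s
    rw [← hv _ (fam_reg hh.toReg r0 reg_zero s (s ^ 2))]
    congr 1; funext u; simp [fam, hh', hg']
  have hE : ∀ s, vol (fun u => h' u + s ^ 2 * qf h' g' u)
      = κ * vol (fam h (fun _ => 0) (qf h g0) s (s ^ 2)) := by
    intro s
    rw [← hv _ (fam_reg hh.toReg reg_zero (qf_reg hh r0) s (s ^ 2))]
    congr 1; funext u; simp [fam, qf, hh', hg']
  set ea : ℝ → ℝ := fun s => vol (fam h g0 (fun _ => 0) s (s ^ 2)) - (V + s * 0 + s ^ 2 * Q)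
  set ee : ℝ → ℝ := fun s => vol (fam h (fun _ => 0) (qf h g0) s (s ^ 2)) - (V + s * 0 + s ^ 2 * L)
  have hL : 0 ≤ L := by
    have := (coeff_nonpos eE (a := 0) (b := -L) ?_).2
    · linarith
    refine Eventually.of_forall fun s => ?_
    have hle : V ≤ vol (fam h (fun _ => 0) (qf h g0) s (s ^ 2)) := by
      refine measureReal_mono (fun x hx u hu => (hx u hu).trans ?_)
        (body_isCompact _).measure_lt_top.ne
      simp only [fam, mul_zero, add_zero, one_mul]
      exact le_add_of_nonneg_right (mul_nonneg (sq_nonneg s)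
        (div_nonneg (sq_nonneg _) (by linarith [hh.nonneg u])))
    linarith
  have hR : 0 < R := by
    obtain ⟨θ⟩ : Nonempty (sphere (0 : Sp n) 1) :=
      ⟨⟨EuclideanSpace.single (⟨0, Nat.pos_of_ne_zero (NeZero.ne n)⟩ : Fin n) 1, by simp⟩⟩
    exact hr.trans_le ((rad_bounds hr lo' hi' θ).1.trans (rad_bounds hr lo' hi' θ).2)
  set qS : ℝ → ℝ := fun S => (n + 1) * r ^ 2 - ((n : ℝ) - 1) * S ^ 2 with hqS
  have hqR : R ^ 2 + n / (n + 2) * R ^ 2 ≤ qS R := by
    rw [hqS]
    refine le_of_mul_le_mul_right ?_ (by linarith : (0 : ℝ) < n + 2)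
    have : n / (n + 2) * R ^ 2 * ((n : ℝ) + 2) = n * R ^ 2 := by field_simp
    linarith
  have key : ∀ S, R < S → 0 ≤ qS S → (S ^ 2 * (κ * V) + M) * Q + qS S * (κ * V) * L ≤ 0 := by
    intro S hS hq
    obtain ⟨K, hK⟩ := core (hh.toReg.comp T.symm) (fun u => by simp [heh]) hr lo' hi'
      (r0.comp T.symm) (fun u => by simp [heg0]) (fun u => hC (T.symm u)) hS hq
    have e2 : Err fun s => |s| * s ^ 2 := by
      refine Asymptotics.IsBigO.of_bound 1 (Eventually.of_forall fun s => ?_)
      simp only [Real.norm_eq_abs, abs_mul, abs_abs, abs_pow]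
      exact le_of_eq (by ring)
    have ea' : Err ea := eA
    have ee' : Err ee := eE
    have eabs : ∀ {e : ℝ → ℝ}, Err e → Err fun s => |s| * |e s| := fun {e} he =>
      Err.mul_cont (show Err fun s => |e s| from Asymptotics.IsBigO.abs_left he)
        continuous_abs.continuousAt
    have herr : Err fun s => |K| * (|s| * s ^ 2) * (1 + 2 * κ * |Q|)
        + |K| * κ * (|s| * |ea s| + |s| * |ea (-s)|)
        - κ * (S ^ 2 * (κ * V) + M) * (ea s + ea (-s)) - 2 * qS S * (κ * V) * κ * ee s := by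
      refine ((((e2.mul_cont (k := fun _ => |K| * (1 + 2 * κ * |Q|)) continuousAt_const).add
        (((eabs ea').add (eabs ea'.reflect)).mul_cont (k := fun _ => |K| * κ) continuousAt_const)).sub
        ((ea'.add ea'.reflect).mul_cont (k := fun _ => κ * (S ^ 2 * (κ * V) + M))
          continuousAt_const)).sub (ee'.mul_cont (k := fun _ => 2 * qS S * (κ * V) * κ)
          continuousAt_const)).congr (Eventually.of_forall fun s => ?_)
      ring
    have := (coeff_nonpos herr (a := 0)
      (b := 2 * κ * ((S ^ 2 * (κ * V) + M) * Q + qS S * (κ * V) * L)) ?_).2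
    · exact nonpos_of_mul_nonpos_right this (by positivity)
    filter_upwards [hK] with s hs
    have hAm := hA (-s)
    rw [show vol h' = κ * V from hvh, hA s, hAm, hE s] at hs
    have e1 : vol (fam h g0 (fun _ => 0) s (s ^ 2)) = V + s ^ 2 * Q + ea s := by
      simp only [ea]; ring
    have e1' : vol (fam h g0 (fun _ => 0) (-s) ((-s) ^ 2)) = V + s ^ 2 * Q + ea (-s) := by
      simp only [ea, neg_sq]; ring
    have e3 : vol (fam h (fun _ => 0) (qf h g0) s (s ^ 2)) = V + s ^ 2 * L + ee s := by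
      simp only [ee]; ring
    rw [e1, e1', e3] at hs
    have b : ∀ x, |κ * (V + s ^ 2 * Q + x) - κ * V| ≤ κ * (s ^ 2 * |Q| + |x|) := fun x => by
      rw [← mul_sub, abs_mul, abs_of_pos hκ]
      refine mul_le_mul_of_nonneg_left ?_ hκ.le
      rw [show V + s ^ 2 * Q + x - V = s ^ 2 * Q + x by ring]
      exact (abs_add_le _ _).trans (by rw [abs_mul, abs_of_nonneg (sq_nonneg s)])
    have hsum : K * |s| * (|s| ^ 2 + |κ * (V + s ^ 2 * Q + ea s) - κ * V|
        + |κ * (V + s ^ 2 * Q + ea (-s)) - κ * V|)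
        ≤ |K| * |s| * (s ^ 2 + κ * (s ^ 2 * |Q| + |ea s|) + κ * (s ^ 2 * |Q| + |ea (-s)|)) := by
      rw [sq_abs]
      exact mul_le_mul (mul_le_mul_of_nonneg_right (le_abs_self K) (abs_nonneg s))
        (by linarith [b (ea s), b (ea (-s))]) (by positivity) (by positivity)
    linarith
  have hlim : (R ^ 2 * (κ * V) + M) * Q + qS R * (κ * V) * L ≤ 0 := by
    have hc : Continuous fun S => (S ^ 2 * (κ * V) + M) * Q + qS S * (κ * V) * L := by
      simp only [hqS]; fun_prop
    have hpos : ∀ᶠ S in 𝓝 R, 0 ≤ qS S :=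
      ((by simp only [hqS]; fun_prop : Continuous qS).tendsto R).eventually
        (le_mem_nhds (lt_of_lt_of_le (by positivity) hqR))
    refine le_of_tendsto ((hc.tendsto R).mono_left nhdsWithin_le_nhds : Tendsto _ (𝓝[>] R) _) ?_
    filter_upwards [self_mem_nhdsWithin, nhdsWithin_le_nhds hpos] with S hS hq using key S hS hq
  have hW : 0 < R ^ 2 * (κ * V) + M := by
    have : 0 ≤ M := ENNReal.toReal_nonneg
    have : 0 < R ^ 2 * (κ * V) := by positivity
    linarith
  have h1 : (R ^ 2 * (κ * V) + M) * L ≤ qS R * (κ * V) * L := by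
    refine mul_le_mul_of_nonneg_right ?_ hL
    have := mul_le_mul_of_nonneg_right hqR (by positivity : 0 ≤ κ * V)
    linarith
  refine le_of_mul_le_mul_left ?_ hW
  rw [mul_zero]
  linarith

end Vale.Agent.P227.Local.Pinch
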